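import Mathlib

/-!
Densities on `Fin n → ℝ` with Gaussian tails, their marginals and conditional densities.
-/

namespace Vale.Agent.P245

open MeasureTheory Set Filter Topology Function Finset
open scoped ENNReal

/-- Sum of squares of the coordinates. -/
noncomputable def sumSq {ι : Type*} [Fintype ι] (x : ι → ℝ) : ℝ := ∑ i, x i ^ 2

lemma sumSq_nonneg {ι : Type*} [Fintype ι] (x : ι → ℝ) : 0 ≤ sumSq x :=
  Finset.sum_nonneg fun _ _ => sq_nonneg _

lemma sq_le_sumSq {ι : Type*} [Fintype ι] (x : ι → ℝ) (i : ι) : x i ^ 2 ≤ sumSq x :=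
  Finset.single_le_sum (f := fun j => x j ^ 2) (fun _ _ => sq_nonneg _) (Finset.mem_univ i)

@[fun_prop]
lemma continuous_sumSq {ι : Type*} [Fintype ι] : Continuous (sumSq (ι := ι)) := by
  unfold sumSq; fun_prop

lemma integrable_gauss {ι : Type*} [Fintype ι] {e : ℝ} (he : 0 < e) :
    Integrable (fun y : ι → ℝ => Real.exp (-e * sumSq y)) := by
  have h : (fun y : ι → ℝ => Real.exp (-e * sumSq y))
      = fun y => ∏ i, Real.exp (-e * y i ^ 2) := by
    funext y; rw [← Real.exp_sum, sumSq, Finset.mul_sum]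
  rw [h]
  exact Integrable.fintype_prod (f := fun (_ : ι) (t : ℝ) => Real.exp (-e * t ^ 2))
    (fun _ => integrable_exp_neg_mul_sq he)

lemma poly_le_exp {e s : ℝ} (he : 0 < e) (hs : 0 ≤ s) :
    (1 + s) ^ 2 ≤ (2 / e + 1) ^ 2 * Real.exp (e * s) := by
  have h := Real.add_one_le_exp (e * s / 2)
  have h2 : Real.exp (e * s) = Real.exp (e * s / 2) ^ 2 := by
    rw [← Real.exp_nat_mul]; congr 1; push_cast; ring
  rw [h2, ← mul_pow]
  refine pow_le_pow_left₀ (by linarith) ?_ 2
  calc 1 + s ≤ (2 / e + 1) * (e * s / 2 + 1) := by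
        field_simp; nlinarith [mul_nonneg he.le hs]
    _ ≤ _ := mul_le_mul_of_nonneg_left h (by positivity)

/-- A positive probability density with Gaussian bounds and controlled line derivatives. -/
structure Dens (n : ℕ) where
  p : (Fin n → ℝ) → ℝ
  D : Fin n → (Fin n → ℝ) → ℝ
  cont : Continuous p
  lower : ∃ c A : ℝ, 0 < c ∧ 0 < A ∧ ∀ x, c * Real.exp (-A * sumSq x) ≤ p x
  upper : ∃ C e : ℝ, 0 < e ∧ ∀ x, p x ≤ C * Real.exp (-e * sumSq x)
  deriv : ∀ i x, HasDerivAt (fun t => p (update x i t)) (D i x) (x i)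
  Dmeas : ∀ i, Measurable (D i)
  Dbound : ∃ C : ℝ, ∀ i x, |D i x| ≤ C * (1 + sumSq x) * p x
  one : ∫ x, p x = 1

/-- The coordinates with index at least `k`. -/
def tailSet (n k : ℕ) : Finset (Fin n) := Finset.univ.filter fun i => k ≤ (i : ℕ)

lemma mem_tailSet {n k : ℕ} {i : Fin n} : i ∈ tailSet n k ↔ k ≤ (i : ℕ) := by simp [tailSet]

lemma tailSet_succ {n : ℕ} (i : Fin n) :
    tailSet n (i : ℕ) = insert i (tailSet n ((i : ℕ) + 1)) := by
  ext j; simp only [mem_tailSet, Finset.mem_insert, Fin.ext_iff]; omega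

lemma notMem_tailSet_succ {n : ℕ} (i : Fin n) : i ∉ tailSet n ((i : ℕ) + 1) := by
  simp [mem_tailSet]

/-- `f` only depends on the coordinates below `k`. -/
def DepBelow {n : ℕ} {α : Type*} (k : ℕ) (f : (Fin n → ℝ) → α) : Prop :=
  ∀ x y, (∀ i : Fin n, (i : ℕ) < k → x i = y i) → f x = f y

lemma DepBelow.update {n k : ℕ} {α : Type*} {f : (Fin n → ℝ) → α} (h : DepBelow k f)
    {i : Fin n} (hi : k ≤ (i : ℕ)) (x : Fin n → ℝ) (t : ℝ) : f (Function.update x i t) = f x := by
  refine h _ _ fun j hj => ?_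
  rw [Function.update_of_ne]
  rintro rfl; omega

namespace Dens

variable {n : ℕ} (P : Dens n)

lemma pos (x : Fin n → ℝ) : 0 < P.p x := by
  obtain ⟨c, A, hc, -, h⟩ := P.lower
  exact lt_of_lt_of_le (by positivity) (h x)

lemma integrable : Integrable P.p :=
  Integrable.of_integral_ne_zero (by rw [P.one]; norm_num)

lemma integrable_poly : Integrable fun x => (1 + sumSq x) ^ 2 * P.p x := by
  obtain ⟨C, e, he, h⟩ := P.upper
  have hi := ((integrable_gauss (ι := Fin n) (show 0 < e / 2 by linarith)).const_mul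
    ((2 / (e / 2) + 1) ^ 2 * C))
  refine hi.mono' ((by have := P.cont; fun_prop : Continuous _)).aestronglyMeasurable
    (Eventually.of_forall fun x => ?_)
  rw [Real.norm_eq_abs, abs_of_nonneg (mul_nonneg (sq_nonneg _) (P.pos x).le)]
  calc (1 + sumSq x) ^ 2 * P.p x
      ≤ ((2 / (e / 2) + 1) ^ 2 * Real.exp (e / 2 * sumSq x)) * (C * Real.exp (-e * sumSq x)) :=
        mul_le_mul (poly_le_exp (by linarith) (sumSq_nonneg x)) (h x) (P.pos x).le (by positivity)
    _ = (2 / (e / 2) + 1) ^ 2 * C * (Real.exp (e / 2 * sumSq x) * Real.exp (-e * sumSq x)) := by ring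
    _ = _ := by rw [← Real.exp_add]; ring_nf

lemma integrable_of_le {g : (Fin n → ℝ) → ℝ} (hg : Measurable g) {C : ℝ}
    (h : ∀ x, |g x| ≤ C * ((1 + sumSq x) ^ 2 * P.p x)) : Integrable g :=
  (P.integrable_poly.const_mul C).mono' hg.aestronglyMeasurable
    (Eventually.of_forall fun x => by simpa using h x)

/-- Marginal of the first `k` coordinates. -/
noncomputable def mg (k : ℕ) (x : Fin n → ℝ) : ℝ :=
  ∫ y : tailSet n k → ℝ, P.p (updateFinset x (tailSet n k) y)

lemma sumSq_tail_le (k : ℕ) (x : Fin n → ℝ) (y : tailSet n k → ℝ) :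
    sumSq y ≤ sumSq (updateFinset x (tailSet n k) y) := by
  unfold sumSq
  rw [Finset.univ_eq_attach]
  calc ∑ i ∈ (tailSet n k).attach, y i ^ 2
      = ∑ i ∈ (tailSet n k).attach, updateFinset x (tailSet n k) y i ^ 2 := by
        refine Finset.sum_congr rfl fun i _ => ?_
        simp [updateFinset_def]
    _ = ∑ i ∈ tailSet n k, updateFinset x (tailSet n k) y i ^ 2 :=
        Finset.sum_attach _ (fun i => updateFinset x (tailSet n k) y i ^ 2)
    _ ≤ _ := Finset.sum_le_univ_sum_of_nonneg fun i => sq_nonneg _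

lemma sumSq_update_le (k : ℕ) (x : Fin n → ℝ) (y : tailSet n k → ℝ) :
    sumSq (updateFinset x (tailSet n k) y) ≤ sumSq x + sumSq y := by
  unfold sumSq
  rw [← Finset.sum_add_sum_compl (tailSet n k) (fun i => updateFinset x (tailSet n k) y i ^ 2),
    Finset.univ_eq_attach]
  have h1 : ∑ i ∈ tailSet n k, updateFinset x (tailSet n k) y i ^ 2
      = ∑ i ∈ (tailSet n k).attach, y i ^ 2 := by
    rw [← Finset.sum_attach _ (fun i => updateFinset x (tailSet n k) y i ^ 2)]
    exact Finset.sum_congr rfl fun i _ => by simp [updateFinset_def]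
  have h2 : ∑ i ∈ (tailSet n k)ᶜ, updateFinset x (tailSet n k) y i ^ 2 ≤ ∑ i, x i ^ 2 := by
    calc _ = ∑ i ∈ (tailSet n k)ᶜ, x i ^ 2 :=
          Finset.sum_congr rfl fun i hi => by simp [updateFinset_def, Finset.mem_compl.1 hi]
      _ ≤ _ := Finset.sum_le_univ_sum_of_nonneg fun i => sq_nonneg _
  linarith

lemma continuous_slice (k : ℕ) (x : Fin n → ℝ) :
    Continuous fun y : tailSet n k → ℝ => P.p (updateFinset x (tailSet n k) y) :=
  P.cont.comp (continuous_pi fun i => by
    by_cases h : i ∈ tailSet n k <;> simp only [updateFinset_def, h, ↓reduceDIte] <;> fun_prop)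

lemma integrable_slice (k : ℕ) (x : Fin n → ℝ) :
    Integrable fun y : tailSet n k → ℝ => P.p (updateFinset x (tailSet n k) y) := by
  obtain ⟨C, e, he, h⟩ := P.upper
  refine ((integrable_gauss he).const_mul |C|).mono' (P.continuous_slice k x).aestronglyMeasurable
    (Eventually.of_forall fun y => ?_)
  rw [Real.norm_eq_abs, abs_of_pos (P.pos _)]
  refine (h _).trans ((mul_le_mul_of_nonneg_right (le_abs_self C) (Real.exp_pos _).le).trans ?_)
  refine mul_le_mul_of_nonneg_left (Real.exp_le_exp.2 ?_) (abs_nonneg C)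
  nlinarith [sumSq_tail_le k x y]

lemma continuous_mg (k : ℕ) : Continuous (P.mg k) := by
  obtain ⟨C, e, he, h⟩ := P.upper
  refine continuous_of_dominated (bound := fun y => |C| * Real.exp (-e * sumSq y))
    (fun x => (P.continuous_slice k x).aestronglyMeasurable) (fun x => Eventually.of_forall fun y => ?_)
    ((integrable_gauss he).const_mul |C|) (Eventually.of_forall fun y => ?_)
  · rw [Real.norm_eq_abs, abs_of_pos (P.pos _)]
    refine (h _).trans ((mul_le_mul_of_nonneg_right (le_abs_self C) (Real.exp_pos _).le).trans ?_)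
    refine mul_le_mul_of_nonneg_left (Real.exp_le_exp.2 ?_) (abs_nonneg C)
    nlinarith [sumSq_tail_le k x y]
  · exact P.cont.comp (continuous_pi fun i => by
      by_cases h : i ∈ tailSet n k <;> simp only [updateFinset_def, h, ↓reduceDIte] <;> fun_prop)

lemma mg_bounds (k : ℕ) : ∃ C : ℝ, ∀ x, 0 < P.mg k x ∧ |Real.log (P.mg k x)| ≤ C * (1 + sumSq x) := by
  obtain ⟨C, e, he, hU⟩ := P.upper
  obtain ⟨c, A, hc, hA, hL⟩ := P.lower
  set IA := ∫ y : tailSet n k → ℝ, Real.exp (-A * sumSq y)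
  have hIA : 0 < IA := by
    refine integral_exp_pos (integrable_gauss hA)
  set U := ∫ y : tailSet n k → ℝ, |C| * Real.exp (-e * sumSq y)
  have lo : ∀ x, (c * IA) * Real.exp (-A * sumSq x) ≤ P.mg k x := by
    intro x
    calc (c * IA) * Real.exp (-A * sumSq x)
        = ∫ y : tailSet n k → ℝ, c * Real.exp (-A * sumSq x) * Real.exp (-A * sumSq y) := by
          rw [integral_const_mul]; ring
      _ ≤ _ := by
          refine integral_mono ((integrable_gauss hA).const_mul _) (P.integrable_slice k x) fun y => ?_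
          refine le_trans ?_ (hL _)
          simp only [mul_assoc, ← Real.exp_add]
          refine mul_le_mul_of_nonneg_left (Real.exp_le_exp.2 ?_) hc.le
          nlinarith [sumSq_update_le k x y]
  have hpos : ∀ x, 0 < P.mg k x := fun x => lt_of_lt_of_le (by positivity) (lo x)
  have hi : ∀ x, P.mg k x ≤ U := by
    intro x
    refine integral_mono (P.integrable_slice k x) ((integrable_gauss he).const_mul _) fun y => ?_
    refine (hU _).trans ((mul_le_mul_of_nonneg_right (le_abs_self C) (Real.exp_pos _).le).trans ?_)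
    refine mul_le_mul_of_nonneg_left (Real.exp_le_exp.2 ?_) (abs_nonneg C)
    nlinarith [sumSq_tail_le k x y]
  refine ⟨|Real.log (c * IA)| + |Real.log U| + A, fun x => ⟨hpos x, ?_⟩⟩
  have h1 := Real.log_le_log (hpos x) (hi x)
  have h2 := Real.log_le_log (by positivity) (lo x)
  rw [Real.log_mul (by positivity) (Real.exp_pos _).ne', Real.log_exp] at h2
  have h0 := sumSq_nonneg x
  rw [abs_le]
  constructor <;>
    nlinarith [abs_le.1 (le_refl |Real.log U|), abs_le.1 (le_refl |Real.log (c * IA)|),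
      mul_nonneg (abs_nonneg (Real.log U)) h0, mul_nonneg (abs_nonneg (Real.log (c * IA))) h0,
      mul_nonneg hA.le h0]

lemma mg_pos (k : ℕ) (x : Fin n → ℝ) : 0 < P.mg k x := by
  obtain ⟨C, h⟩ := P.mg_bounds k
  exact (h x).1

lemma mg_dep (k : ℕ) : DepBelow k (P.mg k) := by
  intro x y h
  unfold mg
  congr 1; funext z; congr 1; funext i
  by_cases hi : i ∈ tailSet n k
  · simp [updateFinset_def, hi]
  · simp only [updateFinset_def, hi, ↓reduceDIte]
    exact h i (by simpa [mem_tailSet] using hi)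

lemma mg_top (x : Fin n → ℝ) : P.mg n x = P.p x := by
  have h : tailSet n n = ∅ := by
    ext i; simp [mem_tailSet]
  have : IsEmpty (tailSet n n) := by rw [h]; infer_instance
  unfold mg
  have e : ∀ y : tailSet n n → ℝ, updateFinset x (tailSet n n) y = x := fun y => by
    funext i; simp [updateFinset_def, h]
  simp only [e]
  rw [integral_const, measureReal_def, volume_pi, Measure.pi_empty_univ]
  simp

lemma lmarginal_eq (k : ℕ) (x : Fin n → ℝ) :
    (∫⋯∫⁻_(tailSet n k), fun z => ENNReal.ofReal (P.p z)) x = ENNReal.ofReal (P.mg k x) := by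
  unfold mg lmarginal
  rw [ofReal_integral_eq_lintegral_ofReal (P.integrable_slice k x)
    (Eventually.of_forall fun y => (P.pos _).le), volume_pi]

lemma mg_zero (x : Fin n → ℝ) : P.mg 0 x = 1 := by
  have h : tailSet n 0 = Finset.univ := by ext i; simp [mem_tailSet]
  have h1 := P.lmarginal_eq 0 x
  rw [h, lmarginal_univ, ← volume_pi, ← ofReal_integral_eq_lintegral_ofReal P.integrable
    (Eventually.of_forall fun y => (P.pos _).le), P.one] at h1
  exact ((ENNReal.ofReal_eq_ofReal_iff zero_le_one (P.mg_pos 0 x).le).1 h1).symm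

/-- Conditional density of coordinate `i` given the coordinates before it. -/
noncomputable def cnd (i : Fin n) (x : Fin n → ℝ) (t : ℝ) : ℝ :=
  P.mg ((i : ℕ) + 1) (update x i t) / P.mg (i : ℕ) x

lemma cnd_pos (i : Fin n) (x : Fin n → ℝ) (t : ℝ) : 0 < P.cnd i x t :=
  div_pos (P.mg_pos _ _) (P.mg_pos _ _)

lemma continuous_cnd₂ (i : Fin n) : Continuous (uncurry (P.cnd i)) := by
  refine ((P.continuous_mg _).comp (continuous_fst.update i continuous_snd)).div
    ((P.continuous_mg _).comp continuous_fst) fun z => (P.mg_pos _ _).ne'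

lemma continuous_cnd (i : Fin n) (x : Fin n → ℝ) : Continuous (P.cnd i x) :=
  (P.continuous_cnd₂ i).comp (by fun_prop : Continuous fun t : ℝ => (x, t))

lemma cnd_dep (i : Fin n) : DepBelow (i : ℕ) (P.cnd i) := by
  intro x y h
  funext t
  unfold cnd
  rw [P.mg_dep _ x y h, P.mg_dep _ (update x i t) (update y i t)]
  intro j hj
  rcases eq_or_ne j i with rfl | hne
  · simp
  · rw [update_of_ne hne, update_of_ne hne]
    exact h j (by have := Fin.val_ne_of_ne hne; omega)

lemma lintegral_mg_succ (i : Fin n) (x : Fin n → ℝ) :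
    ∫⁻ t, ENNReal.ofReal (P.mg ((i : ℕ) + 1) (update x i t)) = ENNReal.ofReal (P.mg (i : ℕ) x) := by
  simp only [← P.lmarginal_eq]
  rw [tailSet_succ i, lmarginal_insert _ P.cont.measurable.ennreal_ofReal (notMem_tailSet_succ i)]

lemma lintegral_cnd (i : Fin n) (x : Fin n → ℝ) :
    ∫⁻ t, ENNReal.ofReal (P.cnd i x t) = 1 := by
  have e : ∀ t, ENNReal.ofReal (P.cnd i x t) = ENNReal.ofReal (P.mg ((i : ℕ) + 1) (update x i t))
      * (ENNReal.ofReal (P.mg (i : ℕ) x))⁻¹ := fun t => by
    rw [cnd, ENNReal.ofReal_div_of_pos (P.mg_pos _ x), div_eq_mul_inv]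
  simp only [e]
  rw [lintegral_mul_const' _ _ (by simp [P.mg_pos]), P.lintegral_mg_succ,
    ENNReal.mul_inv_cancel (by simp [P.mg_pos]) ENNReal.ofReal_ne_top]

lemma integrable_cnd (i : Fin n) (x : Fin n → ℝ) : Integrable (P.cnd i x) :=
  (lintegral_ofReal_ne_top_iff_integrable (P.continuous_cnd i x).aestronglyMeasurable
    (Eventually.of_forall fun t => (P.cnd_pos i x t).le)).1 (by rw [P.lintegral_cnd]; simp)

lemma integral_cnd (i : Fin n) (x : Fin n → ℝ) : ∫ t, P.cnd i x t = 1 := by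
  rw [integral_eq_lintegral_of_nonneg_ae (Eventually.of_forall fun t => (P.cnd_pos i x t).le)
    (P.continuous_cnd i x).aestronglyMeasurable, P.lintegral_cnd, ENNReal.toReal_one]

/-- Conditional distribution function. -/
noncomputable def cdfAt (i : Fin n) (x : Fin n → ℝ) (t : ℝ) : ℝ := ∫ s in Iic t, P.cnd i x s

lemma hasDerivAt_cdfAt (i : Fin n) (x : Fin n → ℝ) (t : ℝ) :
    HasDerivAt (P.cdfAt i x) (P.cnd i x t) t := by
  have hi := P.integrable_cnd i x
  have e : P.cdfAt i x = fun t => P.cdfAt i x 0 + ∫ s in (0:ℝ)..t, P.cnd i x s := by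
    funext t
    rw [← intervalIntegral.integral_Iic_sub_Iic hi.integrableOn hi.integrableOn, cdfAt, cdfAt]
    ring
  rw [e]
  exact ((P.continuous_cnd i x).integral_hasStrictDerivAt 0 t).hasDerivAt.const_add _

lemma strictMono_cdfAt (i : Fin n) (x : Fin n → ℝ) : StrictMono (P.cdfAt i x) :=
  strictMono_of_hasDerivAt_pos (P.hasDerivAt_cdfAt i x) (P.cnd_pos i x)

lemma continuous_cdfAt (i : Fin n) (x : Fin n → ℝ) : Continuous (P.cdfAt i x) :=
  continuous_iff_continuousAt.2 fun t => (P.hasDerivAt_cdfAt i x t).continuousAt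

lemma tendsto_cdfAt_atTop (i : Fin n) (x : Fin n → ℝ) :
    Tendsto (P.cdfAt i x) atTop (𝓝 1) := by
  have hi := P.integrable_cnd i x
  have h := (intervalIntegral_tendsto_integral_Ioi (0:ℝ) hi.integrableOn tendsto_id).const_add
    (P.cdfAt i x 0)
  rw [show P.cdfAt i x 0 + ∫ s in Ioi (0:ℝ), P.cnd i x s = 1 by
    rw [cdfAt, intervalIntegral.integral_Iic_add_Ioi hi.integrableOn hi.integrableOn,
      P.integral_cnd]] at h
  refine h.congr fun t => ?_
  rw [id, ← intervalIntegral.integral_Iic_sub_Iic hi.integrableOn hi.integrableOn, cdfAt, cdfAt]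
  ring

lemma tendsto_cdfAt_atBot (i : Fin n) (x : Fin n → ℝ) :
    Tendsto (P.cdfAt i x) atBot (𝓝 0) := by
  have hi := P.integrable_cnd i x
  have h := (intervalIntegral_tendsto_integral_Iic (0:ℝ) hi.integrableOn tendsto_id).const_sub
    (P.cdfAt i x 0)
  rw [show P.cdfAt i x 0 - ∫ s in Iic (0:ℝ), P.cnd i x s = 0 by rw [cdfAt, sub_self]] at h
  refine h.congr fun t => ?_
  rw [id, ← intervalIntegral.integral_Iic_sub_Iic hi.integrableOn hi.integrableOn, cdfAt, cdfAt]
  ring

lemma cdfAt_mem (i : Fin n) (x : Fin n → ℝ) (t : ℝ) : P.cdfAt i x t ∈ Ioo (0:ℝ) 1 := by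
  constructor
  · exact lt_of_le_of_lt ((P.strictMono_cdfAt i x).monotone.le_of_tendsto
      (P.tendsto_cdfAt_atBot i x) (t - 1)) (P.strictMono_cdfAt i x (by linarith))
  · exact lt_of_lt_of_le (P.strictMono_cdfAt i x (show t < t + 1 by linarith))
      ((P.strictMono_cdfAt i x).monotone.ge_of_tendsto (P.tendsto_cdfAt_atTop i x) (t + 1))

lemma exists_cdfAt_eq (i : Fin n) (x : Fin n → ℝ) {u : ℝ} (hu : u ∈ Ioo (0:ℝ) 1) :
    ∃ t, P.cdfAt i x t = u := by
  obtain ⟨a, ha⟩ := ((P.tendsto_cdfAt_atBot i x).eventually (eventually_lt_nhds hu.1)).exists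
  obtain ⟨b, hb⟩ := ((P.tendsto_cdfAt_atTop i x).eventually (eventually_gt_nhds hu.2)).exists
  exact mem_range_of_exists_le_of_exists_ge (P.continuous_cdfAt i x) ⟨a, ha.le⟩ ⟨b, hb.le⟩

lemma cdfAt_dep (i : Fin n) : DepBelow (i : ℕ) (P.cdfAt i) := by
  intro x y h
  funext t
  simp only [cdfAt, P.cnd_dep i x y h]

/-- Conditional quantile. -/
noncomputable def quant (i : Fin n) (x : Fin n → ℝ) (u : ℝ) : ℝ :=
  sInf {t | u ≤ P.cdfAt i x t}

lemma quant_cdfAt (i : Fin n) (x : Fin n → ℝ) (t : ℝ) : P.quant i x (P.cdfAt i x t) = t := by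
  have : {s | P.cdfAt i x t ≤ P.cdfAt i x s} = Ici t := by
    ext s; exact (P.strictMono_cdfAt i x).le_iff_le
  rw [quant, this, csInf_Ici]

lemma cdfAt_quant (i : Fin n) (x : Fin n → ℝ) {u : ℝ} (hu : u ∈ Ioo (0:ℝ) 1) :
    P.cdfAt i x (P.quant i x u) = u := by
  obtain ⟨t, rfl⟩ := P.exists_cdfAt_eq i x hu
  rw [P.quant_cdfAt]

lemma quant_le_iff (i : Fin n) (x : Fin n → ℝ) {u : ℝ} (hu : u ∈ Ioo (0:ℝ) 1) (t : ℝ) :
    P.quant i x u ≤ t ↔ u ≤ P.cdfAt i x t := by
  conv_rhs => rw [← P.cdfAt_quant i x hu]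
  exact (P.strictMono_cdfAt i x).le_iff_le.symm

lemma quant_dep (i : Fin n) : DepBelow (i : ℕ) (P.quant i) := by
  intro x y h
  funext u
  simp only [quant, P.cdfAt_dep i x y h]

lemma measurable_cdfAt₂ (i : Fin n) : Measurable (uncurry (P.cdfAt i)) := by
  have hset : MeasurableSet {z : ((Fin n → ℝ) × ℝ) × ℝ | z.2 ≤ z.1.2} :=
    measurableSet_le measurable_snd (measurable_snd.comp measurable_fst)
  have h : StronglyMeasurable fun z : ((Fin n → ℝ) × ℝ) × ℝ =>
      Set.indicator {z : ((Fin n → ℝ) × ℝ) × ℝ | z.2 ≤ z.1.2} (fun z => P.cnd i z.1.1 z.2) z :=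
    (((P.continuous_cnd₂ i).comp (by fun_prop : Continuous
      fun z : ((Fin n → ℝ) × ℝ) × ℝ => (z.1.1, z.2))).measurable.indicator hset).stronglyMeasurable
  have h2 := h.integral_prod_right' (ν := (volume : Measure ℝ))
  convert h2.measurable using 1
  funext z
  simp only [uncurry, cdfAt]
  rw [← integral_indicator measurableSet_Iic]
  rfl

lemma measurable_quant {β : Type*} [MeasurableSpace β] (i : Fin n) {X : β → Fin n → ℝ} {U : β → ℝ}
    (hX : Measurable X) (hU : Measurable U) (hmem : ∀ b, U b ∈ Ioo (0:ℝ) 1) :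
    Measurable fun b => P.quant i (X b) (U b) := by
  refine measurable_of_Iic fun t => ?_
  have e : (fun b => P.quant i (X b) (U b)) ⁻¹' Iic t = {b | U b ≤ P.cdfAt i (X b) t} := by
    ext b; exact P.quant_le_iff i (X b) (hmem b) t
  rw [e]
  exact measurableSet_le hU ((P.measurable_cdfAt₂ i).comp (hX.prodMk measurable_const))

/-- The density is even and decreasing in `|t|` along coordinate `i`. -/
def EvenUnimodal (i : Fin n) : Prop :=
  ∀ x s t, |s| ≤ |t| → P.p (update x i t) ≤ P.p (update x i s)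

lemma cnd_antitone_abs {i : Fin n} (h : P.EvenUnimodal i) (x : Fin n → ℝ) {s t : ℝ}
    (hst : |s| ≤ |t|) : P.cnd i x t ≤ P.cnd i x s := by
  refine div_le_div_of_nonneg_right ?_ (P.mg_pos _ _).le
  refine integral_mono (P.integrable_slice _ _) (P.integrable_slice _ _) fun y => ?_
  have e : ∀ u, updateFinset (update x i u) (tailSet n ((i:ℕ) + 1)) y
      = update (updateFinset x (tailSet n ((i:ℕ) + 1)) y) i u := by
    intro u; funext j
    rcases eq_or_ne j i with rfl | hne
    · simp [updateFinset_def, notMem_tailSet_succ j]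
    · by_cases hj : j ∈ tailSet n ((i:ℕ) + 1) <;> simp [updateFinset_def, hj, hne]
  simp only [e]
  exact h _ s t hst

lemma cnd_even {i : Fin n} (h : P.EvenUnimodal i) (x : Fin n → ℝ) (t : ℝ) :
    P.cnd i x (-t) = P.cnd i x t :=
  le_antisymm (P.cnd_antitone_abs h x (by simp)) (P.cnd_antitone_abs h x (by simp))

end Dens

end Vale.Agent.P245
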