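import Mathlib

/-!
One dimensional lemmas for a truncated transport inequality.
-/

namespace Vale.Agent.P245

open MeasureTheory Set Filter Topology

/-- Excess of `|t|` over `R / 2`, squared. -/
noncomputable def excess (R t : ℝ) : ℝ := (max (|t| - R / 2) 0) ^ 2

lemma excess_nonneg (R t : ℝ) : 0 ≤ excess R t := sq_nonneg _

lemma sq_le_excess {R t : ℝ} (hR : 0 ≤ R) (h : R < |t|) :
    t ^ 2 ≤ 4 * excess R t := by
  unfold excess
  rw [max_eq_left (by linarith), ← sq_abs t]
  nlinarith

lemma sq_le_excess_add {R : ℝ} (hR : 0 ≤ R) (t : ℝ) :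
    t ^ 2 ≤ 4 * excess R t + R ^ 2 := by
  rcases lt_or_ge R |t| with h | h
  · nlinarith [sq_le_excess hR h]
  · have := excess_nonneg R t
    nlinarith [sq_abs t, abs_nonneg t]

lemma excess_le_sq {R : ℝ} (hR : 0 ≤ R) (t : ℝ) : excess R t ≤ t ^ 2 := by
  unfold excess
  rw [← sq_abs t]
  apply pow_le_pow_left₀ (le_max_right _ _)
  exact max_le (by linarith) (abs_nonneg _)

@[fun_prop]
lemma continuous_excess (R : ℝ) : Continuous (excess R) := by
  unfold excess; fun_prop

/-- The convex function `u - 1 - log u`. -/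
noncomputable def dissip (u : ℝ) : ℝ := u - 1 - Real.log u

lemma dissip_nonneg {u : ℝ} (hu : 0 < u) : 0 ≤ dissip u := by
  have := Real.log_le_sub_one_of_pos hu
  unfold dissip; linarith

lemma dissip_small {u : ℝ} (hu : 0 < u) (hu2 : u ≤ 2) : (u - 1) ^ 2 ≤ 8 * dissip u := by
  have h1 := Real.log_le_sub_one_of_pos (Real.sqrt_pos.2 hu)
  have hs := Real.sq_sqrt hu.le
  rw [Real.log_sqrt hu.le] at h1
  have h2 : Real.sqrt u ≤ 3 / 2 := Real.sqrt_le_iff.2 ⟨by norm_num, by linarith⟩
  have h0 := Real.sqrt_nonneg u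
  set r := Real.sqrt u
  have hd : (r - 1) ^ 2 ≤ dissip u := by
    unfold dissip; nlinarith
  have : (r + 1) ^ 2 ≤ 8 := by nlinarith
  calc (u - 1) ^ 2 = (r - 1) ^ 2 * (r + 1) ^ 2 := by rw [← hs]; ring
    _ ≤ (r - 1) ^ 2 * 8 := mul_le_mul_of_nonneg_left this (sq_nonneg _)
    _ ≤ 8 * dissip u := by linarith

lemma dissip_large {u : ℝ} (hu : 2 < u) : (u - 1) ≤ 4 * dissip u := by
  have h1 := Real.log_le_sub_one_of_pos (show (0:ℝ) < u / 2 by linarith)
  rw [Real.log_div (by linarith) (by norm_num)] at h1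
  have := Real.log_two_lt_d9
  unfold dissip; linarith

/-- Nonnegative integrand of the relative entropy. -/
noncomputable def klInt (p q : ℝ) : ℝ := Real.log (p / q) - 1 + q / p

lemma klInt_nonneg {p q : ℝ} (hp : 0 < p) (hq : 0 < q) : 0 ≤ klInt p q := by
  have := Real.log_le_sub_one_of_pos (div_pos hq hp)
  unfold klInt
  rw [show p / q = (q / p)⁻¹ by field_simp, Real.log_inv]
  linarith

/-- Truncation at level `R`. -/
noncomputable def clampR (R t : ℝ) : ℝ := max (-R) (min R t)

lemma abs_clampR {R : ℝ} (hR : 0 ≤ R) (t : ℝ) : |clampR R t| ≤ R :=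
  abs_le.2 ⟨le_max_left _ _, max_le (by linarith) (min_le_left _ _)⟩

lemma clampR_neg {R : ℝ} (hR : 0 ≤ R) (t : ℝ) : clampR R (-t) = -clampR R t := by
  unfold clampR; grind

lemma clampR_of_mem {R t : ℝ} (h : |t| ≤ R) : clampR R t = t := by
  rw [abs_le] at h; unfold clampR; grind

@[fun_prop]
lemma continuous_clampR (R : ℝ) : Continuous (clampR R) := by
  unfold clampR; fun_prop

/-- Data of a monotone map between two densities on the line. -/
structure LineMap where
  c : ℝ → ℝ
  d : ℝ → ℝ
  σ : ℝ → ℝ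
  σ' : ℝ → ℝ
  c_cont : Continuous c
  c_pos : ∀ t, 0 < c t
  c_int : Integrable c
  c_one : ∫ t, c t = 1
  d_cont : Continuous d
  d_pos : ∀ t, 0 < d t
  hasDeriv : ∀ t, HasDerivAt σ (σ' t) t
  rel : ∀ t, σ' t * d (σ t) = c t
  surj : Function.Surjective σ

namespace LineMap

variable (M : LineMap)

lemma σ'_pos (t : ℝ) : 0 < M.σ' t := by
  have h := M.rel t
  nlinarith [M.c_pos t, M.d_pos (M.σ t)]

lemma strictMono : StrictMono M.σ :=
  strictMono_of_hasDerivAt_pos M.hasDeriv M.σ'_pos

lemma continuous_σ : Continuous M.σ :=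
  continuous_iff_continuousAt.2 fun t => (M.hasDeriv t).continuousAt

lemma continuous_σ' : Continuous M.σ' := by
  have : M.σ' = fun t => M.c t / M.d (M.σ t) := by
    funext t
    rw [eq_div_iff (M.d_pos _).ne', M.rel]
  rw [this]
  exact M.c_cont.div (M.d_cont.comp M.continuous_σ) fun t => (M.d_pos _).ne'

lemma integrable_comp_iff (g : ℝ → ℝ) :
    Integrable (fun t => M.σ' t * g (M.σ t)) ↔ Integrable g := by
  have h := integrableOn_image_iff_integrableOn_abs_deriv_smul (s := univ) MeasurableSet.univ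
    (fun t _ => (M.hasDeriv t).hasDerivWithinAt) M.strictMono.injective.injOn g
  rw [image_univ, M.surj.range_eq, integrableOn_univ, integrableOn_univ] at h
  rw [h]
  simp [abs_of_pos (M.σ'_pos _)]

lemma integral_comp (g : ℝ → ℝ) :
    ∫ t, M.σ' t * g (M.σ t) = ∫ t, g t := by
  have h := integral_image_eq_integral_abs_deriv_smul (s := univ) MeasurableSet.univ
    (fun t _ => (M.hasDeriv t).hasDerivWithinAt) M.strictMono.injective.injOn g
  rw [image_univ, M.surj.range_eq, setIntegral_univ, setIntegral_univ] at h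
  rw [h]
  simp [abs_of_pos (M.σ'_pos _)]

lemma integrable_mul_bdd {g : ℝ → ℝ} (hg : Continuous g) {B : ℝ} (hB : ∀ t, |g t| ≤ B) :
    Integrable fun t => M.c t * g t :=
  M.c_int.mul_bdd (c := B) hg.aestronglyMeasurable
    (Eventually.of_forall fun t => by simpa using hB t)

/-- Pinsker type bound for the mean of a bounded odd function. -/
lemma mean_sq_le {R : ℝ} (hR : 0 < R) {a : ℝ → ℝ} (ha0 : ∀ t, 0 < a t)
    (ha1 : Integrable a) (ha_one : ∫ t, a t = 1) (haeven : ∀ t, a (-t) = a t)
    (hK : Integrable fun t => M.c t * klInt (M.d (M.σ t)) (a (M.σ t))) :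
    (∫ t, M.c t * clampR R (M.σ t)) ^ 2
      ≤ 4 * R ^ 2 * ∫ t, M.c t * klInt (M.d (M.σ t)) (a (M.σ t)) := by
  set E := ∫ t, M.c t * clampR R (M.σ t) with hE
  set K := ∫ t, M.c t * klInt (M.d (M.σ t)) (a (M.σ t)) with hKdef
  have hcl : Integrable fun t => M.c t * clampR R (M.σ t) :=
    M.integrable_mul_bdd ((continuous_clampR R).comp M.continuous_σ) fun t => abs_clampR hR.le _
  have hEb : |E| ≤ R := by
    calc |E| ≤ ∫ t, |M.c t * clampR R (M.σ t)| := abs_integral_le_integral_abs
      _ ≤ ∫ t, M.c t * R := by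
          refine integral_mono hcl.abs (M.c_int.mul_const R) fun t => ?_
          simp only [abs_mul, abs_of_pos (M.c_pos t)]
          exact mul_le_mul_of_nonneg_left (abs_clampR hR.le _) (M.c_pos t).le
      _ = R := by rw [integral_mul_const, M.c_one, one_mul]
  set s := E / (2 * R ^ 2) with hs
  set F : ℝ → ℝ := fun y => Real.exp (s * clampR R y) - 1 with hF
  have hFc : Continuous F := by rw [hF]; fun_prop
  have hFb : ∀ y, |F y| ≤ Real.exp (|s| * R) + 1 := by
    intro y
    refine (abs_sub _ _).trans (add_le_add ?_ (by simp))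
    rw [Real.abs_exp]
    apply Real.exp_le_exp.2
    calc s * clampR R y ≤ |s * clampR R y| := le_abs_self _
      _ ≤ _ := by rw [abs_mul]; exact mul_le_mul_of_nonneg_left (abs_clampR hR.le y) (abs_nonneg s)
  have haF : Integrable fun y => a y * F y :=
    ha1.mul_bdd hFc.aestronglyMeasurable (Eventually.of_forall fun y => by simpa using hFb y)
  have hcomp : Integrable fun t => M.σ' t * (a (M.σ t) * F (M.σ t)) :=
    (M.integrable_comp_iff fun y => a y * F y).2 haF
  have key : s * E - K ≤ ∫ y, a y * F y := by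
    rw [← M.integral_comp (fun y => a y * F y), hE, ← integral_const_mul, hKdef,
      ← integral_sub (hcl.const_mul s) hK]
    refine integral_mono ((hcl.const_mul s).sub hK) hcomp fun t => ?_
    have hd := M.d_pos (M.σ t)
    have haσ := ha0 (M.σ t)
    have hx := Real.log_le_sub_one_of_pos
      (mul_pos (div_pos haσ hd) (Real.exp_pos (s * clampR R (M.σ t))))
    rw [Real.log_mul (div_pos haσ hd).ne' (Real.exp_pos _).ne', Real.log_exp,
      show a (M.σ t) / M.d (M.σ t) = (M.d (M.σ t) / a (M.σ t))⁻¹ by field_simp, Real.log_inv] at hx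
    have e : M.σ' t * (a (M.σ t) * F (M.σ t))
        = M.c t * ((a (M.σ t) / M.d (M.σ t)) * F (M.σ t)) := by
      rw [← M.rel t]; field_simp
    show s * (M.c t * clampR R (M.σ t)) - M.c t * klInt (M.d (M.σ t)) (a (M.σ t)) ≤ _
    rw [e, ← mul_assoc, mul_comm s, mul_assoc, ← mul_sub]
    refine mul_le_mul_of_nonneg_left ?_ (M.c_pos t).le
    rw [inv_div] at hx
    simp only [klInt, hF]
    linarith
  have hsR : |s| * R ≤ 1 := by
    rw [hs, abs_div, abs_of_pos (show (0:ℝ) < 2 * R ^ 2 by positivity), div_mul_eq_mul_div,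
      div_le_one (by positivity)]
    nlinarith [abs_nonneg E]
  have hneg : Integrable fun y => a y * F (-y) := by simpa [haeven] using haF.comp_neg
  have hneg' : ∫ y, a y * F (-y) = ∫ y, a y * F y := by
    simpa [haeven] using integral_neg_eq_self (fun y => a y * F y) volume
  have hbound : ∫ y, a y * F y ≤ s ^ 2 * R ^ 2 := by
    have h2 : ∫ y, (a y * F y + a y * F (-y)) ≤ ∫ y, a y * (2 * (s ^ 2 * R ^ 2)) := by
      refine integral_mono (haF.add hneg) (ha1.mul_const _) fun y => ?_
      show a y * F y + a y * F (-y) ≤ _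
      rw [← mul_add]
      refine mul_le_mul_of_nonneg_left ?_ (ha0 y).le
      have habs : |s * clampR R y| ≤ |s| * R := by
        rw [abs_mul]; exact mul_le_mul_of_nonneg_left (abs_clampR hR.le y) (abs_nonneg s)
      have h1 := abs_le.1 (Real.abs_exp_sub_one_sub_id_le (habs.trans hsR))
      have h1' := abs_le.1 (Real.abs_exp_sub_one_sub_id_le
        (x := -(s * clampR R y)) (by rw [abs_neg]; exact habs.trans hsR))
      have hsq : (s * clampR R y) ^ 2 ≤ s ^ 2 * R ^ 2 := by
        rw [← sq_abs, ← sq_abs s, ← mul_pow]; exact pow_le_pow_left₀ (abs_nonneg _) habs 2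
      simp only [hF, clampR_neg hR.le, mul_neg]
      nlinarith [h1.2, h1'.2]
    rw [integral_add haF hneg, hneg', integral_mul_const, ha_one] at h2
    linarith
  have h1 : s * E - s ^ 2 * R ^ 2 ≤ K := by linarith
  have h3 : s * E - s ^ 2 * R ^ 2 = E ^ 2 / (4 * R ^ 2) := by rw [hs]; field_simp; ring
  rw [h3, div_le_iff₀ (by positivity)] at h1
  linarith

/-- Local oscillation of `σ - id` on an interval inside the truncation window. -/
lemma increment_sq_le {R : ℝ} (hR : 0 < R) {x y : ℝ} (hxy : x ≤ y)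
    (hx : |x| ≤ R) (hy : |y| ≤ R) (hσx : |M.σ x| ≤ R) (hσy : |M.σ y| ≤ R) :
    ((M.σ y - y) - (M.σ x - x)) ^ 2 ≤ 128 * R * ∫ t in x..y, dissip (M.σ' t) := by
  classical
  set h : ℝ → ℝ := fun t => M.σ' t - 1 with hh
  set small : ℝ → ℝ := fun t => max (-1) (min 1 (h t)) with hsmall
  set big : ℝ → ℝ := fun t => h t - small t with hbig
  have hhc : Continuous h := by rw [hh]; exact M.continuous_σ'.sub continuous_const
  have hsc : Continuous small := by rw [hsmall]; fun_prop
  have hbc : Continuous big := hhc.sub hsc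
  have hdc : Continuous fun t => dissip (M.σ' t) := by
    unfold dissip
    exact (M.continuous_σ'.sub continuous_const).sub
      (M.continuous_σ'.log fun t => (M.σ'_pos t).ne')
  set P := ∫ t in x..y, dissip (M.σ' t) with hP
  have hP0 : 0 ≤ P := intervalIntegral.integral_nonneg hxy fun t _ => dissip_nonneg (M.σ'_pos t)
  have hpt : ∀ t, small t ^ 2 ≤ 8 * dissip (M.σ' t) ∧ 0 ≤ big t ∧
      big t ≤ 8 * dissip (M.σ' t) := by
    intro t
    have hp := M.σ'_pos t
    have hn := dissip_nonneg hp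
    rcases le_or_gt (M.σ' t) 2 with h2 | h2
    · have e : small t = h t := by simp only [hsmall, hh]; grind
      refine ⟨?_, by simp [hbig, e], by simp [hbig, e]; linarith⟩
      rw [e]; exact dissip_small hp h2
    · have e : small t = 1 := by simp only [hsmall, hh]; grind
      have h4 := dissip_large h2
      simp only [hbig, e, hh]
      exact ⟨by linarith, by linarith, by linarith⟩
  have hsab : ∀ t, |small t| ≤ 1 := fun t => abs_le.2
    ⟨le_max_left _ _, max_le (by norm_num) (min_le_left _ _)⟩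
  have htot : (M.σ y - y) - (M.σ x - x) = (∫ t in x..y, small t) + ∫ t in x..y, big t := by
    rw [← intervalIntegral.integral_add (hsc.intervalIntegrable _ _) (hbc.intervalIntegrable _ _)]
    rw [intervalIntegral.integral_eq_sub_of_hasDerivAt (f := fun t => M.σ t - t) (fun t _ => ?_)
      (((by fun_prop : Continuous fun t => small t + big t)).intervalIntegrable _ _)]
    simp only [hbig, hh, add_sub_cancel]
    exact (M.hasDeriv t).sub (hasDerivAt_id t)
  set S := ∫ t in x..y, small t with hS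
  set B := ∫ t in x..y, big t with hB
  have hlen : y - x ≤ 2 * R := by linarith [abs_le.1 hx, abs_le.1 hy]
  have hSq : S ^ 2 ≤ (y - x) * ∫ t in x..y, small t ^ 2 := by
    rcases hxy.eq_or_lt with rfl | hlt
    · simp [hS]
    have key : 0 ≤ ∫ t in x..y, (small t - S / (y - x)) ^ 2 :=
      intervalIntegral.integral_nonneg hxy fun t _ => sq_nonneg _
    have e : (fun t => (small t - S / (y - x)) ^ 2)
        = fun t => small t ^ 2 - 2 * (S / (y - x)) * small t + (S / (y - x)) ^ 2 := by
      funext t; ring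
    rw [e, intervalIntegral.integral_add ((by fun_prop : Continuous _).intervalIntegrable _ _)
      intervalIntegrable_const, intervalIntegral.integral_sub
      ((by fun_prop : Continuous _).intervalIntegrable _ _)
      ((by fun_prop : Continuous _).intervalIntegrable _ _),
      intervalIntegral.integral_const_mul, intervalIntegral.integral_const, ← hS, smul_eq_mul]
      at key
    set I2 := ∫ t in x..y, small t ^ 2
    have hd : 0 < y - x := by linarith
    field_simp at key
    nlinarith [key]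
  have hs2 : (∫ t in x..y, small t ^ 2) ≤ 8 * P := by
    rw [hP, ← intervalIntegral.integral_const_mul]
    exact intervalIntegral.integral_mono_on hxy ((hsc.pow 2).intervalIntegrable _ _)
      ((continuous_const.mul hdc).intervalIntegrable _ _) fun t _ => (hpt t).1
  have hB0 : 0 ≤ B := intervalIntegral.integral_nonneg hxy fun t _ => (hpt t).2.1
  have hBP : B ≤ 8 * P := by
    rw [hP, ← intervalIntegral.integral_const_mul]
    exact intervalIntegral.integral_mono_on hxy (hbc.intervalIntegrable _ _)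
      ((continuous_const.mul hdc).intervalIntegrable _ _) fun t _ => (hpt t).2.2
  have hSabs : |S| ≤ 2 * R := by
    have := intervalIntegral.norm_integral_le_of_norm_le_const (a := x) (b := y) (f := small)
      (C := 1) fun t _ => by simpa using hsab t
    rw [Real.norm_eq_abs, abs_of_nonneg (by linarith : 0 ≤ y - x)] at this
    simp only [hS]; linarith
  have hBR : B ≤ 6 * R := by
    have := abs_le.1 hSabs
    linarith [abs_le.1 hσx, abs_le.1 hσy, abs_le.1 hx, abs_le.1 hy, htot]
  have hB2 : B ^ 2 ≤ 6 * R * (8 * P) := by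
    rw [sq]; exact mul_le_mul hBR hBP hB0 (by positivity)
  have hS2 : S ^ 2 ≤ 2 * R * (8 * P) := by
    refine hSq.trans (mul_le_mul hlen hs2 ?_ (by positivity))
    exact intervalIntegral.integral_nonneg hxy fun t _ => sq_nonneg _
  rw [htot]
  nlinarith [sq_nonneg (S - B)]

lemma osc_bound {R : ℝ} (hR : 0 < R) (hceven : ∀ t, M.c (-t) = M.c t)
    (hcanti : AntitoneOn M.c (Ici 0)) (hD : Integrable fun t => M.c t * dissip (M.σ' t))
    {l r : ℝ} (hlr : l ≤ r) (memJ : ∀ t ∈ Icc l r, |t| ≤ R ∧ |M.σ t| ≤ R) :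
    ∫ t in Icc l r, M.c t * ((M.σ t - t) - (M.σ (max l (min r 0)) - max l (min r 0))) ^ 2
      ≤ 256 * R ^ 2 * ∫ t, M.c t * dissip (M.σ' t) := by
  set D := ∫ t, M.c t * dissip (M.σ' t)
  set g : ℝ → ℝ := fun t => M.σ t - t with hg
  have hgc : Continuous g := M.continuous_σ.sub continuous_id
  set J : Set ℝ := Icc l r with hJ
  have hJm : MeasurableSet J := measurableSet_Icc
  set t0 := max l (min r 0) with ht0
  have ht0J : t0 ∈ J := ⟨le_max_left _ _, max_le hlr (min_le_left _ _)⟩
  have hcmono : ∀ {u v : ℝ}, |u| ≤ |v| → M.c v ≤ M.c u := by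
    intro u v h
    have e : ∀ x, M.c x = M.c |x| := fun x => by rcases abs_choice x with h | h <;> simp [h, hceven]
    rw [e u, e v]; exact hcanti (abs_nonneg u) (abs_nonneg v) h
  have hdJ : IntegrableOn (fun t => M.c t * dissip (M.σ' t)) J := hD.integrableOn
  set DJ := ∫ t in J, M.c t * dissip (M.σ' t)
  have hDJ : DJ ≤ D := setIntegral_le_integral hD (Eventually.of_forall fun t =>
    mul_nonneg (M.c_pos t).le (dissip_nonneg (M.σ'_pos t)))
  have hdc : Continuous fun t => dissip (M.σ' t) := by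
    unfold dissip
    exact (M.continuous_σ'.sub continuous_const).sub
      (M.continuous_σ'.log fun t => (M.σ'_pos t).ne')
  have hcdc : Continuous fun t => M.c t * dissip (M.σ' t) := M.c_cont.mul hdc
  have hosc : ∀ t ∈ J, M.c t * (g t - g t0) ^ 2 ≤ 128 * R * DJ := by
    intro t ht
    obtain ⟨h1, h2⟩ := memJ t ht
    obtain ⟨h3, h4⟩ := memJ t0 ht0J
    have hsub : ∀ u v, u ≤ v → u ∈ J → v ∈ J →
        ∫ z in u..v, M.c z * dissip (M.σ' z) ≤ DJ := by
      intro u v huv hu hv
      rw [intervalIntegral.integral_of_le huv]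
      refine setIntegral_mono_set hdJ (Eventually.of_forall fun z =>
        mul_nonneg (M.c_pos z).le (dissip_nonneg (M.σ'_pos z))) (LE.le.eventuallyLE ?_)
      exact fun z hz => ⟨le_trans hu.1 hz.1.le, le_trans hz.2 hv.2⟩
    have hside : ∀ u v, u ≤ v → u ∈ J → v ∈ J → (∀ z ∈ Icc u v, M.c t ≤ M.c z) →
        M.c t * (∫ z in u..v, dissip (M.σ' z)) ≤ DJ := by
      intro u v huv hu hv hc
      refine le_trans ?_ (hsub u v huv hu hv)
      rw [← intervalIntegral.integral_const_mul]
      exact intervalIntegral.integral_mono_on huv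
        ((continuous_const.mul hdc).intervalIntegrable _ _) (hcdc.intervalIntegrable _ _)
        fun z hz => mul_le_mul_of_nonneg_right (hc z hz) (dissip_nonneg (M.σ'_pos z))
    rcases le_total t0 t with hle | hle
    · have hh := M.increment_sq_le hR hle h3 h1 h4 h2
      have := hside t0 t hle ht0J ht fun z hz => by
        apply hcmono
        rcases hle.eq_or_lt with heq | hlt
        · rw [show z = t from le_antisymm hz.2 (heq ▸ hz.1)]
        · have ht00 : 0 ≤ t0 := by
            have := ht.2; rw [ht0] at hlt ⊢; grind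
          rw [abs_of_nonneg (ht00.trans hz.1), abs_of_nonneg (ht00.trans hle)]; exact hz.2
      calc M.c t * (g t - g t0) ^ 2 ≤ M.c t * (128 * R * ∫ z in t0..t, dissip (M.σ' z)) :=
            mul_le_mul_of_nonneg_left hh (M.c_pos t).le
        _ = 128 * R * (M.c t * ∫ z in t0..t, dissip (M.σ' z)) := by ring
        _ ≤ _ := mul_le_mul_of_nonneg_left this (by positivity)
    · have hh := M.increment_sq_le hR hle h1 h3 h2 h4
      have := hside t t0 hle ht ht0J fun z hz => by
        apply hcmono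
        rcases hle.eq_or_lt with heq | hlt
        · rw [show z = t from le_antisymm (heq.symm ▸ hz.2) hz.1]
        · have ht00 : t0 ≤ 0 := by
            have := ht.1; rw [ht0] at hlt ⊢; grind
          rw [abs_of_nonpos (hz.2.trans ht00), abs_of_nonpos (hle.trans ht00)]; linarith [hz.1]
      calc M.c t * (g t - g t0) ^ 2 = M.c t * (g t0 - g t) ^ 2 := by ring
        _ ≤ M.c t * (128 * R * ∫ z in t..t0, dissip (M.σ' z)) :=
            mul_le_mul_of_nonneg_left hh (M.c_pos t).le
        _ = 128 * R * (M.c t * ∫ z in t..t0, dissip (M.σ' z)) := by ring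
        _ ≤ _ := mul_le_mul_of_nonneg_left this (by positivity)
  have hoscc : Continuous fun t => M.c t * (g t - g t0) ^ 2 :=
    M.c_cont.mul ((hgc.sub continuous_const).pow 2)
  have hoscJ : IntegrableOn (fun t => M.c t * (g t - g t0) ^ 2) J :=
    hoscc.integrableOn_Icc
  set A := ∫ t in J, M.c t * (g t - g t0) ^ 2
  have hA0 : 0 ≤ A := setIntegral_nonneg hJm fun t _ => mul_nonneg (M.c_pos t).le (sq_nonneg _)
  have hAD : A ≤ 256 * R ^ 2 * D := by
    calc A ≤ ∫ _ in J, 128 * R * DJ :=
          setIntegral_mono_on hoscJ (by exact continuous_const.integrableOn_Icc) hJm hosc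
      _ = (r - l) * (128 * R * DJ) := by
          simp [hJ, Real.volume_real_Icc_of_le hlr]
      _ ≤ (2 * R) * (128 * R * D) := by
          have : 0 ≤ DJ := setIntegral_nonneg hJm fun t _ =>
            mul_nonneg (M.c_pos t).le (dissip_nonneg (M.σ'_pos t))
          refine mul_le_mul ?_ (by gcongr) (by positivity) (by positivity)
          linarith [abs_le.1 (memJ l (left_mem_Icc.2 hlr)).1, abs_le.1 (memJ r (right_mem_Icc.2 hlr)).1]
      _ = _ := by ring
  exact hAD

lemma trunc_mean {R : ℝ} (hR : 0 < R) {a : ℝ → ℝ} (ha0 : ∀ t, 0 < a t)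
    (ha1 : Integrable a) (ha_one : ∫ t, a t = 1) (haeven : ∀ t, a (-t) = a t)
    (hceven : ∀ t, M.c (-t) = M.c t)
    (hK : Integrable fun t => M.c t * klInt (M.d (M.σ t)) (a (M.σ t)))
    {J : Set ℝ} (hJm : MeasurableSet J) (memJ : ∀ t ∈ J, |t| ≤ R ∧ |M.σ t| ≤ R)
    {w : ℝ} (hw : ∫ t in J, M.c t = w) :
    (∫ t in J, M.c t * (M.σ t - t)) ^ 2 ≤
      8 * R ^ 2 * (∫ t, M.c t * klInt (M.d (M.σ t)) (a (M.σ t))) + 8 * (R ^ 2 * (1 - w)) := by
  set K := ∫ t, M.c t * klInt (M.d (M.σ t)) (a (M.σ t))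
  set g : ℝ → ℝ := fun t => M.σ t - t with hg
  have hwc : ∫ t in Jᶜ, M.c t = 1 - w := by
    have := integral_add_compl hJm M.c_int
    rw [M.c_one] at this; linarith
  have hw0 : 0 ≤ w := hw ▸ setIntegral_nonneg hJm fun t _ => (M.c_pos t).le
  set I1 := ∫ t in J, M.c t * g t with hI1
  set E := ∫ t, M.c t * clampR R (M.σ t) with hE
  have hE2 : E ^ 2 ≤ 4 * R ^ 2 * K := M.mean_sq_le hR ha0 ha1 ha_one haeven hK
  have hc1 : Integrable fun t => M.c t * clampR R (M.σ t) :=
    M.integrable_mul_bdd ((continuous_clampR R).comp M.continuous_σ) fun t => abs_clampR hR.le _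
  have hc2 : Integrable fun t => M.c t * clampR R t :=
    M.integrable_mul_bdd (continuous_clampR R) fun t => abs_clampR hR.le _
  have hzero : ∫ t, M.c t * clampR R t = 0 := by
    have h := integral_neg_eq_self (fun t => M.c t * clampR R t) volume
    simp [hceven, clampR_neg hR.le, integral_neg] at h
    linarith
  have hdiff : Integrable fun t => M.c t * (clampR R (M.σ t) - clampR R t) := by
    simp only [mul_sub]; exact hc1.sub hc2
  have hEeq : E = ∫ t, M.c t * (clampR R (M.σ t) - clampR R t) := by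
    simp only [mul_sub]; rw [integral_sub hc1 hc2, hzero, sub_zero]
  have hEsplit : E = I1 + ∫ t in Jᶜ, M.c t * (clampR R (M.σ t) - clampR R t) := by
    rw [hEeq, ← integral_add_compl hJm hdiff, hI1]
    congr 1
    refine setIntegral_congr_fun hJm fun t ht => ?_
    obtain ⟨h1, h2⟩ := memJ t ht
    simp [clampR_of_mem h1, clampR_of_mem h2, hg]
  set O := ∫ t in Jᶜ, M.c t * (clampR R (M.σ t) - clampR R t)
  have hO : |O| ≤ 2 * R * (1 - w) := by
    rw [← hwc, ← integral_const_mul]
    refine (abs_integral_le_integral_abs).trans (setIntegral_mono_on hdiff.abs.integrableOn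
      (M.c_int.const_mul _).integrableOn hJm.compl fun t _ => ?_)
    rw [abs_mul, abs_of_pos (M.c_pos t), mul_comm (2 * R)]
    refine mul_le_mul_of_nonneg_left ((abs_sub _ _).trans ?_) (M.c_pos t).le
    linarith [abs_clampR hR.le (M.σ t), abs_clampR hR.le t]
  have hw1' : 0 ≤ 1 - w := by
    rw [← hwc]; exact setIntegral_nonneg hJm.compl fun t _ => (M.c_pos t).le
  have hO2 : O ^ 2 ≤ 4 * R ^ 2 * (1 - w) := by
    rw [← sq_abs O]
    calc |O| ^ 2 ≤ (2 * R * (1 - w)) ^ 2 := pow_le_pow_left₀ (abs_nonneg _) hO 2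
      _ ≤ _ := by nlinarith [mul_nonneg (mul_nonneg (mul_nonneg hR.le hR.le) hw1') hw0]
  have hI12 : I1 ^ 2 ≤ 8 * R ^ 2 * K + 8 * (R ^ 2 * (1 - w)) := by
    have : I1 = E - O := by linarith
    rw [this]; nlinarith [sq_nonneg (E + O)]
  exact hI12

lemma osc_to_sq {l r : ℝ} (s : ℝ) (hhalf : 1 / 2 ≤ ∫ t in Icc l r, M.c t) :
    ∫ t in Icc l r, M.c t * (M.σ t - t) ^ 2 ≤
      10 * (∫ t in Icc l r, M.c t * ((M.σ t - t) - (M.σ s - s)) ^ 2)
        + 10 * (∫ t in Icc l r, M.c t * (M.σ t - t)) ^ 2 := by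
  set g : ℝ → ℝ := fun t => M.σ t - t with hg
  have hgc : Continuous g := M.continuous_σ.sub continuous_id
  set J : Set ℝ := Icc l r with hJ
  have hJm : MeasurableSet J := measurableSet_Icc
  set w := ∫ t in J, M.c t with hw
  have hw0 : 0 ≤ w := by linarith
  have hwle : w ≤ 1 := by
    rw [← M.c_one]; exact setIntegral_le_integral M.c_int (Eventually.of_forall fun t => (M.c_pos t).le)
  have hint : IntegrableOn (fun t => M.c t * g t ^ 2) J := (M.c_cont.mul (hgc.pow 2)).integrableOn_Icc
  set A := ∫ t in J, M.c t * (g t - g s) ^ 2 with hA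
  have hA0 : 0 ≤ A := setIntegral_nonneg hJm fun t _ => mul_nonneg (M.c_pos t).le (sq_nonneg _)
  set I1 := ∫ t in J, M.c t * g t with hI1
  have hgJ : IntegrableOn (fun t => M.c t * g t) J := (M.c_cont.mul hgc).integrableOn_Icc
  have hq : ∀ u : ℝ, ∫ t in J, M.c t * (g t - u) ^ 2 =
      (∫ t in J, M.c t * g t ^ 2) - 2 * u * I1 + u ^ 2 * w := by
    intro u
    have e : ∀ t, M.c t * (g t - u) ^ 2 = (M.c t * g t ^ 2 - 2 * u * (M.c t * g t)) + u ^ 2 * M.c t :=
      fun t => by ring
    have i2 : IntegrableOn (fun t => 2 * u * (M.c t * g t)) J := hgJ.const_mul _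
    have i3 : IntegrableOn (fun t => u ^ 2 * M.c t) J := (M.c_int.const_mul _).integrableOn
    have i12 : IntegrableOn (fun t => M.c t * g t ^ 2 - 2 * u * (M.c t * g t)) J := hint.sub i2
    simp only [e]
    rw [integral_add i12 i3, integral_sub hint i2, integral_const_mul, integral_const_mul]
  have hexp : A = (∫ t in J, M.c t * g t ^ 2) - 2 * g s * I1 + g s ^ 2 * w := hq (g s)
  set G := ∫ t in J, M.c t * g t ^ 2
  -- Cauchy-Schwarz against the constant
  have hcs : (I1 - g s * w) ^ 2 ≤ A * w := by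
    have key : ∀ u : ℝ, 0 ≤ A - 2 * u * (I1 - g s * w) + u ^ 2 * w := by
      intro u
      have h0 : 0 ≤ ∫ t in J, M.c t * (g t - (g s + u)) ^ 2 :=
        setIntegral_nonneg hJm fun t _ => mul_nonneg (M.c_pos t).le (sq_nonneg _)
      rw [hq (g s + u)] at h0
      nlinarith
    have := key ((I1 - g s * w) / w)
    have hwpos : 0 < w := by linarith
    field_simp at this
    nlinarith
  have hAw : A * w ≤ A := mul_le_of_le_one_right hA0 (by linarith)
  have h5 : (g s * w) ^ 2 ≤ 2 * I1 ^ 2 + 2 * A := by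
    nlinarith [sq_nonneg (2 * I1 - g s * w)]
  have hwg : g s ^ 2 * w ≤ 2 * (g s * w) ^ 2 := by
    have : 0 ≤ g s ^ 2 * w * (2 * w - 1) := mul_nonneg (mul_nonneg (sq_nonneg _) hw0) (by linarith)
    linarith [mul_pow (g s) w 2]
  have hamgm : 2 * g s * I1 ≤ g s ^ 2 * w + 2 * I1 ^ 2 := by
    have : 0 ≤ g s ^ 2 * (2 * w - 1) := mul_nonneg (sq_nonneg _) (by linarith)
    nlinarith [sq_nonneg (g s - 2 * I1)]
  nlinarith

/-- Truncated quadratic transport inequality on the line. -/
theorem disp_sq_le {R : ℝ} (hR : 0 < R) {a : ℝ → ℝ} (ha0 : ∀ t, 0 < a t)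
    (ha1 : Integrable a) (ha_one : ∫ t, a t = 1) (haeven : ∀ t, a (-t) = a t)
    (hceven : ∀ t, M.c (-t) = M.c t) (hcanti : AntitoneOn M.c (Ici 0))
    (hK : Integrable fun t => M.c t * klInt (M.d (M.σ t)) (a (M.σ t)))
    (hD : Integrable fun t => M.c t * dissip (M.σ' t))
    (hP : Integrable fun t => M.c t * excess R t)
    (hQ : Integrable fun t => M.c t * excess R (M.σ t)) :
    Integrable (fun t => M.c t * (M.σ t - t) ^ 2) ∧
    ∫ t, M.c t * (M.σ t - t) ^ 2 ≤
      5000 * R ^ 2 * ((∫ t, M.c t * dissip (M.σ' t))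
        + ∫ t, M.c t * klInt (M.d (M.σ t)) (a (M.σ t)))
      + 5000 * ((∫ t, M.c t * excess R t) + ∫ t, M.c t * excess R (M.σ t)) := by
  classical
  set D := ∫ t, M.c t * dissip (M.σ' t)
  set K := ∫ t, M.c t * klInt (M.d (M.σ t)) (a (M.σ t))
  set P := ∫ t, M.c t * excess R t
  set Q := ∫ t, M.c t * excess R (M.σ t)
  have hPQ : Integrable fun t => M.c t * (excess R t + excess R (M.σ t)) := by
    simp only [mul_add]; exact hP.add hQ
  have hPQ' : ∫ t, M.c t * (excess R t + excess R (M.σ t)) = P + Q := by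
    simp only [mul_add]; exact integral_add hP hQ
  have hD0 : 0 ≤ D := integral_nonneg fun t => mul_nonneg (M.c_pos t).le (dissip_nonneg (M.σ'_pos t))
  set g : ℝ → ℝ := fun t => M.σ t - t with hg
  have hgc : Continuous g := M.continuous_σ.sub continuous_id
  have hall : ∀ t, M.c t * g t ^ 2
      ≤ 8 * (M.c t * (excess R t + excess R (M.σ t))) + 4 * R ^ 2 * M.c t := by
    intro t
    have h1 := sq_le_excess_add hR.le t
    have h2 := sq_le_excess_add hR.le (M.σ t)
    have h3 : g t ^ 2 ≤ 8 * (excess R t + excess R (M.σ t)) + 4 * R ^ 2 := by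
      simp only [hg]; nlinarith [sq_nonneg (M.σ t + t)]
    nlinarith [mul_le_mul_of_nonneg_left h3 (M.c_pos t).le]
  have hint : Integrable fun t => M.c t * g t ^ 2 := by
    refine ((hPQ.const_mul 8).add (M.c_int.const_mul (4 * R ^ 2))).mono'
      (M.c_cont.mul (hgc.pow 2)).aestronglyMeasurable (Eventually.of_forall fun t => ?_)
    rw [Real.norm_eq_abs, abs_of_nonneg (mul_nonneg (M.c_pos t).le (sq_nonneg _))]
    exact hall t
  refine ⟨hint, ?_⟩
  obtain ⟨a0, ha0'⟩ := M.surj (-R)
  obtain ⟨b0, hb0⟩ := M.surj R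
  set l := max (-R) a0 with hl
  set r := min R b0 with hr
  set J : Set ℝ := Icc l r with hJ
  have memJ : ∀ t, t ∈ J ↔ |t| ≤ R ∧ |M.σ t| ≤ R := by
    intro t
    rw [abs_le, abs_le, ← ha0', ← hb0, M.strictMono.le_iff_le, M.strictMono.le_iff_le, ha0', hb0]
    simp only [hJ, hl, hr, mem_Icc, max_le_iff, le_min_iff]; tauto
  have hJm : MeasurableSet J := measurableSet_Icc
  have hout : ∀ t ∈ Jᶜ, R ^ 2 ≤ 4 * (excess R t + excess R (M.σ t)) := by
    intro t ht
    rw [mem_compl_iff, memJ, not_and_or, not_le, not_le] at ht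
    rcases ht with ht | ht
    · nlinarith [sq_le_excess hR.le ht, excess_nonneg R (M.σ t), sq_abs t]
    · nlinarith [sq_le_excess hR.le ht, excess_nonneg R t, sq_abs (M.σ t)]
  set w := ∫ t in J, M.c t with hw
  have hw0 : 0 ≤ w := setIntegral_nonneg hJm fun t _ => (M.c_pos t).le
  have hwc : ∫ t in Jᶜ, M.c t = 1 - w := by
    have := integral_add_compl hJm M.c_int
    rw [M.c_one] at this; simp only [hw]; linarith
  have hPQc : ∫ t in Jᶜ, M.c t * (excess R t + excess R (M.σ t)) ≤ P + Q := by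
    rw [← hPQ']
    exact setIntegral_le_integral hPQ (Eventually.of_forall fun t =>
      mul_nonneg (M.c_pos t).le (add_nonneg (excess_nonneg _ _) (excess_nonneg _ _)))
  have hw1 : R ^ 2 * (1 - w) ≤ 4 * (P + Q) := by
    rw [← hwc, ← integral_const_mul]
    refine le_trans ?_ (mul_le_mul_of_nonneg_left hPQc (by norm_num))
    rw [← integral_const_mul]
    refine setIntegral_mono_on (M.c_int.const_mul _).integrableOn (hPQ.const_mul 4).integrableOn
      hJm.compl fun t ht => ?_
    nlinarith [hout t ht, M.c_pos t]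
  have houtint : ∫ t in Jᶜ, M.c t * g t ^ 2 ≤ 24 * (P + Q) := by
    refine le_trans ?_ (mul_le_mul_of_nonneg_left hPQc (by norm_num))
    rw [← integral_const_mul]
    refine setIntegral_mono_on hint.integrableOn (hPQ.const_mul 24).integrableOn hJm.compl
      fun t ht => (hall t).trans ?_
    nlinarith [hout t ht, M.c_pos t]
  have hJint : ∫ t in J, M.c t * g t ^ 2 ≤
      10 * (256 * R ^ 2 * D) + 200 * R ^ 2 * K + 400 * (P + Q) := by
    have hKnn : 0 ≤ K := integral_nonneg fun t => mul_nonneg (M.c_pos t).le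
      (klInt_nonneg (M.d_pos _) (ha0 _))
    have hPQ0 : 0 ≤ P + Q := by
      rw [← hPQ']; exact integral_nonneg fun t =>
        mul_nonneg (M.c_pos t).le (add_nonneg (excess_nonneg _ _) (excess_nonneg _ _))
    by_cases hhalf : w < 1 / 2
    · have : ∫ t in J, M.c t * g t ^ 2 ≤ 4 * R ^ 2 * w := by
        rw [hw, ← integral_const_mul]
        refine setIntegral_mono_on hint.integrableOn (M.c_int.const_mul _).integrableOn hJm
          fun t ht => ?_
        obtain ⟨h1, h2⟩ := (memJ t).1 ht
        have h3 : g t ^ 2 ≤ (2 * R) ^ 2 := sq_le_sq.2 (by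
          rw [abs_of_pos (by linarith : (0:ℝ) < 2 * R)]
          exact (abs_sub _ _).trans (by linarith))
        nlinarith [M.c_pos t]
      nlinarith
    · push Not at hhalf
      have hlr : l ≤ r := by
        by_contra hcon
        have : J = ∅ := Icc_eq_empty hcon
        rw [hw, this, setIntegral_empty] at hhalf; norm_num at hhalf
      set t0 := max l (min r 0) with ht0
      have ht0J : t0 ∈ J := ⟨le_max_left _ _, max_le hlr (min_le_left _ _)⟩
      have h1 := M.osc_bound hR hceven hcanti hD hlr (fun t ht => (memJ t).1 ht)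
      have h2 := M.trunc_mean hR ha0 ha1 ha_one haeven hceven hK hJm (fun t ht => (memJ t).1 ht) hw.symm
      have h3 := M.osc_to_sq (l := l) (r := r) (max l (min r 0)) hhalf
      show ∫ t in Icc l r, M.c t * (M.σ t - t) ^ 2 ≤ _
      have hRK : 0 ≤ R ^ 2 * K := mul_nonneg (sq_nonneg _) hKnn
      linarith
  rw [← integral_add_compl hJm hint]
  have hKnn : 0 ≤ K := integral_nonneg fun t => mul_nonneg (M.c_pos t).le
    (klInt_nonneg (M.d_pos _) (ha0 _))
  have hPQ0 : 0 ≤ P + Q := by
    rw [← hPQ']; exact integral_nonneg fun t =>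
      mul_nonneg (M.c_pos t).le (add_nonneg (excess_nonneg _ _) (excess_nonneg _ _))
  nlinarith

end LineMap

end Vale.Agent.P245
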