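import Mathlib
import Vale.Agent.P245.OneDim
import Vale.Agent.P245.Marginals

/-!
The triangular monotone map between two densities, and integration by parts along lines.
-/

namespace Vale.Agent.P245

open MeasureTheory Set Filter Topology Function Finset
open scoped ENNReal

namespace Dens

variable {n : ℕ} (Q P : Dens n)

/-- The probability measure with density `p`. -/
noncomputable def meas : Measure (Fin n → ℝ) :=
  volume.withDensity fun x => ENNReal.ofReal (Q.p x)

instance : IsProbabilityMeasure Q.meas := by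
  constructor
  rw [meas, withDensity_apply _ MeasurableSet.univ, Measure.restrict_univ,
    ← ofReal_integral_eq_lintegral_ofReal Q.integrable (Eventually.of_forall fun x => (Q.pos x).le),
    Q.one, ENNReal.ofReal_one]

lemma lintegral_meas {G : (Fin n → ℝ) → ℝ≥0∞} (hG : Measurable G) :
    ∫⁻ x, G x ∂Q.meas = ∫⁻ x, ENNReal.ofReal (Q.p x) * G x := by
  rw [meas, lintegral_withDensity_eq_lintegral_mul _ Q.cont.measurable.ennreal_ofReal hG]
  rfl

lemma integral_meas (g : (Fin n → ℝ) → ℝ) : ∫ x, g x ∂Q.meas = ∫ x, Q.p x * g x := by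
  rw [meas, integral_withDensity_eq_integral_toReal_smul Q.cont.measurable.ennreal_ofReal
    (Eventually.of_forall fun x => ENNReal.ofReal_lt_top)]
  simp [ENNReal.toReal_ofReal (Q.pos _).le]

lemma integrable_meas_iff (g : (Fin n → ℝ) → ℝ) :
    Integrable g Q.meas ↔ Integrable fun x => Q.p x * g x := by
  rw [meas, integrable_withDensity_iff_integrable_smul' Q.cont.measurable.ennreal_ofReal
    (Eventually.of_forall fun x => ENNReal.ofReal_lt_top)]
  simp [ENNReal.toReal_ofReal (Q.pos _).le]

lemma integrable_meas_of_le {g : (Fin n → ℝ) → ℝ} (hg : Measurable g) {C : ℝ}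
    (h : ∀ x, |g x| ≤ C * (1 + sumSq x) ^ 2) : Integrable g Q.meas := by
  rw [integrable_meas_iff]
  refine Q.integrable_of_le (Q.cont.measurable.mul hg) (C := C) fun x => ?_
  rw [abs_mul, abs_of_pos (Q.pos x), ← mul_assoc, mul_comm (Q.p x)]
  exact mul_le_mul_of_nonneg_right (h x) (Q.pos x).le

lemma integrable_sumSq : Integrable (fun x => sumSq x) Q.meas := by
  refine Q.integrable_meas_of_le (by fun_prop) (C := 1) fun x => ?_
  rw [abs_of_nonneg (sumSq_nonneg x)]
  nlinarith [sumSq_nonneg x]

lemma integrable_log_mg (k : ℕ) : Integrable (fun x => Real.log (Q.mg k x)) Q.meas := by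
  obtain ⟨C, hC⟩ := Q.mg_bounds k
  refine Q.integrable_meas_of_le (Q.continuous_mg k).measurable.log (C := |C|) fun x => ?_
  refine (hC x).2.trans ?_
  have := sumSq_nonneg x
  nlinarith [le_abs_self C, abs_nonneg C, mul_nonneg (abs_nonneg C) this]

/-! ### Disintegration along one coordinate -/

lemma lintegral_disint (i : Fin n) {G : (Fin n → ℝ) → ℝ≥0∞} (hG : Measurable G)
    (hdep : DepBelow ((i : ℕ) + 1) G) :
    ∫⁻ x, G x ∂Q.meas =
      ∫⁻ x, (∫⁻ t, ENNReal.ofReal (Q.cnd i x t) * G (update x i t)) ∂Q.meas := by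
  set G1 := fun x => ∫⁻ t, ENNReal.ofReal (Q.cnd i x t) * G (update x i t) with hG1def
  have hG1 : Measurable G1 := by
    refine Measurable.lintegral_prod_right' (f := fun z : (Fin n → ℝ) × ℝ =>
      ENNReal.ofReal (Q.cnd i z.1 z.2) * G (update z.1 i z.2)) ?_
    exact (Q.continuous_cnd₂ i).measurable.ennreal_ofReal.mul
      (hG.comp (continuous_fst.update i continuous_snd).measurable)
  have hG1dep : DepBelow (i : ℕ) G1 := by
    intro x y h
    simp only [hG1def, Q.cnd_dep i x y h]
    congr 1; funext t; congr 1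
    refine hdep _ _ fun j hj => ?_
    rcases eq_or_ne j i with rfl | hne
    · simp
    · rw [update_of_ne hne, update_of_ne hne]
      exact h j (by have := Fin.val_ne_of_ne hne; omega)
  set p : (Fin n → ℝ) → ℝ≥0∞ := fun x => ENNReal.ofReal (Q.p x)
  have hp : Measurable p := Q.cont.measurable.ennreal_ofReal
  rw [Q.lintegral_meas hG, Q.lintegral_meas hG1, volume_pi]
  refine lintegral_eq_of_lmarginal_eq (tailSet n (i : ℕ)) (hp.mul hG) (hp.mul hG1) ?_
  funext x
  have pull : ∀ (k : ℕ) (H : (Fin n → ℝ) → ℝ≥0∞), DepBelow k H → ∀ z,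
      (∫⋯∫⁻_(tailSet n k), fun y => p y * H y) z
        = (∫⋯∫⁻_(tailSet n k), p) z * H z := by
    intro k H hH z
    unfold lmarginal
    rw [← lintegral_mul_const (H z) (f := fun y => p (updateFinset z (tailSet n k) y))
      (hp.comp measurable_updateFinset)]
    refine lintegral_congr fun y => ?_
    show p _ * H _ = p _ * H z
    congr 1
    exact hH _ _ fun j hj => by
      have : j ∉ tailSet n k := by rw [mem_tailSet]; omega
      simp [updateFinset_def, this]
  show (∫⋯∫⁻_(tailSet n (i:ℕ)), fun y => p y * G y) x = (∫⋯∫⁻_(tailSet n (i:ℕ)), fun y => p y * G1 y) x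
  rw [pull _ G1 hG1dep, Q.lmarginal_eq, tailSet_succ i,
    lmarginal_insert (fun y => p y * G y) (hp.mul hG) (notMem_tailSet_succ i)]
  simp only [pull _ G hdep, show ∀ z, (∫⋯∫⁻_(tailSet n ((i:ℕ)+1)), p) z
    = ENNReal.ofReal (Q.mg ((i:ℕ)+1) z) from Q.lmarginal_eq _]
  rw [hG1def, ← lintegral_const_mul _ ?_]
  · refine lintegral_congr fun t => ?_
    rw [← mul_assoc, ← ENNReal.ofReal_mul (Q.mg_pos _ _).le, cnd,
      mul_div_cancel₀ _ (Q.mg_pos _ _).ne']
  · exact (Q.continuous_cnd i x).measurable.ennreal_ofReal.mul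
      (hG.comp (continuous_const.update i continuous_id).measurable)

/-- Bochner form of the disintegration, for nonnegative integrands. -/
lemma integral_disint (i : Fin n) {G : (Fin n → ℝ) → ℝ} (hG : Measurable G)
    (hdep : DepBelow ((i : ℕ) + 1) G) (h0 : ∀ x, 0 ≤ G x) (hint : Integrable G Q.meas) :
    (∀ᵐ x ∂Q.meas, Integrable fun t => Q.cnd i x t * G (update x i t)) ∧
    Integrable (fun x => ∫ t, Q.cnd i x t * G (update x i t)) Q.meas ∧
    ∫ x, (∫ t, Q.cnd i x t * G (update x i t)) ∂Q.meas = ∫ x, G x ∂Q.meas := by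
  set F := fun (x : Fin n → ℝ) (t : ℝ) => Q.cnd i x t * G (update x i t) with hF
  have hFm : Measurable (uncurry F) :=
    (Q.continuous_cnd₂ i).measurable.mul (hG.comp (continuous_fst.update i continuous_snd).measurable)
  have hF0 : ∀ x t, 0 ≤ F x t := fun x t => mul_nonneg (Q.cnd_pos i x t).le (h0 _)
  have key := Q.lintegral_disint i (G := fun x => ENNReal.ofReal (G x)) hG.ennreal_ofReal
    fun x y h => congrArg ENNReal.ofReal (hdep x y h)
  simp only [← ENNReal.ofReal_mul (Q.cnd_pos i _ _).le] at key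
  rw [← ofReal_integral_eq_lintegral_ofReal hint (Eventually.of_forall h0)] at key
  have hm : Measurable fun x => ∫⁻ t, ENNReal.ofReal (F x t) :=
    hFm.ennreal_ofReal.lintegral_prod_right'
  have hfin : ∀ᵐ x ∂Q.meas, ∫⁻ t, ENNReal.ofReal (F x t) < ⊤ :=
    ae_lt_top hm (by rw [← key]; exact ENNReal.ofReal_ne_top)
  have hae : ∀ᵐ x ∂Q.meas, Integrable (F x) := by
    filter_upwards [hfin] with x hx
    exact (lintegral_ofReal_ne_top_iff_integrable (hFm.comp measurable_prodMk_left).aestronglyMeasurable
      (Eventually.of_forall (hF0 x))).1 hx.ne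
  have hsm : StronglyMeasurable fun x => ∫ t, F x t := hFm.stronglyMeasurable.integral_prod_right'
  have e : ∫⁻ x, ENNReal.ofReal (∫ t, F x t) ∂Q.meas = ENNReal.ofReal (∫ x, G x ∂Q.meas) := by
    rw [key]
    refine lintegral_congr_ae ?_
    filter_upwards [hae] with x hx
    exact ofReal_integral_eq_lintegral_ofReal hx (Eventually.of_forall (hF0 x))
  have hnn : ∀ x, 0 ≤ ∫ t, F x t := fun x => integral_nonneg (hF0 x)
  refine ⟨hae, (lintegral_ofReal_ne_top_iff_integrable hsm.aestronglyMeasurable
    (Eventually.of_forall hnn)).1 (by rw [e]; exact ENNReal.ofReal_ne_top), ?_⟩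
  rw [integral_eq_lintegral_of_nonneg_ae (Eventually.of_forall hnn) hsm.aestronglyMeasurable, e,
    ENNReal.toReal_ofReal (integral_nonneg h0)]

/-! ### The map -/

/-- The first `k` steps of the triangular map. -/
noncomputable def knAux : ℕ → (Fin n → ℝ) → Fin n → ℝ
  | 0, b => b
  | k + 1, b =>
    if h : k < n then
      update (knAux k b) ⟨k, h⟩
        (P.quant ⟨k, h⟩ (knAux k b) (Q.cdfAt ⟨k, h⟩ b (b ⟨k, h⟩)))
    else knAux k b

/-- The triangular monotone map taking `Q` to `P`. -/
noncomputable def kn (b : Fin n → ℝ) : Fin n → ℝ := knAux Q P n b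

lemma knAux_stable {k m : ℕ} (hkm : k ≤ m) (b : Fin n → ℝ) {j : Fin n} (hj : (j : ℕ) < k) :
    knAux Q P m b j = knAux Q P k b j := by
  induction m, hkm using Nat.le_induction with
  | base => rfl
  | succ m hm ih =>
    simp only [knAux]
    split
    · rw [update_of_ne, ih]
      intro h; subst h; simp only at hj; omega
    · exact ih

lemma kn_eq_aux {k : ℕ} (hk : k ≤ n) (b : Fin n → ℝ) {j : Fin n} (hj : (j : ℕ) < k) :
    kn Q P b j = knAux Q P k b j := knAux_stable Q P hk b hj

lemma kn_apply (b : Fin n → ℝ) (i : Fin n) :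
    kn Q P b i = P.quant i (kn Q P b) (Q.cdfAt i b (b i)) := by
  rw [kn_eq_aux Q P (k := (i:ℕ) + 1) i.2 b (Nat.lt_succ_self _)]
  simp only [knAux, i.2, ↓reduceDIte, Fin.eta, update_self]
  rw [P.quant_dep i (knAux Q P i b) (kn Q P b) fun j hj => (kn_eq_aux Q P i.2.le b hj).symm]

lemma kn_spec (b : Fin n → ℝ) (i : Fin n) :
    P.cdfAt i (kn Q P b) (kn Q P b i) = Q.cdfAt i b (b i) := by
  rw [kn_apply, P.cdfAt_quant _ _ (Q.cdfAt_mem i b (b i))]

lemma kn_unique {a b : Fin n → ℝ} (h : ∀ i, P.cdfAt i a (a i) = Q.cdfAt i b (b i)) :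
    kn Q P b = a := by
  have : ∀ k : ℕ, ∀ i : Fin n, (i : ℕ) < k → kn Q P b i = a i := by
    intro k
    induction k with
    | zero => omega
    | succ k ih =>
      intro i hi
      rw [kn_apply, P.quant_dep i (kn Q P b) a fun j hj => ih j (by omega), ← h i, P.quant_cdfAt]
  exact funext fun i => this _ i (Nat.lt_succ_self _)

lemma kn_kn (b : Fin n → ℝ) : kn P Q (kn Q P b) = b :=
  kn_unique P Q fun i => (kn_spec Q P b i).symm

lemma kn_dep (i : Fin n) : DepBelow ((i : ℕ) + 1) fun b => kn Q P b i := by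
  intro x y h
  have : ∀ k : ℕ, ∀ j : Fin n, (j : ℕ) < k → (j : ℕ) ≤ i → kn Q P x j = kn Q P y j := by
    intro k
    induction k with
    | zero => omega
    | succ k ih =>
      intro j hj hji
      rw [kn_apply Q P x, kn_apply Q P y,
        P.quant_dep j (kn Q P x) (kn Q P y) fun l hl => ih l (by omega) (by omega),
        Q.cdfAt_dep j x y fun l hl => h l (by omega), h j (by omega)]
  exact this _ i (Nat.lt_succ_self _) le_rfl

lemma kn_dep_below (k : ℕ) {α : Type*} {G : (Fin n → ℝ) → α} (hG : DepBelow k G) :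
    DepBelow k fun b => G (kn Q P b) := fun x y h =>
  hG _ _ fun j hj => kn_dep Q P j x y fun l hl => h l (by omega)

lemma measurable_knAux (k : ℕ) : Measurable (knAux Q P k) := by
  induction k with
  | zero => exact measurable_id
  | succ k ih =>
    show Measurable fun b => knAux Q P (k + 1) b
    simp only [knAux]
    split
    · refine measurable_pi_iff.2 fun j => ?_
      rcases eq_or_ne j ⟨k, ‹_›⟩ with rfl | hne
      · simp only [update_self]
        exact P.measurable_quant _ ih ((Q.measurable_cdfAt₂ _).comp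
          (measurable_id.prodMk (measurable_pi_apply _))) fun b => Q.cdfAt_mem _ _ _
      · simp only [update_of_ne hne]
        exact (measurable_pi_apply j).comp ih
    · exact ih

lemma measurable_kn : Measurable (kn Q P) := measurable_knAux Q P n

/-! ### One line of the map -/

/-- The map along coordinate `i`. -/
noncomputable def lineFun (i : Fin n) (b : Fin n → ℝ) (t : ℝ) : ℝ :=
  P.quant i (kn Q P b) (Q.cdfAt i b t)

lemma depBelow_update {i : Fin n} {α : Type*} {f : (Fin n → ℝ) → α} (h : DepBelow (i : ℕ) f)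
    (x : Fin n → ℝ) (t : ℝ) : f (update x i t) = f x := h.update le_rfl x t

lemma kn_update_below (i : Fin n) (b : Fin n → ℝ) (t : ℝ) {j : Fin n} (hj : (j : ℕ) < i) :
    kn Q P (update b i t) j = kn Q P b j :=
  kn_dep Q P j _ _ fun l hl => update_of_ne (by rintro rfl; omega) _ _

lemma kn_update_self (i : Fin n) (b : Fin n → ℝ) (t : ℝ) :
    kn Q P (update b i t) i = lineFun Q P i b t := by
  rw [kn_apply, update_self, depBelow_update (Q.cdfAt_dep i),
    P.quant_dep i _ (kn Q P b) fun j hj => kn_update_below Q P i b t hj]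
  rfl

lemma dep_kn_update (i : Fin n) {α : Type*} {G : (Fin n → ℝ) → α} (hG : DepBelow ((i : ℕ) + 1) G)
    (b : Fin n → ℝ) (t : ℝ) :
    G (kn Q P (update b i t)) = G (update (kn Q P b) i (lineFun Q P i b t)) := by
  refine hG _ _ fun j hj => ?_
  rcases eq_or_ne j i with rfl | hne
  · rw [update_self, kn_update_self]
  · rw [update_of_ne hne, kn_update_below Q P i b t (by have := Fin.val_ne_of_ne hne; omega)]

lemma cdfAt_lineFun (i : Fin n) (b : Fin n → ℝ) (t : ℝ) :
    P.cdfAt i (kn Q P b) (lineFun Q P i b t) = Q.cdfAt i b t :=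
  P.cdfAt_quant _ _ (Q.cdfAt_mem i b t)

lemma continuousAt_quant (i : Fin n) (a : Fin n → ℝ) {u : ℝ} (hu : u ∈ Ioo (0:ℝ) 1) :
    ContinuousAt (P.quant i a) u := by
  refine continuousAt_of_monotoneOn_of_image_mem_nhds (s := Ioo 0 1) ?_
    (Ioo_mem_nhds hu.1 hu.2) ?_
  · intro x hx y hy hxy
    rw [P.quant_le_iff i a hx, P.cdfAt_quant i a hy]
    exact hxy
  · have : P.quant i a '' Ioo 0 1 = univ := eq_univ_of_forall fun t =>
      ⟨P.cdfAt i a t, P.cdfAt_mem i a t, P.quant_cdfAt i a t⟩
    rw [this]; exact univ_mem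

lemma hasDerivAt_lineFun (i : Fin n) (b : Fin n → ℝ) (t : ℝ) :
    HasDerivAt (lineFun Q P i b)
      (Q.cnd i b t / P.cnd i (kn Q P b) (lineFun Q P i b t)) t := by
  set a := kn Q P b
  have hu := Q.cdfAt_mem i b t
  have h1 : HasDerivAt (P.quant i a) (P.cnd i a (P.quant i a (Q.cdfAt i b t)))⁻¹ (Q.cdfAt i b t) := by
    refine HasDerivAt.of_local_left_inverse (P.continuousAt_quant i a hu)
      (P.hasDerivAt_cdfAt i a _) (P.cnd_pos _ _ _).ne' ?_
    filter_upwards [Ioo_mem_nhds hu.1 hu.2] with u hu' using P.cdfAt_quant i a hu'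
  have := h1.comp t (Q.hasDerivAt_cdfAt i b t)
  rw [div_eq_inv_mul]
  exact this

lemma surjective_lineFun (i : Fin n) (b : Fin n → ℝ) : Surjective (lineFun Q P i b) := by
  intro s
  refine ⟨Q.quant i b (P.cdfAt i (kn Q P b) s), ?_⟩
  rw [lineFun, Q.cdfAt_quant _ _ (P.cdfAt_mem _ _ _), P.quant_cdfAt]

/-- The line map as one dimensional data. -/
noncomputable def line (i : Fin n) (b : Fin n → ℝ) : LineMap where
  c := Q.cnd i b
  d := P.cnd i (kn Q P b)
  σ := lineFun Q P i b
  σ' t := Q.cnd i b t / P.cnd i (kn Q P b) (lineFun Q P i b t)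
  c_cont := Q.continuous_cnd i b
  c_pos := Q.cnd_pos i b
  c_int := Q.integrable_cnd i b
  c_one := Q.integral_cnd i b
  d_cont := P.continuous_cnd i _
  d_pos := P.cnd_pos i _
  hasDeriv := hasDerivAt_lineFun Q P i b
  rel _ := div_mul_cancel₀ _ (P.cnd_pos _ _ _).ne'
  surj := surjective_lineFun Q P i b

lemma lintegral_kn {G : (Fin n → ℝ) → ℝ≥0∞} (hG : Measurable G) :
    ∫⁻ b, G (kn Q P b) ∂Q.meas = ∫⁻ a, G a ∂P.meas := by
  suffices h : ∀ k ≤ n, ∀ G : (Fin n → ℝ) → ℝ≥0∞, Measurable G → DepBelow k G →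
      ∫⁻ b, G (kn Q P b) ∂Q.meas = ∫⁻ a, G a ∂P.meas from
    h n le_rfl G hG fun x y hxy => congrArg G (funext fun i => hxy i i.2)
  intro k hk
  induction k with
  | zero =>
    intro G _ hdep
    have e : ∀ x, G x = G 0 := fun x => hdep x 0 (by omega)
    simp [e]
  | succ k ih =>
    intro G hG hdep
    set i : Fin n := ⟨k, hk⟩
    set G1 := fun a => ∫⁻ s, ENNReal.ofReal (P.cnd i a s) * G (update a i s) with hG1
    have hG1m : Measurable G1 := by
      refine Measurable.lintegral_prod_right' (f := fun z : (Fin n → ℝ) × ℝ =>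
        ENNReal.ofReal (P.cnd i z.1 z.2) * G (update z.1 i z.2)) ?_
      exact (P.continuous_cnd₂ i).measurable.ennreal_ofReal.mul
        (hG.comp (continuous_fst.update i continuous_snd).measurable)
    have hG1dep : DepBelow k G1 := by
      intro x y h
      simp only [hG1, P.cnd_dep i x y h]
      congr 1; funext t; congr 1
      refine hdep _ _ fun j hj => ?_
      rcases eq_or_ne j i with rfl | hne
      · simp
      · rw [update_of_ne hne, update_of_ne hne]
        exact h j (by have : (j:ℕ) ≠ k := Fin.val_ne_of_ne hne; omega)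
    rw [Q.lintegral_disint i (G := fun b => G (kn Q P b)) (hG.comp (measurable_kn Q P))
        (kn_dep_below Q P _ hdep),
      P.lintegral_disint i hG hdep, ← ih (by omega) G1 hG1m hG1dep]
    refine lintegral_congr fun b => ?_
    set M := line Q P i b
    have := lintegral_image_eq_lintegral_abs_deriv_mul MeasurableSet.univ
      (fun t _ => (M.hasDeriv t).hasDerivWithinAt) M.strictMono.injective.injOn
      (fun s => ENNReal.ofReal (M.d s) * G (update (kn Q P b) i s))
    rw [image_univ, M.surj.range_eq, setLIntegral_univ, setLIntegral_univ] at this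
    show ∫⁻ t, ENNReal.ofReal (M.c t) * G (kn Q P (update b i t))
      = ∫⁻ s, ENNReal.ofReal (M.d s) * G (update (kn Q P b) i s)
    rw [this]
    refine lintegral_congr fun t => ?_
    rw [abs_of_pos (M.σ'_pos t), ← mul_assoc, ← ENNReal.ofReal_mul (M.σ'_pos t).le, M.rel,
      dep_kn_update Q P i hdep]
    rfl

lemma measurePreserving_kn : MeasurePreserving (kn Q P) Q.meas P.meas := by
  refine ⟨measurable_kn Q P, Measure.ext fun s hs => ?_⟩
  rw [Measure.map_apply (measurable_kn Q P) hs]
  have := lintegral_kn Q P (G := s.indicator 1) (measurable_one.indicator hs)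
  rw [lintegral_indicator_one hs] at this
  rw [← this, ← lintegral_indicator_one (measurable_kn Q P hs)]
  rfl

lemma integral_kn {g : (Fin n → ℝ) → ℝ} (hg : Measurable g) :
    ∫ b, g (kn Q P b) ∂Q.meas = ∫ a, g a ∂P.meas := by
  rw [← integral_map (measurable_kn Q P).aemeasurable hg.aestronglyMeasurable,
    (measurePreserving_kn Q P).map_eq]

lemma integrable_kn {g : (Fin n → ℝ) → ℝ} (hg : Measurable g) (h : Integrable g P.meas) :
    Integrable (fun b => g (kn Q P b)) Q.meas :=
  ((measurePreserving_kn Q P).integrable_comp hg.aestronglyMeasurable).2 h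

/-! ### Integration by parts along lines -/

lemma ibp_line {u h w : ℝ → ℝ} (hu : Integrable u) (hh : Continuous h) (h0 : ∀ t, 0 ≤ h t)
    (hw : Integrable w) (hd : ∀ t, HasDerivAt u (h t + w t) t) :
    Integrable h ∧ ∫ t, h t = -∫ t, w t := by
  have hlo : ∀ N : ℕ, ∃ R : ℝ, (N : ℝ) ≤ R ∧ |u R| + |u (-R)| ≤ 1 := by
    intro N
    by_contra hcon
    push Not at hcon
    have hv : IntegrableOn (fun t => |u t| + |u (-t)|) (Ici (N:ℝ)) :=
      (hu.abs.add hu.comp_neg.abs).integrableOn
    have h1 : IntegrableOn (fun _ => (1:ℝ)) (Ici (N:ℝ)) := by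
      refine hv.mono' aestronglyMeasurable_const ?_
      filter_upwards [ae_restrict_mem measurableSet_Ici] with t ht
      simpa using (hcon t ht).le
    rw [integrableOn_const_iff] at h1
    simp at h1
  choose R hR hu1 using hlo
  have hRt : Tendsto R atTop atTop := tendsto_atTop_mono hR tendsto_natCast_atTop_atTop
  have hcov := aecover_Icc (μ := (volume : Measure ℝ)) (tendsto_neg_atTop_atBot.comp hRt) hRt
  have hint : Integrable h := by
    refine hcov.integrable_of_integral_bounded_of_nonneg_ae (1 + ∫ t, |w t|)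
      (fun N => hh.integrableOn_Icc) (Eventually.of_forall h0) (Eventually.of_forall fun N => ?_)
    have hle : -R N ≤ R N := by have := hR N; have : (0:ℝ) ≤ N := Nat.cast_nonneg N; linarith
    have e := intervalIntegral.integral_eq_sub_of_hasDerivAt (a := -R N) (b := R N)
      (fun t _ => hd t) ((hh.intervalIntegrable _ _).add hw.intervalIntegrable)
    rw [intervalIntegral.integral_add (hh.intervalIntegrable _ _) hw.intervalIntegrable,
      intervalIntegral.integral_of_le hle, intervalIntegral.integral_of_le hle,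
      ← integral_Icc_eq_integral_Ioc] at e
    show ∫ t in Icc (-R N) (R N), h t ≤ _
    have hwb : |∫ t in Ioc (-R N) (R N), w t| ≤ ∫ t, |w t| :=
      abs_integral_le_integral_abs.trans
        (setIntegral_le_integral hw.abs (Eventually.of_forall fun t => abs_nonneg _))
    linarith [abs_le.1 hwb, le_abs_self (u (R N)), neg_abs_le (u (-R N)), hu1 N]
  refine ⟨hint, ?_⟩
  have := integral_eq_zero_of_hasDerivAt_of_integrable hd (hint.add hw) hu
  rw [integral_add hint hw] at this
  linarith

lemma lintegral_line (i : Fin n) {f : (Fin n → ℝ) → ℝ≥0∞} (hf : Measurable f) :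
    ∫⁻ x, f x = ∫⁻ x, (∫⁻ t, f (update x i t)) * ProbabilityTheory.gaussianPDF 0 1 (x i) := by
  rw [volume_pi]
  have hm : Measurable fun x : Fin n → ℝ => ∫⁻ t, f (update x i t) :=
    Measurable.lintegral_prod_right' (f := fun z : (Fin n → ℝ) × ℝ => f (update z.1 i z.2))
      (hf.comp (continuous_fst.update i continuous_snd).measurable)
  refine lintegral_eq_of_lmarginal_eq {i} hf
    (hm.mul ((ProbabilityTheory.measurable_gaussianPDF 0 1).comp (measurable_pi_apply i))) ?_
  funext x
  rw [lmarginal_singleton, lmarginal_singleton]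
  simp only [update_idem, update_self]
  rw [lintegral_const_mul _ (ProbabilityTheory.measurable_gaussianPDF 0 1),
    ProbabilityTheory.lintegral_gaussianPDF_eq_one 0 one_ne_zero, mul_one]

/-- Integration by parts in coordinate `i` against a function that increases along that
coordinate. -/
lemma ibp_coord (i : Fin n) {g g' : (Fin n → ℝ) → ℝ} (hg : Measurable g) (hg' : Measurable g')
    (hcont : ∀ x, Continuous fun t => g' (update x i t)) (h0 : ∀ x, 0 ≤ g' x)
    (hd : ∀ x t, HasDerivAt (fun s => g (update x i s)) (g' (update x i t)) t)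
    (hgp : Integrable g Q.meas) (hDg : Integrable fun x => Q.D i x * g x) :
    Integrable g' Q.meas ∧ ∫ x, g' x ∂Q.meas = -∫ x, Q.D i x * g x := by
  set u := fun x => Q.p x * g x
  set h := fun x => Q.p x * g' x with hh
  set w := fun x => Q.D i x * g x with hw
  have hum : Measurable u := Q.cont.measurable.mul hg
  have hhm : Measurable h := Q.cont.measurable.mul hg'
  have hwm : Measurable w := (Q.Dmeas i).mul hg
  have hh0 : ∀ x, 0 ≤ h x := fun x => mul_nonneg (Q.pos x).le (h0 x)
  have hu : Integrable u := (Q.integrable_meas_iff g).1 hgp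
  have lineint : ∀ {f : (Fin n → ℝ) → ℝ}, Measurable f → Integrable f →
      ∀ᵐ x, Integrable fun t => f (update x i t) := by
    intro f hfm hf
    have hne : ∫⁻ x, ‖f x‖ₑ ≠ ⊤ := hf.2.ne
    rw [lintegral_line i hfm.enorm] at hne
    have hm : Measurable fun x : Fin n → ℝ => ∫⁻ t, ‖f (update x i t)‖ₑ :=
      Measurable.lintegral_prod_right' (f := fun z : (Fin n → ℝ) × ℝ => ‖f (update z.1 i z.2)‖ₑ)
        (hfm.comp (continuous_fst.update i continuous_snd).measurable).enorm
    filter_upwards [ae_lt_top (hm.mul ((ProbabilityTheory.measurable_gaussianPDF 0 1).comp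
      (measurable_pi_apply i))) hne] with x hx
    refine ⟨(hfm.comp (continuous_const.update i continuous_id).measurable).aestronglyMeasurable, ?_⟩
    have hpos : ProbabilityTheory.gaussianPDF 0 1 (x i) ≠ 0 :=
      (ProbabilityTheory.gaussianPDF_pos 0 one_ne_zero (x i)).ne'
    exact ENNReal.lt_top_of_mul_ne_top_left hx.ne hpos
  have lines : ∀ᵐ x, (∫⁻ t, ENNReal.ofReal (h (update x i t)))
      + (∫⁻ t, ENNReal.ofReal (w (update x i t)))
      = ∫⁻ t, ENNReal.ofReal (-w (update x i t)) := by
    filter_upwards [lineint hum hu, lineint hwm hDg] with x hxu hxw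
    have hcont' : Continuous fun t => h (update x i t) :=
      (Q.cont.comp (continuous_const.update i continuous_id)).mul (hcont x)
    obtain ⟨hhi, hhe⟩ := ibp_line hxu hcont' (fun t => hh0 _) hxw fun t => by
      have hp := Q.deriv i (update x i t)
      simp only [update_idem, update_self] at hp
      exact (hp.mul (hd x t)).congr_deriv (by simp only [hh, hw]; ring)
    have hwp : Integrable fun t => max (w (update x i t)) 0 := hxw.pos_part
    have hwn : Integrable fun t => max (-w (update x i t)) 0 := hxw.neg_part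
    have e1 : ∀ r : ℝ, ENNReal.ofReal r = ENNReal.ofReal (max r 0) := by simp
    rw [lintegral_congr (fun t => e1 (w (update x i t))),
      lintegral_congr (fun t => e1 (-w (update x i t))),
      ← ofReal_integral_eq_lintegral_ofReal hhi (Eventually.of_forall fun t => hh0 _),
      ← ofReal_integral_eq_lintegral_ofReal hwp (Eventually.of_forall fun t => le_max_right _ _),
      ← ofReal_integral_eq_lintegral_ofReal hwn (Eventually.of_forall fun t => le_max_right _ _),
      ← ENNReal.ofReal_add (integral_nonneg (fun t => hh0 (update x i t)))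
        (integral_nonneg (μ := volume) (f := fun t => max (w (update x i t)) 0) fun t => le_max_right _ _)]
    congr 1
    rw [hhe]
    have : ∫ t, w (update x i t) = (∫ t, max (w (update x i t)) 0) - ∫ t, max (-w (update x i t)) 0 := by
      rw [← integral_sub hwp hwn]; congr 1; funext t; grind
    linarith
  have tot : (∫⁻ x, ENNReal.ofReal (h x)) + (∫⁻ x, ENNReal.ofReal (w x))
      = ∫⁻ x, ENNReal.ofReal (-w x) := by
    rw [lintegral_line i hhm.ennreal_ofReal, lintegral_line i hwm.ennreal_ofReal,
      lintegral_line i (f := fun x => ENNReal.ofReal (-w x)) hwm.neg.ennreal_ofReal,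
      ← lintegral_add_left ?_]
    · refine lintegral_congr_ae ?_
      filter_upwards [lines] with x hx
      rw [← add_mul, hx]
    · exact (Measurable.lintegral_prod_right' (f := fun z : (Fin n → ℝ) × ℝ =>
        ENNReal.ofReal (h (update z.1 i z.2)))
        (hhm.comp (continuous_fst.update i continuous_snd).measurable).ennreal_ofReal).mul
        ((ProbabilityTheory.measurable_gaussianPDF 0 1).comp (measurable_pi_apply i))
  have hnn : ∫⁻ x, ENNReal.ofReal (-w x) ≠ ⊤ := hDg.neg.lintegral_lt_top.ne
  have hhfin : ∫⁻ x, ENNReal.ofReal (h x) ≠ ⊤ := ne_top_of_le_ne_top hnn (tot ▸ le_self_add)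
  have hhi : Integrable h :=
    (lintegral_ofReal_ne_top_iff_integrable hhm.aestronglyMeasurable (Eventually.of_forall hh0)).1 hhfin
  refine ⟨(Q.integrable_meas_iff g').2 hhi, ?_⟩
  have t2 := congrArg ENNReal.toReal tot
  rw [ENNReal.toReal_add hhfin hDg.lintegral_lt_top.ne] at t2
  rw [integral_meas, show (fun x => Q.p x * g' x) = h from rfl,
    integral_eq_lintegral_of_nonneg_ae (Eventually.of_forall hh0) hhm.aestronglyMeasurable,
    integral_eq_lintegral_pos_part_sub_lintegral_neg_part hDg]
  linarith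

end Dens

end Vale.Agent.P245
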