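import Mathlib
import Vale.Agent.P245.Knothe

/-!
Entropy and displacement estimates for the triangular map.
-/

namespace Vale.Agent.P245

open MeasureTheory Set Filter Topology Function Finset
open scoped ENNReal

namespace Dens

variable {n : ℕ} (Q P : Dens n)

/-- Logarithm of the conditional density of coordinate `i` at the point itself. -/
noncomputable def lc (i : Fin n) (x : Fin n → ℝ) : ℝ :=
  Real.log (P.mg ((i : ℕ) + 1) x) - Real.log (P.mg (i : ℕ) x)

lemma cnd_self (i : Fin n) (x : Fin n → ℝ) :
    P.cnd i x (x i) = P.mg ((i : ℕ) + 1) x / P.mg (i : ℕ) x := by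
  rw [cnd, update_eq_self]

lemma log_cnd_self (i : Fin n) (x : Fin n → ℝ) : Real.log (P.cnd i x (x i)) = P.lc i x := by
  rw [cnd_self, Real.log_div (P.mg_pos _ _).ne' (P.mg_pos _ _).ne', lc]

lemma measurable_lc (i : Fin n) : Measurable (P.lc i) :=
  ((P.continuous_mg _).measurable.log).sub ((P.continuous_mg _).measurable.log)

lemma integrable_lc (i : Fin n) : Integrable (Q.lc i) P.meas := by
  have : ∀ k, Integrable (fun x => Real.log (Q.mg k x)) P.meas := by
    intro k
    obtain ⟨C, hC⟩ := Q.mg_bounds k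
    refine P.integrable_meas_of_le (Q.continuous_mg k).measurable.log (C := |C|) fun x => ?_
    refine (hC x).2.trans ?_
    have := sumSq_nonneg x
    nlinarith [le_abs_self C, abs_nonneg C, mul_nonneg (abs_nonneg C) this]
  exact (this _).sub (this _)

lemma sum_lc (x : Fin n → ℝ) : ∑ i, P.lc i x = Real.log (P.p x) := by
  have h := Finset.sum_range_sub (fun k => Real.log (P.mg k x)) n
  rw [P.mg_top, P.mg_zero, Real.log_one, sub_zero] at h
  rw [← h, Finset.sum_range]
  rfl

lemma measurable_cnd_self (i : Fin n) : Measurable fun x => P.cnd i x (x i) :=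
  ((P.continuous_cnd₂ i).comp (continuous_id.prodMk (continuous_apply i))).measurable

lemma cnd_self_dep (i : Fin n) : DepBelow ((i : ℕ) + 1) fun x => P.cnd i x (x i) := by
  intro x y h
  show P.cnd i x (x i) = P.cnd i y (y i)
  rw [P.cnd_dep i x y fun j hj => h j (by omega), h i (Nat.lt_succ_self _)]

/-- Derivative of the map along its own coordinate. -/
noncomputable def slope (i : Fin n) (b : Fin n → ℝ) : ℝ :=
  Q.cnd i b (b i) / P.cnd i (kn Q P b) (kn Q P b i)

lemma slope_pos (i : Fin n) (b : Fin n → ℝ) : 0 < slope Q P i b :=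
  div_pos (Q.cnd_pos _ _ _) (P.cnd_pos _ _ _)

lemma measurable_slope (i : Fin n) : Measurable (slope Q P i) :=
  (Q.measurable_cnd_self i).div ((P.measurable_cnd_self i).comp (measurable_kn Q P))

lemma slope_update (i : Fin n) (x : Fin n → ℝ) (t : ℝ) :
    slope Q P i (update x i t) = (line Q P i x).σ' t := by
  show Q.cnd i (update x i t) (update x i t i) / _ = _
  rw [update_self, depBelow_update (Q.cnd_dep i), kn_update_self,
    P.cnd_dep i (kn Q P (update x i t)) (kn Q P x) fun j hj => kn_update_below Q P i x t hj]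
  rfl

lemma log_slope (i : Fin n) (b : Fin n → ℝ) :
    Real.log (slope Q P i b) = Q.lc i b - P.lc i (kn Q P b) := by
  rw [slope, Real.log_div (Q.cnd_pos _ _ _).ne' (P.cnd_pos _ _ _).ne', log_cnd_self, log_cnd_self]

lemma measurable_kn_apply (i : Fin n) : Measurable fun b => kn Q P b i :=
  (measurable_pi_apply i).comp (measurable_kn Q P)

lemma integrable_kn_sq (i : Fin n) : Integrable (fun b => kn Q P b i ^ 2) Q.meas :=
  integrable_kn Q P (g := fun a => a i ^ 2) (by fun_prop)
    (P.integrable_meas_of_le (by fun_prop) (C := 1) fun x => by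
      rw [abs_of_nonneg (sq_nonneg _)]; nlinarith [sq_le_sumSq x i, sumSq_nonneg x])

lemma integrable_coord_sq (i : Fin n) : Integrable (fun b => b i ^ 2) Q.meas :=
  Q.integrable_meas_of_le (by fun_prop) (C := 1) fun x => by
    rw [abs_of_nonneg (sq_nonneg _)]; nlinarith [sq_le_sumSq x i, sumSq_nonneg x]

lemma integrable_D_mul (i : Fin n) {g : (Fin n → ℝ) → ℝ} (hg : Measurable g)
    (hg2 : Integrable (fun b => g b ^ 2) Q.meas) : Integrable fun x => Q.D i x * g x := by
  obtain ⟨C, hC⟩ := Q.Dbound
  refine ((Q.integrable_poly.add ((Q.integrable_meas_iff _).1 hg2)).const_mul |C|).mono'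
    ((Q.Dmeas i).mul hg).aestronglyMeasurable (Eventually.of_forall fun x => ?_)
  rw [Real.norm_eq_abs, abs_mul]
  have h1 : |Q.D i x| * |g x| ≤ |C| * (1 + sumSq x) * Q.p x * |g x| :=
    mul_le_mul_of_nonneg_right ((hC i x).trans (by
      have := Q.pos x; have := sumSq_nonneg x; gcongr; exact le_abs_self C)) (abs_nonneg _)
  refine h1.trans ?_
  show |C| * (1 + sumSq x) * Q.p x * |g x| ≤ |C| * ((1 + sumSq x) ^ 2 * Q.p x + Q.p x * g x ^ 2)
  have : (1 + sumSq x) * |g x| ≤ (1 + sumSq x) ^ 2 + g x ^ 2 := by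
    nlinarith [sq_nonneg (1 + sumSq x - |g x|), sq_abs (g x), sq_nonneg (g x), sq_nonneg (1 + sumSq x)]
  nlinarith [mul_le_mul_of_nonneg_left this (mul_nonneg (abs_nonneg C) (Q.pos x).le)]

lemma integrable_of_sq {g : (Fin n → ℝ) → ℝ} (hg : Measurable g)
    (hg2 : Integrable (fun b => g b ^ 2) Q.meas) : Integrable g Q.meas :=
  ((integrable_const (1:ℝ)).add hg2).mono' hg.aestronglyMeasurable
    (Eventually.of_forall fun x => by
      show |g x| ≤ 1 + g x ^ 2
      nlinarith [sq_nonneg (|g x| - 1), sq_abs (g x)])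

lemma integral_D_coord (i : Fin n) : ∫ x, Q.D i x * x i = -1 := by
  obtain ⟨-, h⟩ := Q.ibp_coord i (g := fun x => x i) (g' := fun _ => 1) (by fun_prop) measurable_const
    (fun _ => continuous_const) (fun _ => zero_le_one)
    (fun x t => by simp only [update_self]; exact hasDerivAt_id' t)
    (Q.integrable_of_sq (by fun_prop) (Q.integrable_coord_sq i))
    (Q.integrable_D_mul i (by fun_prop) (Q.integrable_coord_sq i))
  simp at h; linarith

lemma slope_ibp (i : Fin n) :
    Integrable (slope Q P i) Q.meas ∧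
      ∫ x, slope Q P i x ∂Q.meas = -∫ x, Q.D i x * kn Q P x i := by
  refine Q.ibp_coord i (measurable_kn_apply Q P i) (measurable_slope Q P i) (fun x => ?_)
    (fun x => (slope_pos Q P i x).le) (fun x t => ?_)
    (Q.integrable_of_sq (measurable_kn_apply Q P i) (integrable_kn_sq Q P i))
    (Q.integrable_D_mul i (measurable_kn_apply Q P i) (integrable_kn_sq Q P i))
  · simp only [slope_update]
    exact (line Q P i x).continuous_σ'
  · simp only [slope_update, kn_update_self]
    exact (line Q P i x).hasDeriv t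

/-- The entropy production term of coordinate `i`. -/
noncomputable def entStep (i : Fin n) : ℝ :=
  ∫ b, (P.lc i (kn Q P b) - Q.lc i b) ∂Q.meas

lemma integrable_entStep (i : Fin n) :
    Integrable (fun b => P.lc i (kn Q P b) - Q.lc i b) Q.meas :=
  (integrable_kn Q P (P.measurable_lc i) (integrable_lc P P i)).sub (integrable_lc Q Q i)

lemma integrable_dissip (i : Fin n) :
    Integrable (fun b => dissip (slope Q P i b)) Q.meas := by
  have : (fun b => dissip (slope Q P i b))
      = fun b => slope Q P i b - 1 + (P.lc i (kn Q P b) - Q.lc i b) := by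
    funext b; simp only [dissip, log_slope]; ring
  rw [this]
  exact ((slope_ibp Q P i).1.sub (integrable_const 1)).add (integrable_entStep Q P i)

lemma integral_dissip (i : Fin n) :
    ∫ b, dissip (slope Q P i b) ∂Q.meas
      = -(∫ x, Q.D i x * (kn Q P x i - x i)) + entStep Q P i := by
  have : (fun b => dissip (slope Q P i b))
      = fun b => (slope Q P i b - 1) + (P.lc i (kn Q P b) - Q.lc i b) := by
    funext b; simp only [dissip, log_slope]; ring
  have i1 : Integrable (fun b => slope Q P i b - 1) Q.meas :=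
    (slope_ibp Q P i).1.sub (integrable_const 1)
  rw [this, integral_add i1 (integrable_entStep Q P i),
    integral_sub (slope_ibp Q P i).1 (integrable_const _), (slope_ibp Q P i).2]
  simp only [mul_sub]
  rw [integral_sub (Q.integrable_D_mul i (measurable_kn_apply Q P i) (integrable_kn_sq Q P i))
    (Q.integrable_D_mul i (by fun_prop) (Q.integrable_coord_sq i)), Q.integral_D_coord]
  simp [entStep]; ring

lemma integral_D_eq (i : Fin n) (g : (Fin n → ℝ) → ℝ) :
    ∫ x, Q.D i x * g x = ∫ x, Q.D i x / Q.p x * g x ∂Q.meas := by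
  rw [integral_meas]
  congr 1; funext x
  field_simp [(Q.pos x).ne']

lemma entStep_le (i : Fin n) :
    entStep Q P i ≤
      ∫ b, P.D i (kn Q P b) / P.p (kn Q P b) * (kn Q P b i - b i) ∂Q.meas := by
  have h0 : 0 ≤ ∫ a, dissip (slope P Q i a) ∂P.meas :=
    integral_nonneg fun a => dissip_nonneg (slope_pos P Q i a)
  rw [integral_dissip P Q i] at h0
  have e1 : entStep P Q i = -entStep Q P i := by
    have hm : Measurable fun a => Q.lc i (kn P Q a) - P.lc i a :=
      ((Q.measurable_lc i).comp (measurable_kn P Q)).sub (P.measurable_lc i)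
    unfold entStep
    rw [← integral_kn Q P hm, ← integral_neg]
    simp [kn_kn Q P]
  have hm2 : Measurable fun a => P.D i a / P.p a * (kn P Q a i - a i) :=
    ((P.Dmeas i).div P.cont.measurable).mul ((measurable_kn_apply P Q i).sub (measurable_pi_apply i))
  rw [integral_D_eq, ← integral_kn Q P hm2, e1] at h0
  have e2 : (fun b => P.D i (kn Q P b) / P.p (kn Q P b) * (kn P Q (kn Q P b) i - kn Q P b i))
      = fun b => -(P.D i (kn Q P b) / P.p (kn Q P b) * (kn Q P b i - b i)) := by
    funext b; rw [kn_kn Q P]; ring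
  rw [e2, integral_neg] at h0
  linarith

lemma sum_entStep :
    ∑ i, entStep Q P i = ∫ b, (Real.log (P.p (kn Q P b)) - Real.log (Q.p b)) ∂Q.meas := by
  unfold entStep
  rw [← integral_finsetSum _ fun i _ => integrable_entStep Q P i]
  simp only [Finset.sum_sub_distrib, sum_lc]

/-- Conditional relative entropy of coordinate `i`. -/
noncomputable def klStep (i : Fin n) : ℝ :=
  ∫ a, klInt (P.cnd i a (a i)) (Q.cnd i a (a i)) ∂P.meas

lemma integrable_ratio (i : Fin n) :
    Integrable (fun a => Q.cnd i a (a i) / P.cnd i a (a i)) P.meas ∧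
      ∫ a, Q.cnd i a (a i) / P.cnd i a (a i) ∂P.meas = 1 := by
  set G := fun a => Q.cnd i a (a i) / P.cnd i a (a i) with hG
  have hGm : Measurable G := (Q.measurable_cnd_self i).div (P.measurable_cnd_self i)
  have h0 : ∀ a, 0 ≤ G a := fun a => (div_pos (Q.cnd_pos _ _ _) (P.cnd_pos _ _ _)).le
  have h : ∫⁻ a, ENNReal.ofReal (G a) ∂P.meas = 1 := by
    rw [P.lintegral_disint i hGm.ennreal_ofReal ?_]
    · have : ∀ a, (∫⁻ t, ENNReal.ofReal (P.cnd i a t) * ENNReal.ofReal (G (update a i t))) = 1 := by
        intro a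
        rw [← Q.lintegral_cnd i a]
        refine lintegral_congr fun t => ?_
        rw [← ENNReal.ofReal_mul (P.cnd_pos _ _ _).le]
        congr 1
        simp only [hG, update_self, depBelow_update (Q.cnd_dep i), depBelow_update (P.cnd_dep i)]
        exact mul_div_cancel₀ _ (P.cnd_pos _ _ _).ne'
      simp [this]
    · intro x y hxy
      simp only [hG]
      rw [show Q.cnd i x (x i) = Q.cnd i y (y i) from Q.cnd_self_dep i x y hxy,
        show P.cnd i x (x i) = P.cnd i y (y i) from P.cnd_self_dep i x y hxy]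
  refine ⟨(lintegral_ofReal_ne_top_iff_integrable hGm.aestronglyMeasurable
    (Eventually.of_forall h0)).1 (by rw [h]; simp), ?_⟩
  rw [integral_eq_lintegral_of_nonneg_ae (Eventually.of_forall h0) hGm.aestronglyMeasurable, h,
    ENNReal.toReal_one]

lemma klInt_eq (i : Fin n) (a : Fin n → ℝ) :
    klInt (P.cnd i a (a i)) (Q.cnd i a (a i))
      = (P.lc i a - Q.lc i a) + (Q.cnd i a (a i) / P.cnd i a (a i) - 1) := by
  rw [klInt, Real.log_div (P.cnd_pos _ _ _).ne' (Q.cnd_pos _ _ _).ne', log_cnd_self, log_cnd_self]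
  ring

lemma integrable_klStep (i : Fin n) :
    Integrable (fun a => klInt (P.cnd i a (a i)) (Q.cnd i a (a i))) P.meas := by
  simp only [klInt_eq]
  exact ((integrable_lc P P i).sub (integrable_lc Q P i)).add
    ((integrable_ratio Q P i).1.sub (integrable_const 1))

lemma klStep_nonneg (i : Fin n) : 0 ≤ klStep Q P i :=
  integral_nonneg fun _ => klInt_nonneg (P.cnd_pos _ _ _) (Q.cnd_pos _ _ _)

lemma sum_klStep :
    ∑ i, klStep Q P i = ∫ a, (Real.log (P.p a) - Real.log (Q.p a)) ∂P.meas := by
  have : ∀ i, klStep Q P i = ∫ a, (P.lc i a - Q.lc i a) ∂P.meas := by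
    intro i
    have i1 : Integrable (fun a => P.lc i a - Q.lc i a) P.meas :=
      (integrable_lc P P i).sub (integrable_lc Q P i)
    have i2 : Integrable (fun a => Q.cnd i a (a i) / P.cnd i a (a i) - 1) P.meas :=
      (integrable_ratio Q P i).1.sub (integrable_const 1)
    unfold klStep
    simp only [klInt_eq]
    rw [integral_add i1 i2, integral_sub (integrable_ratio Q P i).1 (integrable_const 1),
      (integrable_ratio Q P i).2]
    simp
  rw [Finset.sum_congr rfl fun i _ => this i,
    ← integral_finsetSum _ (f := fun i a => P.lc i a - Q.lc i a)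
      fun i _ => (integrable_lc P P i).sub (integrable_lc Q P i)]
  simp only [Finset.sum_sub_distrib, sum_lc]

lemma integrable_excess {R : ℝ} (hR : 0 ≤ R) (i : Fin n) :
    Integrable (fun b => excess R (b i)) Q.meas :=
  Q.integrable_meas_of_le (((continuous_excess R).comp (continuous_apply i)).measurable) (C := 1)
    fun x => by
      rw [abs_of_nonneg (excess_nonneg _ _)]
      nlinarith [excess_le_sq hR (x i), sq_le_sumSq x i, sumSq_nonneg x]

/-- The inner integral of `G` along coordinate `i`. -/
noncomputable def inner' (i : Fin n) (G : (Fin n → ℝ) → ℝ) (b : Fin n → ℝ) : ℝ :=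
  ∫ t, Q.cnd i b t * G (update b i t)

/-- Integrand of the relative entropy term, read on the source side. -/
noncomputable def klSrc (i : Fin n) (b : Fin n → ℝ) : ℝ :=
  klInt (P.cnd i (kn Q P b) (kn Q P b i)) (Q.cnd i (kn Q P b) (kn Q P b i))

lemma integral_combine {α : Type*} [MeasurableSpace α] {μ : Measure α} {w d k e f : α → ℝ}
    (u v : ℝ) (hw : Integrable w μ) (hd : Integrable d μ) (hk : Integrable k μ) (he : Integrable e μ)
    (hf : Integrable f μ) (h : ∀ᵐ x ∂μ, w x ≤ u * (d x + k x) + v * (e x + f x)) :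
    ∫ x, w x ∂μ ≤ u * ((∫ x, d x ∂μ) + ∫ x, k x ∂μ) + v * ((∫ x, e x ∂μ) + ∫ x, f x ∂μ) := by
  have i1 : Integrable (fun x => u * (d x + k x)) μ := (hd.add hk).const_mul u
  have i2 : Integrable (fun x => v * (e x + f x)) μ := (he.add hf).const_mul v
  rw [← integral_add hd hk, ← integral_add he hf, ← integral_const_mul, ← integral_const_mul,
    ← integral_add i1 i2]
  exact integral_mono_ae hw (i1.add i2) h

lemma disp_inner {R : ℝ} (hR : 0 < R) {i : Fin n} (hi : Q.EvenUnimodal i) (b : Fin n → ℝ)
    (hD : Integrable fun t => Q.cnd i b t * dissip (slope Q P i (update b i t)))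
    (hK : Integrable fun t => Q.cnd i b t * klSrc Q P i (update b i t))
    (hB : Integrable fun t => Q.cnd i b t * excess R (update b i t i))
    (hA : Integrable fun t => Q.cnd i b t * excess R (kn Q P (update b i t) i)) :
    inner' Q i (fun b => (kn Q P b i - b i) ^ 2) b ≤
      5000 * R ^ 2 * (inner' Q i (fun b => dissip (slope Q P i b)) b + inner' Q i (klSrc Q P i) b)
      + 5000 * (inner' Q i (fun b => excess R (b i)) b
        + inner' Q i (fun b => excess R (kn Q P b i)) b) := by
  set M := line Q P i b with hMdef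
  set a := Q.cnd i (kn Q P b)
  have eθt : ∀ t, kn Q P (update b i t) i = M.σ t := fun t => by
    rw [kn_update_self]; rfl
  have eKt : ∀ t, klSrc Q P i (update b i t) = klInt (M.d (M.σ t)) (a (M.σ t)) := by
    intro t
    have hb : ∀ {α : Type} {f : (Fin n → ℝ) → α}, DepBelow (i:ℕ) f →
        f (kn Q P (update b i t)) = f (kn Q P b) :=
      fun hf => hf _ _ fun j hj => kn_update_below Q P i b t hj
    rw [klSrc, kn_update_self, hb (P.cnd_dep i), hb (Q.cnd_dep i)]; rfl
  have eDt : ∀ t, dissip (slope Q P i (update b i t)) = dissip (M.σ' t) := fun t => by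
    rw [slope_update]
  have eAt : ∀ t, excess R (kn Q P (update b i t) i) = excess R (M.σ t) := fun t => by
    rw [kn_update_self]; rfl
  simp only [eKt] at hK
  simp only [eDt] at hD
  simp only [update_self] at hB
  simp only [eAt] at hA
  simp only [inner', eKt, eDt, update_self, eθt]
  exact (M.disp_sq_le hR (Q.cnd_pos i _) (Q.integrable_cnd i _) (Q.integral_cnd i _)
    (Q.cnd_even hi _) (Q.cnd_even hi b)
    (fun s hs t ht hst => Q.cnd_antitone_abs hi b
      (by rwa [abs_of_nonneg (mem_Ici.1 hs), abs_of_nonneg (mem_Ici.1 ht)]))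
    hK hD hB hA).2

lemma measurable_excess_coord (R : ℝ) (i : Fin n) :
    Measurable fun a : Fin n → ℝ => excess R (a i) :=
  ((continuous_excess R).comp (continuous_apply i)).measurable

lemma measurable_klInt_cnd (i : Fin n) :
    Measurable fun a => klInt (P.cnd i a (a i)) (Q.cnd i a (a i)) := by
  simp only [klInt_eq]
  exact ((P.measurable_lc i).sub (Q.measurable_lc i)).add
    (((Q.measurable_cnd_self i).div (P.measurable_cnd_self i)).sub measurable_const)

lemma disint_sq (i : Fin n) :
    Integrable (inner' Q i fun b => (kn Q P b i - b i) ^ 2) Q.meas ∧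
      ∫ b, inner' Q i (fun b => (kn Q P b i - b i) ^ 2) b ∂Q.meas
        = ∫ b, (kn Q P b i - b i) ^ 2 ∂Q.meas := by
  have hth : Measurable fun b => (kn Q P b i - b i) ^ 2 :=
    ((measurable_kn_apply Q P i).sub (measurable_pi_apply i)).pow_const 2
  have iθ : Integrable (fun b => (kn Q P b i - b i) ^ 2) Q.meas := by
    refine (((integrable_kn_sq Q P i).add (Q.integrable_coord_sq i)).const_mul 2).mono'
      hth.aestronglyMeasurable (Eventually.of_forall fun b => ?_)
    show |_| ≤ 2 * (kn Q P b i ^ 2 + b i ^ 2)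
    rw [abs_of_nonneg (sq_nonneg _)]
    nlinarith [sq_nonneg (kn Q P b i + b i)]
  exact (Q.integral_disint i (G := fun b => (kn Q P b i - b i) ^ 2) hth
    (fun x y h => by
      show (kn Q P x i - x i) ^ 2 = (kn Q P y i - y i) ^ 2
      rw [h i (Nat.lt_succ_self _), show kn Q P x i = kn Q P y i from kn_dep Q P i x y h])
    (fun _ => sq_nonneg _) iθ).2

lemma disint_dissip (i : Fin n) :
    (∀ᵐ b ∂Q.meas, Integrable fun t => Q.cnd i b t * dissip (slope Q P i (update b i t))) ∧
    Integrable (inner' Q i fun b => dissip (slope Q P i b)) Q.meas ∧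
      ∫ b, inner' Q i (fun b => dissip (slope Q P i b)) b ∂Q.meas
        = ∫ b, dissip (slope Q P i b) ∂Q.meas := by
  have hsdep : DepBelow ((i : ℕ) + 1) fun b => dissip (slope Q P i b) := fun x y h => by
    show dissip (slope Q P i x) = dissip (slope Q P i y)
    rw [slope, slope, show Q.cnd i x (x i) = Q.cnd i y (y i) from Q.cnd_self_dep i x y h,
      show P.cnd i (kn Q P x) (kn Q P x i) = P.cnd i (kn Q P y) (kn Q P y i) from
        kn_dep_below Q P _ (P.cnd_self_dep i) x y h]
  exact Q.integral_disint i (G := fun b => dissip (slope Q P i b))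
    (((measurable_slope Q P i).sub measurable_const).sub (measurable_slope Q P i).log) hsdep
    (fun b => dissip_nonneg (slope_pos Q P i b)) (integrable_dissip Q P i)

lemma disint_klSrc (i : Fin n) :
    (∀ᵐ b ∂Q.meas, Integrable fun t => Q.cnd i b t * klSrc Q P i (update b i t)) ∧
    Integrable (inner' Q i (klSrc Q P i)) Q.meas ∧
      ∫ b, inner' Q i (klSrc Q P i) b ∂Q.meas = klStep Q P i := by
  set g : (Fin n → ℝ) → ℝ := fun a => klInt (P.cnd i a (a i)) (Q.cnd i a (a i)) with hg
  have e : klSrc Q P i = fun b => g (kn Q P b) := rfl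
  have hdep : DepBelow ((i : ℕ) + 1) g := fun x y h => by
    simp only [hg]
    rw [show P.cnd i x (x i) = P.cnd i y (y i) from P.cnd_self_dep i x y h,
      show Q.cnd i x (x i) = Q.cnd i y (y i) from Q.cnd_self_dep i x y h]
  have hm : Measurable g := measurable_klInt_cnd Q P i
  have h0 : ∀ a, 0 ≤ g a := fun _ => klInt_nonneg (P.cnd_pos _ _ _) (Q.cnd_pos _ _ _)
  have hint : Integrable g P.meas := integrable_klStep Q P i
  have h := Q.integral_disint i (G := fun b => g (kn Q P b)) (hm.comp (measurable_kn Q P))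
    (kn_dep_below Q P _ hdep) (fun _ => h0 _) (integrable_kn Q P hm hint)
  rw [e]
  refine ⟨h.1, h.2.1, ?_⟩
  rw [klStep, ← hg, ← integral_kn Q P hm]
  exact h.2.2

lemma disint_excess {R : ℝ} (hR : 0 ≤ R) (i : Fin n) :
    (∀ᵐ b ∂Q.meas, Integrable fun t => Q.cnd i b t * excess R (update b i t i)) ∧
    Integrable (inner' Q i fun b => excess R (b i)) Q.meas ∧
      ∫ b, inner' Q i (fun b => excess R (b i)) b ∂Q.meas = ∫ b, excess R (b i) ∂Q.meas :=
  Q.integral_disint i (G := fun b => excess R (b i)) (measurable_excess_coord R i)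
    (fun x y h => by show excess R (x i) = excess R (y i); rw [h i (Nat.lt_succ_self _)])
    (fun _ => excess_nonneg _ _) (Q.integrable_excess hR i)

lemma disint_excess_kn {R : ℝ} (hR : 0 ≤ R) (i : Fin n) :
    (∀ᵐ b ∂Q.meas, Integrable fun t => Q.cnd i b t * excess R (kn Q P (update b i t) i)) ∧
    Integrable (inner' Q i fun b => excess R (kn Q P b i)) Q.meas ∧
      ∫ b, inner' Q i (fun b => excess R (kn Q P b i)) b ∂Q.meas = ∫ a, excess R (a i) ∂P.meas := by
  have h := Q.integral_disint i (G := fun b => excess R (kn Q P b i))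
    ((continuous_excess R).measurable.comp (measurable_kn_apply Q P i))
    (fun x y h => by
      show excess R (kn Q P x i) = excess R (kn Q P y i)
      rw [show kn Q P x i = kn Q P y i from kn_dep Q P i x y h])
    (fun _ => excess_nonneg _ _)
    (integrable_kn Q P (g := fun a => excess R (a i)) (measurable_excess_coord R i)
      (P.integrable_excess hR i))
  refine ⟨h.1, h.2.1, ?_⟩
  rw [← integral_kn Q P (g := fun a => excess R (a i)) (measurable_excess_coord R i)]
  exact h.2.2

lemma displacement_le {R : ℝ} (hR : 0 < R) {i : Fin n} (hi : Q.EvenUnimodal i) :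
    ∫ b, (kn Q P b i - b i) ^ 2 ∂Q.meas ≤
      5000 * R ^ 2 * ((∫ b, dissip (slope Q P i b) ∂Q.meas) + klStep Q P i)
      + 5000 * ((∫ b, excess R (b i) ∂Q.meas) + ∫ a, excess R (a i) ∂P.meas) := by
  obtain ⟨jθ, eθ⟩ := disint_sq Q P i
  obtain ⟨aD, jD, eD⟩ := disint_dissip Q P i
  obtain ⟨aK, jK, eK⟩ := disint_klSrc Q P i
  obtain ⟨aB, jB, eB⟩ := Q.disint_excess hR.le i
  obtain ⟨aA, jA, eA⟩ := disint_excess_kn Q P hR.le i
  rw [← eθ, ← eD, ← eK, ← eB, ← eA]
  refine integral_combine (5000 * R ^ 2) 5000 jθ jD jK jB jA ?_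
  filter_upwards [aD, aK, aB, aA] with b hD hK hB hA
  exact disp_inner Q P hR hi b hD hK hB hA

end Dens

end Vale.Agent.P245
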