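import Mathlib
import Vale.Agent.P245.Transport

/-!
The entropy inequality for smooth convex potentials.
-/

namespace Vale.Agent.P245

open MeasureTheory Set Filter Topology Function Finset
open scoped ENNReal

/-- A convex potential with quadratic bounds and partial derivatives. -/
structure Pot (n : ℕ) where
  V : (Fin n → ℝ) → ℝ
  G : Fin n → (Fin n → ℝ) → ℝ
  contV : Continuous V
  lower : ∃ c e : ℝ, 0 < e ∧ ∀ x, e * sumSq x - c ≤ V x
  upper : ∃ c : ℝ, ∀ x, V x ≤ c * (1 + sumSq x)
  Gmeas : ∀ i, Measurable (G i)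
  Gbound : ∃ C : ℝ, ∀ i x, |G i x| ≤ C * (1 + sumSq x)
  deriv : ∀ i x, HasDerivAt (fun t => V (update x i t)) (G i x) (x i)
  tangent : ∀ a b, V a - V b ≤ ∑ i, G i a * (a i - b i)
  one : ∫ x, Real.exp (-V x) = 1

/-- A bounded function with bounded partial derivatives. -/
structure Test (n : ℕ) where
  g : (Fin n → ℝ) → ℝ
  Dg : Fin n → (Fin n → ℝ) → ℝ
  cont : Continuous g
  meas : ∀ i, Measurable (Dg i)
  deriv : ∀ i x, HasDerivAt (fun t => g (update x i t)) (Dg i x) (x i)
  bdd : ∃ B : ℝ, ∀ x, |g x| ≤ B ∧ ∀ i, |Dg i x| ≤ B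

namespace Pot

variable {n : ℕ} (U : Pot n)

/-- The density `exp (-V)`. -/
noncomputable def dens : Dens n where
  p x := Real.exp (-U.V x)
  D i x := Real.exp (-U.V x) * -U.G i x
  cont := by have := U.contV; fun_prop
  lower := by
    obtain ⟨c, hc⟩ := U.upper
    refine ⟨Real.exp (-|c|), |c| + 1, Real.exp_pos _, by positivity, fun x => ?_⟩
    rw [← Real.exp_add]
    apply Real.exp_le_exp.2
    nlinarith [hc x, le_abs_self c, sumSq_nonneg x]
  upper := by
    obtain ⟨c, e, he, h⟩ := U.lower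
    refine ⟨Real.exp c, e, he, fun x => ?_⟩
    rw [← Real.exp_add]
    exact Real.exp_le_exp.2 (by linarith [h x])
  deriv i x := by
    have := (U.deriv i x).neg.exp
    simpa [update_eq_self] using this
  Dmeas i := (U.contV.measurable.neg.exp).mul (U.Gmeas i).neg
  Dbound := by
    obtain ⟨C, hC⟩ := U.Gbound
    refine ⟨C, fun i x => ?_⟩
    rw [abs_mul, abs_neg, abs_of_pos (Real.exp_pos _), mul_comm]
    exact mul_le_mul_of_nonneg_right (hC i x) (Real.exp_pos _).le
  one := U.one

@[simp] lemma dens_p (x : Fin n → ℝ) : U.dens.p x = Real.exp (-U.V x) := rfl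

lemma dens_ratio (i : Fin n) (x : Fin n → ℝ) : U.dens.D i x / U.dens.p x = -U.G i x := by
  show Real.exp (-U.V x) * -U.G i x / Real.exp (-U.V x) = _
  field_simp

lemma integrable_bdd {f : (Fin n → ℝ) → ℝ} (hf : Measurable f) {B : ℝ} (hB : ∀ x, |f x| ≤ B) :
    Integrable f U.dens.meas :=
  (integrable_const B).mono' hf.aestronglyMeasurable (Eventually.of_forall hB)

end Pot

namespace Test

variable {n : ℕ} (T : Test n) (U : Pot n)

/-- `∫ g ^ 2` for the measure with potential `V`. -/
noncomputable def mass : ℝ := ∫ x, T.g x ^ 2 ∂U.dens.meas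

lemma mass_nonneg : 0 ≤ T.mass U := integral_nonneg fun _ => sq_nonneg _

lemma integrable_sq : Integrable (fun x => T.g x ^ 2) U.dens.meas := by
  obtain ⟨B, hB⟩ := T.bdd
  refine U.integrable_bdd (T.cont.measurable.pow_const 2) (B := B ^ 2) fun x => ?_
  rw [abs_pow]; exact pow_le_pow_left₀ (abs_nonneg _) (hB x).1 2

/-- The energy `∑ i, ∫ (∂ᵢ g) ^ 2`. -/
noncomputable def energy : ℝ := ∫ x, ∑ i, T.Dg i x ^ 2 ∂U.dens.meas

lemma energy_nonneg : 0 ≤ T.energy U :=
  integral_nonneg fun _ => Finset.sum_nonneg fun _ _ => sq_nonneg _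

/-- The regularised density ratio. -/
noncomputable def ratio (δ : ℝ) (x : Fin n → ℝ) : ℝ := (T.g x ^ 2 + δ) / (T.mass U + δ)

lemma ratio_pos {δ : ℝ} (hδ : 0 < δ) (x : Fin n → ℝ) : 0 < T.ratio U δ x :=
  div_pos (by positivity) (by linarith [T.mass_nonneg U])

/-- The regularised density. -/
noncomputable def tilt {δ : ℝ} (hδ : 0 < δ) : Dens n where
  p x := T.ratio U δ x * U.dens.p x
  D i x := 2 * T.g x * T.Dg i x / (T.mass U + δ) * U.dens.p x + T.ratio U δ x * U.dens.D i x
  cont := by
    have := T.cont; have := U.dens.cont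
    unfold ratio; fun_prop
  lower := by
    obtain ⟨c, A, hc, hA, h⟩ := U.dens.lower
    have hm : 0 < T.mass U + δ := by linarith [T.mass_nonneg U]
    refine ⟨δ / (T.mass U + δ) * c, A, by positivity, hA, fun x => ?_⟩
    rw [mul_assoc]
    refine mul_le_mul ?_ (h x) (by positivity) (T.ratio_pos U hδ x).le
    exact div_le_div_of_nonneg_right (by nlinarith) hm.le
  upper := by
    obtain ⟨C, e, he, h⟩ := U.dens.upper
    obtain ⟨B, hB⟩ := T.bdd
    have hm : 0 < T.mass U + δ := by linarith [T.mass_nonneg U]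
    refine ⟨(B ^ 2 + δ) / (T.mass U + δ) * C, e, he, fun x => ?_⟩
    rw [mul_assoc]
    refine mul_le_mul ?_ (h x) (U.dens.pos x).le (by positivity)
    refine div_le_div_of_nonneg_right ?_ hm.le
    nlinarith [(hB x).1, abs_nonneg (T.g x), sq_abs (T.g x)]
  deriv i x := by
    have h1 := (((T.deriv i x).fun_pow 2).add_const δ).div_const (T.mass U + δ)
    have h2 := h1.fun_mul (U.dens.deriv i x)
    simp only [update_eq_self] at h2
    refine h2.congr_deriv ?_
    simp [ratio]
  Dmeas i := by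
    have h1 : Measurable T.g := T.cont.measurable
    have h2 := T.meas i
    have h3 : Measurable U.dens.p := U.dens.cont.measurable
    have h4 := U.dens.Dmeas i
    unfold ratio; fun_prop
  Dbound := by
    obtain ⟨C, hC⟩ := U.dens.Dbound
    obtain ⟨B, hB⟩ := T.bdd
    have hm : 0 < T.mass U + δ := by linarith [T.mass_nonneg U]
    refine ⟨2 * B ^ 2 / δ + |C|, fun i x => ?_⟩
    obtain ⟨hg, hDg⟩ := hB x
    have hp := U.dens.pos x
    have hr := T.ratio_pos U hδ x
    have hB0 : 0 ≤ B := (abs_nonneg _).trans hg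
    have h1 : |2 * T.g x * T.Dg i x / (T.mass U + δ)| ≤ 2 * B ^ 2 / δ * T.ratio U δ x := by
      have e : δ / (T.mass U + δ) ≤ T.ratio U δ x :=
        div_le_div_of_nonneg_right (by nlinarith) hm.le
      refine le_trans ?_ (mul_le_mul_of_nonneg_left e (by positivity))
      rw [abs_div, abs_of_pos hm, show 2 * B ^ 2 / δ * (δ / (T.mass U + δ))
        = 2 * B ^ 2 / (T.mass U + δ) by field_simp]
      refine div_le_div_of_nonneg_right ?_ hm.le
      rw [abs_mul, abs_mul, abs_two, mul_assoc, sq]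
      exact mul_le_mul_of_nonneg_left (mul_le_mul hg (hDg i) (abs_nonneg _) hB0) (by norm_num)
    have h2 : |U.dens.D i x| ≤ |C| * (1 + sumSq x) * U.dens.p x := (hC i x).trans (by
      have := sumSq_nonneg x
      gcongr; exact le_abs_self C)
    calc _ ≤ |2 * T.g x * T.Dg i x / (T.mass U + δ) * U.dens.p x| + |T.ratio U δ x * U.dens.D i x| :=
          abs_add_le _ _
      _ ≤ 2 * B ^ 2 / δ * T.ratio U δ x * U.dens.p x
          + T.ratio U δ x * (|C| * (1 + sumSq x) * U.dens.p x) := by
          rw [abs_mul, abs_mul (T.ratio U δ x), abs_of_pos hp, abs_of_pos hr]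
          gcongr
      _ ≤ _ := by
          have : 0 ≤ 2 * B ^ 2 / δ * sumSq x * (T.ratio U δ x * U.dens.p x) := by
            have := sumSq_nonneg x; positivity
          nlinarith
  one := by
    have hm : 0 < T.mass U + δ := by linarith [T.mass_nonneg U]
    have h : ∫ x, T.ratio U δ x ∂U.dens.meas = 1 := by
      simp only [ratio]
      rw [integral_div, integral_add (T.integrable_sq U) (integrable_const δ)]
      simp only [integral_const, probReal_univ, one_smul]
      exact div_self hm.ne'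
    rw [Dens.integral_meas] at h
    simpa [mul_comm] using h

lemma log_tilt {δ : ℝ} (hδ : 0 < δ) (x : Fin n → ℝ) :
    Real.log ((T.tilt U hδ).p x) = Real.log (T.ratio U δ x) - U.V x := by
  show Real.log (T.ratio U δ x * Real.exp (-U.V x)) = _
  rw [Real.log_mul (T.ratio_pos U hδ x).ne' (Real.exp_pos _).ne', Real.log_exp]; ring

/-- Logarithmic derivative of the ratio. -/
noncomputable def score (δ : ℝ) (i : Fin n) (x : Fin n → ℝ) : ℝ :=
  2 * T.g x * T.Dg i x / (T.g x ^ 2 + δ)

lemma tilt_ratio {δ : ℝ} (hδ : 0 < δ) (i : Fin n) (x : Fin n → ℝ) :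
    (T.tilt U hδ).D i x / (T.tilt U hδ).p x = T.score δ i x - U.G i x := by
  have hm : 0 < T.mass U + δ := by linarith [T.mass_nonneg U]
  have hp := U.dens.pos x
  show (2 * T.g x * T.Dg i x / (T.mass U + δ) * U.dens.p x + T.ratio U δ x * U.dens.D i x)
    / (T.ratio U δ x * U.dens.p x) = _
  rw [show U.G i x = -(U.dens.D i x / U.dens.p x) by rw [U.dens_ratio]; ring]
  have hg : 0 < T.g x ^ 2 + δ := by positivity
  simp only [score, ratio]
  field_simp
  ring

end Test

/-- The weight used for the moment hypothesis. -/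
noncomputable def weightF {n : ℕ} (S : Finset (Fin n)) (R : ℝ) (x : Fin n → ℝ) : ℝ :=
  (∑ i ∈ S, excess R (x i)) + ∑ i ∈ Sᶜ, x i ^ 2

lemma weightF_nonneg {n : ℕ} (S : Finset (Fin n)) (R : ℝ) (x : Fin n → ℝ) : 0 ≤ weightF S R x :=
  add_nonneg (Finset.sum_nonneg fun _ _ => excess_nonneg _ _)
    (Finset.sum_nonneg fun _ _ => sq_nonneg _)

@[fun_prop]
lemma continuous_weightF {n : ℕ} (S : Finset (Fin n)) (R : ℝ) : Continuous (weightF S R) := by
  unfold weightF; fun_prop

lemma weightF_le {n : ℕ} (S : Finset (Fin n)) {R : ℝ} (hR : 0 ≤ R) (x : Fin n → ℝ) :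
    weightF S R x ≤ sumSq x := by
  unfold weightF sumSq
  rw [← Finset.sum_add_sum_compl S fun i => x i ^ 2]
  gcongr with i _
  exact excess_le_sq hR _

lemma integrable_weightF {n : ℕ} (P : Dens n) (S : Finset (Fin n)) {R : ℝ} (hR : 0 ≤ R) :
    Integrable (weightF S R) P.meas :=
  P.integrable_meas_of_le (continuous_weightF S R).measurable (C := 1) fun x => by
    rw [abs_of_nonneg (weightF_nonneg S R x)]
    nlinarith [weightF_le S hR x, sumSq_nonneg x]

/-- Gibbs variational inequality. -/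
lemma gibbs {n : ℕ} (Q P : Dens n) (F : (Fin n → ℝ) → ℝ) (M : ℝ)
    (hF : Integrable F P.meas) (hexp : Integrable (fun x => Real.exp (F x)) Q.meas)
    (hle : ∫ x, Real.exp (F x) ∂Q.meas ≤ Real.exp M)
    (hlog : Integrable (fun x => Real.log (P.p x) - Real.log (Q.p x)) P.meas) :
    ∫ x, F x ∂P.meas ≤ (∫ x, (Real.log (P.p x) - Real.log (Q.p x)) ∂P.meas) + M := by
  have i1 : Integrable (fun x => P.p x * (F x - (Real.log (P.p x) - Real.log (Q.p x)) - M)) :=
    (P.integrable_meas_iff _).1 ((hF.sub hlog).sub (integrable_const M))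
  have i2 : Integrable (fun x => Real.exp (-M) * (Q.p x * Real.exp (F x))) :=
    ((Q.integrable_meas_iff _).1 hexp).const_mul _
  have h : ∫ x, P.p x * (F x - (Real.log (P.p x) - Real.log (Q.p x)) - M)
      ≤ ∫ x, (Real.exp (-M) * (Q.p x * Real.exp (F x)) - P.p x) := by
    refine integral_mono i1 (i2.sub P.integrable) fun x => ?_
    have hp := P.pos x
    have hq := Q.pos x
    have hl := Real.log_le_sub_one_of_pos
      (show 0 < Real.exp (-M) * Q.p x * Real.exp (F x) / P.p x by positivity)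
    rw [Real.log_div (by positivity) hp.ne', Real.log_mul (by positivity) (Real.exp_pos _).ne',
      Real.log_mul (Real.exp_pos _).ne' hq.ne', Real.log_exp, Real.log_exp] at hl
    have := mul_le_mul_of_nonneg_left hl hp.le
    have e : P.p x * (Real.exp (-M) * Q.p x * Real.exp (F x) / P.p x - 1)
        = Real.exp (-M) * (Q.p x * Real.exp (F x)) - P.p x := by field_simp
    rw [e] at this
    linarith
  rw [← P.integral_meas, integral_sub (hF.sub' hlog) (integrable_const M),
    integral_sub hF hlog, integral_sub i2 P.integrable, integral_const_mul, ← Q.integral_meas,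
    P.one, integral_const] at h
  simp only [probReal_univ, one_smul] at h
  have : Real.exp (-M) * ∫ x, Real.exp (F x) ∂Q.meas ≤ 1 := by
    refine (mul_le_mul_of_nonneg_left hle (Real.exp_pos _).le).trans ?_
    rw [← Real.exp_add, neg_add_cancel, Real.exp_zero]
  linarith

variable {n : ℕ}

lemma moment_bound (U : Pot n) (P : Dens n) (S : Finset (Fin n)) {R lam M : ℝ} (hR : 0 ≤ R)
    (hlam : 0 < lam) (hexp : Integrable (fun x => Real.exp (lam * weightF S R x)) U.dens.meas)
    (hle : ∫ x, Real.exp (lam * weightF S R x) ∂U.dens.meas ≤ Real.exp M) :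
    ∫ x, weightF S R x ∂P.meas
      ≤ ((∑ i, Dens.klStep U.dens P i) + M) / lam := by
  rw [le_div_iff₀ hlam, Dens.sum_klStep, mul_comm, ← integral_const_mul]
  have hint : Integrable (fun x => Real.log (P.p x) - Real.log (U.dens.p x)) P.meas := by
    have : Integrable (fun x => ∑ i, (P.lc i x - U.dens.lc i x)) P.meas :=
      integrable_finsetSum _ fun i _ => (P.integrable_lc P i).sub (U.dens.integrable_lc P i)
    simpa [Finset.sum_sub_distrib, Dens.sum_lc] using this
  exact gibbs U.dens P _ M ((integrable_weightF P S hR).const_mul lam) hexp hle hint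

lemma displacement_total (U : Pot n) (P : Dens n) (S : Finset (Fin n)) {R : ℝ} (hR : 0 < R)
    (hS : ∀ i ∈ S, U.dens.EvenUnimodal i) :
    ∫ b, ∑ i, (Dens.kn U.dens P b i - b i) ^ 2 ∂U.dens.meas ≤
      5000 * R ^ 2 * ((∑ i, ∫ b, dissip (Dens.slope U.dens P i b) ∂U.dens.meas)
        + ∑ i, Dens.klStep U.dens P i)
      + 5000 * ((∫ b, weightF S R b ∂U.dens.meas) + ∫ a, weightF S R a ∂P.meas) := by
  set Q := U.dens
  set D := fun i => ∫ b, dissip (Dens.slope Q P i b) ∂Q.meas with hD
  set K := fun i => Dens.klStep Q P i with hK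
  have hθ : ∀ i, Integrable (fun b => (Dens.kn Q P b i - b i) ^ 2) Q.meas := fun i => by
    refine (((Dens.integrable_kn_sq Q P i).add (Q.integrable_coord_sq i)).const_mul 2).mono'
      (((Dens.measurable_kn_apply Q P i).sub (measurable_pi_apply i)).pow_const 2).aestronglyMeasurable
      (Eventually.of_forall fun b => ?_)
    show |_| ≤ 2 * (Dens.kn Q P b i ^ 2 + b i ^ 2)
    rw [abs_of_nonneg (sq_nonneg _)]
    nlinarith [sq_nonneg (Dens.kn Q P b i + b i)]
  have hp : ∀ i, ∫ b, (Dens.kn Q P b i - b i) ^ 2 ∂Q.meas ≤ 5000 * R ^ 2 * (D i + K i)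
      + 5000 * ((∫ b, (if i ∈ S then excess R (b i) else b i ^ 2) ∂Q.meas)
        + ∫ a, (if i ∈ S then excess R (a i) else a i ^ 2) ∂P.meas) := by
    intro i
    by_cases hi : i ∈ S
    · simp only [hi, ↓reduceIte]; exact Dens.displacement_le Q P hR (hS i hi)
    · simp only [hi, ↓reduceIte]
      have h0 : 0 ≤ 5000 * R ^ 2 * (D i + K i) :=
        mul_nonneg (by positivity) (add_nonneg
          (integral_nonneg fun b => dissip_nonneg (Dens.slope_pos Q P i b)) (Dens.klStep_nonneg Q P i))
      have e : ∫ a, a i ^ 2 ∂P.meas = ∫ b, Dens.kn Q P b i ^ 2 ∂Q.meas :=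
        (Dens.integral_kn Q P (g := fun a => a i ^ 2) (by fun_prop)).symm
      have h1 : ∫ b, (Dens.kn Q P b i - b i) ^ 2 ∂Q.meas
          ≤ ∫ b, (2 * b i ^ 2 + 2 * Dens.kn Q P b i ^ 2) ∂Q.meas :=
        integral_mono (hθ i) (((Q.integrable_coord_sq i).const_mul 2).add
          ((Dens.integrable_kn_sq Q P i).const_mul 2))
          fun b => by nlinarith [sq_nonneg (Dens.kn Q P b i + b i)]
      rw [integral_add ((Q.integrable_coord_sq i).const_mul 2)
        ((Dens.integrable_kn_sq Q P i).const_mul 2), integral_const_mul, integral_const_mul] at h1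
      have n1 : 0 ≤ ∫ b, b i ^ 2 ∂Q.meas := integral_nonneg fun _ => sq_nonneg _
      have n2 : 0 ≤ ∫ b, Dens.kn Q P b i ^ 2 ∂Q.meas := integral_nonneg fun _ => sq_nonneg _
      rw [e]; linarith
  have hw : ∀ (P' : Dens n), ∑ i, ∫ a, (if i ∈ S then excess R (a i) else a i ^ 2) ∂P'.meas
      = ∫ a, weightF S R a ∂P'.meas := by
    intro P'
    rw [← integral_finsetSum]
    · congr 1; funext a
      unfold weightF
      rw [Finset.sum_ite, Finset.filter_mem_eq_inter, Finset.univ_inter]
      congr 1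
      refine Finset.sum_congr ?_ fun _ _ => rfl
      ext j; simp
    · intro i _
      by_cases hi : i ∈ S <;> simp only [hi, ↓reduceIte]
      · exact P'.integrable_excess hR.le i
      · exact P'.integrable_coord_sq i
  rw [integral_finsetSum _ fun i _ => hθ i]
  refine (Finset.sum_le_sum fun i _ => hp i).trans (le_of_eq ?_)
  rw [Finset.sum_add_distrib, ← Finset.mul_sum, ← Finset.mul_sum, Finset.sum_add_distrib,
    Finset.sum_add_distrib, hw, hw]

lemma integrable_mul_of_sq {μ : Measure (Fin n → ℝ)} [IsFiniteMeasure μ] {f g : (Fin n → ℝ) → ℝ}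
    (hf : Measurable f) (hg : Measurable g) (hf2 : Integrable (fun x => f x ^ 2) μ)
    (hg2 : Integrable (fun x => g x ^ 2) μ) : Integrable (fun x => f x * g x) μ :=
  (hf2.add hg2).mono' (hf.mul hg).aestronglyMeasurable (Eventually.of_forall fun x => by
    show |f x * g x| ≤ f x ^ 2 + g x ^ 2
    rw [abs_mul]; nlinarith [sq_nonneg (|f x| - |g x|), sq_abs (f x), sq_abs (g x), sq_nonneg (f x)])

lemma integrable_theta_sq (Q P : Dens n) (i : Fin n) :
    Integrable (fun b => (Dens.kn Q P b i - b i) ^ 2) Q.meas := by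
  refine (((Dens.integrable_kn_sq Q P i).add (Q.integrable_coord_sq i)).const_mul 2).mono'
    (((Dens.measurable_kn_apply Q P i).sub (measurable_pi_apply i)).pow_const 2).aestronglyMeasurable
    (Eventually.of_forall fun b => ?_)
  show |_| ≤ 2 * (Dens.kn Q P b i ^ 2 + b i ^ 2)
  rw [abs_of_nonneg (sq_nonneg _)]
  nlinarith [sq_nonneg (Dens.kn Q P b i + b i)]

lemma integrable_kn_mul (Q P : Dens n) (i : Fin n) {f : (Fin n → ℝ) → ℝ} (hf : Measurable f)
    (hf2 : Integrable (fun x => f x ^ 2) P.meas) :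
    Integrable (fun b => f (Dens.kn Q P b) * (Dens.kn Q P b i - b i)) Q.meas :=
  integrable_mul_of_sq (hf.comp (Dens.measurable_kn Q P))
    ((Dens.measurable_kn_apply Q P i).sub (measurable_pi_apply i))
    (Dens.integrable_kn Q P (g := fun a => f a ^ 2) (hf.pow_const 2) hf2)
    (integrable_theta_sq Q P i)

namespace Pot

variable (U : Pot n)

lemma integrable_G_sq (P : Dens n) (i : Fin n) : Integrable (fun x => U.G i x ^ 2) P.meas := by
  obtain ⟨CG, hCG⟩ := U.Gbound
  exact P.integrable_meas_of_le ((U.Gmeas i).pow_const 2) (C := CG ^ 2) fun x => by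
    rw [abs_pow, ← mul_pow]
    exact pow_le_pow_left₀ (abs_nonneg _) (hCG i x) 2

lemma integrable_V (P : Dens n) : Integrable U.V P.meas := by
  obtain ⟨cl, el, hel, hVl⟩ := U.lower
  obtain ⟨cu, hVu⟩ := U.upper
  exact P.integrable_meas_of_le U.contV.measurable (C := |cl| + |cu|) fun x => by
    have h0 := sumSq_nonneg x
    rw [abs_le]
    constructor <;> nlinarith [hVl x, hVu x, le_abs_self cl, le_abs_self cu, neg_abs_le cl,
      mul_nonneg hel.le h0, mul_nonneg (abs_nonneg cl) h0, mul_nonneg (abs_nonneg cu) h0,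
      abs_nonneg cl, abs_nonneg cu]

/-- Increase of the potential along the map to `P`. -/
noncomputable def gain (P : Dens n) : ℝ :=
  ∫ b, (U.V (Dens.kn U.dens P b) - U.V b) ∂U.dens.meas

lemma integrable_gain (P : Dens n) :
    Integrable (fun b => U.V (Dens.kn U.dens P b) - U.V b) U.dens.meas :=
  (Dens.integrable_kn U.dens P U.contV.measurable (U.integrable_V P)).sub' (U.integrable_V U.dens)

lemma sum_dissip_le (P : Dens n) :
    ∑ i, ∫ b, dissip (Dens.slope U.dens P i b) ∂U.dens.meas
      ≤ U.gain P + ∑ i, Dens.entStep U.dens P i := by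
  have iGb : ∀ i, Integrable (fun b => U.G i b * (Dens.kn U.dens P b i - b i)) U.dens.meas :=
    fun i => integrable_mul_of_sq (U.Gmeas i)
      ((Dens.measurable_kn_apply U.dens P i).sub (measurable_pi_apply i))
      (U.integrable_G_sq U.dens i) (integrable_theta_sq U.dens P i)
  have e : ∀ i, ∫ b, dissip (Dens.slope U.dens P i b) ∂U.dens.meas
      = (∫ b, U.G i b * (Dens.kn U.dens P b i - b i) ∂U.dens.meas) + Dens.entStep U.dens P i := by
    intro i
    rw [Dens.integral_dissip, Dens.integral_D_eq, ← integral_neg]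
    congr 2; funext b
    rw [U.dens_ratio]; simp only [neg_mul, neg_neg]
  rw [Finset.sum_congr rfl fun i _ => e i, Finset.sum_add_distrib,
    ← integral_finsetSum _ fun i _ => iGb i]
  gcongr
  refine integral_mono (integrable_finsetSum _ fun i _ => iGb i) (U.integrable_gain P) fun b => ?_
  have ht := U.tangent b (Dens.kn U.dens P b)
  have e2 : ∑ i, U.G i b * (b i - Dens.kn U.dens P b i)
      = -∑ i, U.G i b * (Dens.kn U.dens P b i - b i) := by
    rw [← Finset.sum_neg_distrib]; exact Finset.sum_congr rfl fun i _ => by ring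
  rw [e2] at ht
  linarith

end Pot

namespace Test

variable (T : Test n) (U : Pot n)

lemma measurable_score (δ : ℝ) (i : Fin n) : Measurable (T.score δ i) := by
  have := T.meas i; have := T.cont.measurable
  show Measurable fun x => 2 * T.g x * T.Dg i x / (T.g x ^ 2 + δ)
  fun_prop

lemma integrable_score_sq {δ : ℝ} (hδ : 0 < δ) (P : Dens n) (i : Fin n) :
    Integrable (fun x => T.score δ i x ^ 2) P.meas := by
  obtain ⟨B, hB⟩ := T.bdd
  refine (integrable_const ((2 * B ^ 2 / δ) ^ 2)).mono'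
    ((T.measurable_score δ i).pow_const 2).aestronglyMeasurable (Eventually.of_forall fun x => ?_)
  rw [Real.norm_eq_abs, abs_of_nonneg (sq_nonneg _), ← sq_abs]
  refine pow_le_pow_left₀ (abs_nonneg _) ?_ 2
  have hg : 0 < T.g x ^ 2 + δ := by positivity
  rw [score, abs_div, abs_of_pos hg]
  refine div_le_div₀ (by positivity) ?_ hδ (by nlinarith)
  rw [abs_mul, abs_mul, abs_two, mul_assoc, sq]
  exact mul_le_mul_of_nonneg_left
    (mul_le_mul (hB x).1 ((hB x).2 i) (abs_nonneg _) ((abs_nonneg _).trans (hB x).1)) (by norm_num)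

/-- Relative entropy of the tilted density. -/
noncomputable def relEnt (δ : ℝ) (hδ : 0 < δ) : ℝ :=
  ∫ a, Real.log (T.ratio U δ a) ∂(T.tilt U hδ).meas

lemma sum_klStep_tilt {δ : ℝ} (hδ : 0 < δ) :
    ∑ i, Dens.klStep U.dens (T.tilt U hδ) i = T.relEnt U δ hδ := by
  rw [Dens.sum_klStep, relEnt]
  congr 1; funext a
  rw [T.log_tilt U hδ, Pot.dens_p, Real.log_exp]
  ring

lemma sum_entStep_of_log {P : Dens n} {g : (Fin n → ℝ) → ℝ} (hg : Measurable g)
    (hlog : ∀ x, Real.log (P.p x) = g x - U.V x) :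
    ∑ i, Dens.entStep U.dens P i = (∫ a, g a ∂P.meas) - U.gain P := by
  have ilr : Integrable g P.meas := by
    have : Integrable (fun x => (∑ i, P.lc i x) + U.V x) P.meas :=
      (integrable_finsetSum _ fun i _ => P.integrable_lc P i).add (U.integrable_V P)
    simp only [Dens.sum_lc, hlog, sub_add_cancel] at this
    exact this
  have i1 : Integrable (fun b => g (Dens.kn U.dens P b)) U.dens.meas :=
    Dens.integrable_kn U.dens P hg ilr
  rw [Dens.sum_entStep, ← Dens.integral_kn U.dens P hg, Pot.gain,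
    ← integral_sub i1 (U.integrable_gain P)]
  refine integral_congr_ae (Eventually.of_forall fun b => ?_)
  show Real.log (P.p (Dens.kn U.dens P b)) - Real.log (Real.exp (-U.V b)) = _
  rw [hlog, Real.log_exp]
  ring

lemma sum_entStep_tilt {δ : ℝ} (hδ : 0 < δ) :
    ∑ i, Dens.entStep U.dens (T.tilt U hδ) i = T.relEnt U δ hδ - U.gain (T.tilt U hδ) :=
  sum_entStep_of_log U (g := fun a => Real.log (T.ratio U δ a))
    (((T.cont.measurable.pow_const 2).add_const δ).div_const _).log (T.log_tilt U hδ)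

/-- The pairing of the score with the displacement. -/
noncomputable def pairing (δ : ℝ) (hδ : 0 < δ) : ℝ :=
  ∫ b, ∑ i, T.score δ i (Dens.kn U.dens (T.tilt U hδ) b)
    * (Dens.kn U.dens (T.tilt U hδ) b i - b i) ∂U.dens.meas

lemma relEnt_le_pairing {δ : ℝ} (hδ : 0 < δ) : T.relEnt U δ hδ ≤ T.pairing U δ hδ := by
  have hL := T.sum_entStep_tilt U hδ
  unfold pairing
  set P := T.tilt U hδ with hP
  set Q := U.dens with hQ
  have isc : ∀ i, Integrable (fun b => T.score δ i (Dens.kn Q P b) * (Dens.kn Q P b i - b i)) Q.meas :=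
    fun i => integrable_kn_mul Q P i (T.measurable_score δ i) (T.integrable_score_sq hδ P i)
  have iGa : ∀ i, Integrable (fun b => U.G i (Dens.kn Q P b) * (Dens.kn Q P b i - b i)) Q.meas :=
    fun i => integrable_kn_mul Q P i (U.Gmeas i) (U.integrable_G_sq P i)
  have h1 : ∑ i, Dens.entStep Q P i ≤ ∑ i, ∫ b, (T.score δ i (Dens.kn Q P b) * (Dens.kn Q P b i - b i)
      - U.G i (Dens.kn Q P b) * (Dens.kn Q P b i - b i)) ∂Q.meas := by
    refine Finset.sum_le_sum fun i _ => (Dens.entStep_le Q P i).trans (le_of_eq ?_)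
    congr 1; funext b
    rw [hP, T.tilt_ratio U hδ i]
    ring
  rw [Finset.sum_congr rfl fun i _ => integral_sub (isc i) (iGa i), Finset.sum_sub_distrib,
    ← integral_finsetSum _ fun i _ => isc i, ← integral_finsetSum _ fun i _ => iGa i] at h1
  have h2 : U.gain P ≤ ∫ b, ∑ i, U.G i (Dens.kn Q P b) * (Dens.kn Q P b i - b i) ∂Q.meas :=
    integral_mono (U.integrable_gain P) (integrable_finsetSum _ fun i _ => iGa i)
      fun b => U.tangent (Dens.kn Q P b) b
  linarith

/-- Second moment of the score. -/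
noncomputable def fisher (δ : ℝ) (hδ : 0 < δ) : ℝ :=
  ∫ a, ∑ i, T.score δ i a ^ 2 ∂(T.tilt U hδ).meas

lemma fisher_le {δ : ℝ} (hδ : 0 < δ) :
    T.fisher U δ hδ ≤ 4 * T.energy U / (T.mass U + δ) := by
  obtain ⟨B, hB⟩ := T.bdd
  have hm : 0 < T.mass U + δ := by linarith [T.mass_nonneg U]
  rw [fisher, energy, ← integral_const_mul, ← integral_div, Dens.integral_meas, Dens.integral_meas]
  refine integral_mono ((Dens.integrable_meas_iff _ _).1
    (integrable_finsetSum _ fun i _ => T.integrable_score_sq hδ (T.tilt U hδ) i)) ?_ fun x => ?_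
  · refine (Dens.integrable_meas_iff _ _).1 ?_
    refine (((integrable_finsetSum _ fun i _ => ?_)).const_mul 4).div_const _
    refine U.integrable_bdd ((T.meas i).pow_const 2) (B := B ^ 2) fun x => ?_
    rw [abs_pow]; exact pow_le_pow_left₀ (abs_nonneg _) ((hB x).2 i) 2
  · show T.ratio U δ x * U.dens.p x * ∑ i, T.score δ i x ^ 2
      ≤ U.dens.p x * ((4 * ∑ i, T.Dg i x ^ 2) / (T.mass U + δ))
    rw [mul_comm (T.ratio U δ x), mul_assoc]
    refine mul_le_mul_of_nonneg_left ?_ (U.dens.pos x).le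
    rw [Finset.mul_sum, Finset.mul_sum, Finset.sum_div]
    refine Finset.sum_le_sum fun i _ => ?_
    have hg : 0 < T.g x ^ 2 + δ := by positivity
    rw [score, ratio, div_pow, div_mul_div_comm, div_le_div_iff₀ (by positivity) hm]
    have : 0 ≤ δ * (T.g x ^ 2 + δ) * T.Dg i x ^ 2 * (T.mass U + δ) := by positivity
    nlinarith

lemma pairing_le {δ tau : ℝ} (hδ : 0 < δ) (hτ : 0 < tau) :
    T.pairing U δ hδ ≤ tau / 2 * T.fisher U δ hδ
      + (∫ b, ∑ i, (Dens.kn U.dens (T.tilt U hδ) b i - b i) ^ 2 ∂U.dens.meas) / (2 * tau) := by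
  unfold pairing fisher
  set P := T.tilt U hδ
  set Q := U.dens
  rw [← Dens.integral_kn Q P (g := fun a => ∑ i, T.score δ i a ^ 2)
    (Finset.measurable_sum _ fun i _ => (T.measurable_score δ i).pow_const 2)]
  have i1 : Integrable (fun b => tau / 2 * ∑ i, T.score δ i (Dens.kn Q P b) ^ 2) Q.meas :=
    (integrable_finsetSum _ fun i _ => Dens.integrable_kn Q P (g := fun a => T.score δ i a ^ 2)
      ((T.measurable_score δ i).pow_const 2) (T.integrable_score_sq hδ P i)).const_mul _
  have i2 : Integrable (fun b => (∑ i, (Dens.kn Q P b i - b i) ^ 2) / (2 * tau)) Q.meas :=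
    (integrable_finsetSum _ fun i _ => integrable_theta_sq Q P i).div_const _
  rw [← integral_const_mul, ← integral_div, ← integral_add i1 i2]
  refine integral_mono (integrable_finsetSum _ fun i _ =>
    integrable_kn_mul Q P i (T.measurable_score δ i) (T.integrable_score_sq hδ P i))
    (i1.add i2) fun b => ?_
  show _ ≤ tau / 2 * ∑ i, T.score δ i (Dens.kn Q P b) ^ 2 + _
  rw [Finset.mul_sum, Finset.sum_div, ← Finset.sum_add_distrib]
  refine Finset.sum_le_sum fun i _ => ?_
  generalize T.score δ i (Dens.kn Q P b) = u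
  generalize Dens.kn Q P b i - b i = v
  rw [div_mul_eq_mul_div, div_add_div _ _ two_ne_zero (by linarith), le_div_iff₀ (by positivity)]
  nlinarith [sq_nonneg (tau * u - v)]

end Test

/-- The regularised entropy inequality. -/
theorem entropy_reg (U : Pot n) (T : Test n) (S : Finset (Fin n)) {R lam M tau δ : ℝ}
    (hR : 0 < R) (hlam : 0 < lam) (hM : 0 ≤ M) (hδ : 0 < δ)
    (hS : ∀ i ∈ S, U.dens.EvenUnimodal i)
    (hexp : Integrable (fun x => Real.exp (lam * weightF S R x)) U.dens.meas)
    (hle : ∫ x, Real.exp (lam * weightF S R x) ∂U.dens.meas ≤ Real.exp M)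
    (htau : 100 * (10000 * R ^ 2 + 10000 / lam * (1 + M)) ≤ tau) :
    ∫ x, (T.g x ^ 2 + δ) * Real.log (T.ratio U δ x) ∂U.dens.meas ≤
      4 * tau * T.energy U + (T.mass U + δ) / 100 := by
  have hm : 0 < T.mass U + δ := by linarith [T.mass_nonneg U]
  set H := T.relEnt U δ hδ with hH
  have hfin : ∫ x, (T.g x ^ 2 + δ) * Real.log (T.ratio U δ x) ∂U.dens.meas
      = (T.mass U + δ) * H := by
    rw [hH, Test.relEnt, Dens.integral_meas, Dens.integral_meas, ← integral_const_mul]
    congr 1; funext x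
    show _ = (T.mass U + δ) * (T.ratio U δ x * U.dens.p x * _)
    rw [Test.ratio]
    field_simp
  have hH0 : 0 ≤ H := by
    rw [hH, ← T.sum_klStep_tilt U hδ]
    exact Finset.sum_nonneg fun i _ => Dens.klStep_nonneg _ _ i
  have h1 := displacement_total U (T.tilt U hδ) S hR hS
  have h2 := moment_bound U (T.tilt U hδ) S hR.le hlam hexp hle
  have h3 := moment_bound U U.dens S hR.le hlam hexp hle
  have h4 : ∑ i, Dens.klStep U.dens U.dens i = 0 := by
    rw [Dens.sum_klStep]; simp
  rw [h4] at h3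
  have hD := U.sum_dissip_le (T.tilt U hδ)
  rw [T.sum_entStep_tilt U hδ] at hD
  rw [T.sum_klStep_tilt U hδ] at h1 h2
  set W := ∫ b, ∑ i, (Dens.kn U.dens (T.tilt U hδ) b i - b i) ^ 2 ∂U.dens.meas
  have hd0 : 0 ≤ 10000 / lam := by positivity
  have hWle : W ≤ 10000 * R ^ 2 * H + 10000 / lam * (H + M) := by
    have h5 : 5000 * R ^ 2 * ((∑ i, ∫ b, dissip (Dens.slope U.dens (T.tilt U hδ) i b) ∂U.dens.meas) + H)
        ≤ 5000 * R ^ 2 * (H + H) := by gcongr; linarith
    have h6 : 5000 * ((0 + M) / lam + (H + M) / lam) ≤ 10000 / lam * (H + M) := by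
      rw [← add_div, ← mul_div_assoc, div_mul_eq_mul_div]
      refine div_le_div_of_nonneg_right ?_ hlam.le
      linarith
    linarith
  have hτ : 0 < tau := by nlinarith [mul_nonneg hd0 hM, sq_pos_of_pos hR]
  have hYoung := T.pairing_le U hδ hτ
  have hHle := T.relEnt_le_pairing U hδ
  have hWτ : W / (2 * tau) ≤ (H + 1) / 200 := by
    rw [div_le_iff₀ (by linarith)]
    have h1 : (H + 1) * (100 * (10000 * R ^ 2 + 10000 / lam * (1 + M))) ≤ (H + 1) * tau :=
      mul_le_mul_of_nonneg_left htau (by linarith)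
    have : 0 ≤ 10000 / lam * M * H := mul_nonneg (mul_nonneg hd0 hM) hH0
    nlinarith [sq_nonneg R]
  have hF0 : 0 ≤ T.fisher U δ hδ :=
    integral_nonneg fun b => Finset.sum_nonneg fun i _ => sq_nonneg _
  have hmain : H ≤ tau * T.fisher U δ hδ + 1 / 100 := by
    have : 0 ≤ tau * T.fisher U δ hδ := mul_nonneg hτ.le hF0
    linarith
  rw [hfin]
  calc (T.mass U + δ) * H ≤ (T.mass U + δ) * (tau * (4 * T.energy U / (T.mass U + δ)) + 1 / 100) :=
        mul_le_mul_of_nonneg_left (hmain.trans (by gcongr; exact T.fisher_le U hδ)) hm.le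
    _ = _ := by field_simp

end Vale.Agent.P245
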