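import Mathlib
import Vale.Agent.P245.Core

/-!
Exponential moments of the weight for centred subgaussian densities.
-/

namespace Vale.Agent.P245

open MeasureTheory Set Filter Topology Function Finset ProbabilityTheory
open scoped ENNReal

variable {n : ℕ}

/-- A centred, linearly `a`-subgaussian probability density on `Fin n → ℝ`. -/
structure SubDensity (ρ : (Fin n → ℝ) → ℝ) (a : ℝ) : Prop where
  a_pos : 0 < a
  meas : Measurable ρ
  nonneg : ∀ x, 0 ≤ ρ x
  int : Integrable ρ
  one : ∫ x, ρ x = 1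
  centred : ∀ i, ∫ x, x i * ρ x = 0
  sub : ∀ θ : Fin n → ℝ, sumSq θ = 1 →
    ∫⁻ x, ENNReal.ofReal (Real.exp ((∑ i, θ i * x i) ^ 2 / a ^ 2) * ρ x) ≤ 2

lemma exp_le_add_exp_sq (x : ℝ) : Real.exp x ≤ x + Real.exp (x ^ 2) := by
  rcases le_or_gt |x| 1 with h | h
  · have h1 := (abs_le.1 (Real.abs_exp_sub_one_sub_id_le h)).2
    have := Real.add_one_le_exp (x ^ 2)
    linarith
  · rcases lt_or_gt_of_ne (show x ≠ 0 by intro hx; simp [hx] at h; linarith) with hx | hx
    · rw [abs_of_neg hx] at h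
      have := Real.add_one_le_exp (x ^ 2)
      nlinarith [Real.exp_le_one_iff.2 hx.le]
    · rw [abs_of_pos hx] at h
      have : Real.exp x ≤ Real.exp (x ^ 2) := Real.exp_le_exp.2 (by nlinarith)
      linarith

lemma exp_mul_le_convex {s z : ℝ} (hs : 0 ≤ s) (hs1 : s ≤ 1) :
    Real.exp (s * z) ≤ (1 - s) + s * Real.exp z := by
  have := convexOn_exp.2 (Set.mem_univ (0:ℝ)) (Set.mem_univ z) (by linarith : 0 ≤ 1 - s) hs (by ring)
  simpa using this

namespace SubDensity

variable {ρ : (Fin n → ℝ) → ℝ} {a : ℝ}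

lemma dir (h : SubDensity ρ a) (θ : Fin n → ℝ) (hθ : sumSq θ = 1) :
    Integrable (fun x => Real.exp ((∑ i, θ i * x i) ^ 2 / a ^ 2) * ρ x) ∧
      ∫ x, Real.exp ((∑ i, θ i * x i) ^ 2 / a ^ 2) * ρ x ≤ 2 := by
  have hm : Measurable fun x : Fin n → ℝ => Real.exp ((∑ i, θ i * x i) ^ 2 / a ^ 2) * ρ x := by
    have := h.meas; fun_prop
  have h0 : ∀ x, 0 ≤ Real.exp ((∑ i, θ i * x i) ^ 2 / a ^ 2) * ρ x := fun x =>
    mul_nonneg (Real.exp_pos _).le (h.nonneg x)
  have hs := h.sub θ hθ
  refine ⟨(lintegral_ofReal_ne_top_iff_integrable hm.aestronglyMeasurable (Eventually.of_forall h0)).1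
    (ne_top_of_le_ne_top (by simp) hs), ?_⟩
  rw [integral_eq_lintegral_of_nonneg_ae (Eventually.of_forall h0) hm.aestronglyMeasurable]
  simpa using ENNReal.toReal_mono (by simp) hs

lemma integrable_lin (h : SubDensity ρ a) (θ : Fin n → ℝ) (hθ : sumSq θ = 1) :
    Integrable (fun x => (∑ i, θ i * x i) * ρ x) := by
  refine ((h.dir θ hθ).1.const_mul a).mono'
    (by have := h.meas; fun_prop : Measurable _).aestronglyMeasurable (Eventually.of_forall fun x => ?_)
  rw [Real.norm_eq_abs, abs_mul, abs_of_nonneg (h.nonneg x), ← mul_assoc]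
  refine mul_le_mul_of_nonneg_right ?_ (h.nonneg x)
  set y := ∑ i, θ i * x i
  have ha := h.a_pos
  have := Real.add_one_le_exp (y ^ 2 / a ^ 2)
  have h2 : |y| ≤ a * (1 + y ^ 2 / a ^ 2) := by
    field_simp
    nlinarith [sq_nonneg (|y| - a), sq_abs y]
  exact h2.trans (mul_le_mul_of_nonneg_left (by linarith) ha.le)

lemma coord_single (h : SubDensity ρ a) (i : Fin n) : Integrable (fun x => x i * ρ x) := by
  have hθ : sumSq (Pi.single i (1:ℝ) : Fin n → ℝ) = 1 := by simp [sumSq, Pi.single_apply]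
  simpa [Pi.single_apply] using h.integrable_lin (Pi.single i 1) hθ

lemma lin_zero (h : SubDensity ρ a) (θ : Fin n → ℝ) : ∫ x, (∑ i, θ i * x i) * ρ x = 0 := by
  simp only [Finset.sum_mul, mul_assoc]
  rw [integral_finsetSum _ fun i _ => (h.coord_single i).const_mul (θ i)]
  exact Finset.sum_eq_zero fun i _ => by rw [integral_const_mul, h.centred, mul_zero]

/-- Sub-gaussian bound for the Laplace transform. -/
lemma mgf_le (h : SubDensity ρ a) (w : Fin n → ℝ) :
    ∫⁻ x, ENNReal.ofReal (Real.exp (∑ i, w i * x i) * ρ x) ≤ ENNReal.ofReal (Real.exp (a ^ 2 * sumSq w)) := by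
  rcases (sumSq_nonneg w).eq_or_lt with h0 | h0
  · have : w = 0 := by
      funext i
      have := sq_le_sumSq w i
      show w i = 0
      exact pow_eq_zero_iff (n := 2) (by norm_num) |>.1 (le_antisymm (by linarith) (sq_nonneg _))
    subst this
    simp only [Pi.zero_apply, zero_mul, Finset.sum_const_zero, Real.exp_zero, one_mul, ← h0, mul_zero]
    rw [← ofReal_integral_eq_lintegral_ofReal h.int (Eventually.of_forall h.nonneg), h.one]
  set t := Real.sqrt (sumSq w) with ht
  have htpos : 0 < t := Real.sqrt_pos.2 h0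
  have ht2 : t ^ 2 = sumSq w := Real.sq_sqrt h0.le
  set θ : Fin n → ℝ := fun i => w i / t with hθdef
  have hθ : sumSq θ = 1 := by
    simp only [sumSq, hθdef, div_pow, ← Finset.sum_div]
    rw [ht2]; exact div_self h0.ne'
  set Y := fun x : Fin n → ℝ => ∑ i, θ i * x i with hY
  have hwY : ∀ x, ∑ i, w i * x i = t * Y x := fun x => by
    simp only [hY, hθdef, Finset.mul_sum]
    exact Finset.sum_congr rfl fun i _ => by field_simp
  obtain ⟨hi, hle⟩ := h.dir θ hθ
  set E := fun x : Fin n → ℝ => Real.exp (Y x ^ 2 / a ^ 2) with hE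
  have hilin : Integrable fun x => Y x * ρ x := h.integrable_lin θ hθ
  have hlin : ∫ x, Y x * ρ x = 0 := h.lin_zero θ
  have ha2 : (0:ℝ) < a ^ 2 := pow_pos h.a_pos 2
  have bound : ∃ α β γ : ℝ, (∀ x, Real.exp (t * Y x) * ρ x ≤ α * (Y x * ρ x) + β * ρ x + γ * (E x * ρ x))
      ∧ 0 ≤ γ ∧ β + 2 * γ ≤ Real.exp (a ^ 2 * sumSq w) := by
    set u := a ^ 2 * t ^ 2 with hu
    have hu0 : 0 ≤ u := by positivity
    rcases le_or_gt u 1 with hu1 | hu1
    · refine ⟨t, 1 - u, u, fun x => ?_, hu0, ?_⟩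
      · have h1 := exp_le_add_exp_sq (t * Y x)
        have h2 := exp_mul_le_convex hu0 hu1 (z := Y x ^ 2 / a ^ 2)
        have e : u * (Y x ^ 2 / a ^ 2) = (t * Y x) ^ 2 := by
          rw [hu, mul_pow]; field_simp [h.a_pos.ne']
        rw [e] at h2
        have := mul_le_mul_of_nonneg_right (h1.trans (add_le_add le_rfl h2)) (h.nonneg x)
        simp only [hE] at this ⊢
        linarith
      · rw [← ht2, ← hu]; linarith [Real.add_one_le_exp u]
    · refine ⟨0, Real.exp (u / 2) / 2, Real.exp (u / 2) / 2, fun x => ?_, by positivity, ?_⟩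
      · have h2 := exp_mul_le_convex (s := 1 / 2) (by norm_num) (by norm_num) (z := Y x ^ 2 / a ^ 2)
        have h1 : t * Y x ≤ u / 2 + 1 / 2 * (Y x ^ 2 / a ^ 2) := by
          have key : 0 ≤ (a * t - Y x / a) ^ 2 := sq_nonneg _
          rw [sub_sq, div_pow, show 2 * (a * t) * (Y x / a) = 2 * (t * Y x) by
            field_simp [h.a_pos.ne']] at key
          rw [hu]; linarith [mul_pow a t 2]
        have h3 : Real.exp (t * Y x) ≤ Real.exp (u / 2) * ((1 - 1 / 2) + 1 / 2 * E x) := by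
          refine (Real.exp_le_exp.2 h1).trans ?_
          rw [Real.exp_add]; exact mul_le_mul_of_nonneg_left h2 (Real.exp_pos _).le
        have := mul_le_mul_of_nonneg_right h3 (h.nonneg x)
        linarith
      · rw [← ht2, ← hu, show Real.exp u = Real.exp (u / 2) * Real.exp (u / 2) by
          rw [← Real.exp_add]; ring_nf]
        have := Real.add_one_le_exp (u / 2)
        nlinarith [Real.exp_pos (u / 2)]
  obtain ⟨α, β, γ, hb, hγ, hsum⟩ := bound
  have hint : Integrable fun x => α * (Y x * ρ x) + β * ρ x + γ * (E x * ρ x) :=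
    ((hilin.const_mul α).add (h.int.const_mul β)).add (hi.const_mul γ)
  have hm : Measurable fun x => Real.exp (∑ i, w i * x i) * ρ x := by have := h.meas; fun_prop
  have hint2 : Integrable fun x => Real.exp (∑ i, w i * x i) * ρ x :=
    hint.mono' hm.aestronglyMeasurable (Eventually.of_forall fun x => by
      rw [Real.norm_eq_abs, abs_of_nonneg (mul_nonneg (Real.exp_pos _).le (h.nonneg x)), hwY]
      exact hb x)
  rw [← ofReal_integral_eq_lintegral_ofReal hint2
    (Eventually.of_forall fun x => mul_nonneg (Real.exp_pos _).le (h.nonneg x))]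
  refine ENNReal.ofReal_le_ofReal ?_
  calc ∫ x, Real.exp (∑ i, w i * x i) * ρ x
      ≤ ∫ x, (α * (Y x * ρ x) + β * ρ x + γ * (E x * ρ x)) :=
        integral_mono hint2 hint fun x => by simp only [hwY]; exact hb x
    _ = β + γ * ∫ x, E x * ρ x := by
        have i1 : Integrable fun x => α * (Y x * ρ x) + β * ρ x :=
          (hilin.const_mul α).add (h.int.const_mul β)
        rw [integral_add i1 (hi.const_mul γ),
          integral_add (hilin.const_mul α) (h.int.const_mul β), integral_const_mul, integral_const_mul,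
          integral_const_mul, hlin, h.one]
        ring
    _ ≤ β + γ * 2 := by have := mul_le_mul_of_nonneg_left hle hγ; linarith
    _ ≤ _ := by linarith

end SubDensity

lemma lintegral_exp_lin (c : ℝ) :
    ∫⁻ g, ENNReal.ofReal (Real.exp (c * g)) ∂gaussianReal 0 1 = ENNReal.ofReal (Real.exp (c ^ 2 / 2)) := by
  have h := congrFun (mgf_id_gaussianReal (μ := 0) (v := 1)) c
  simp only [mgf, id, zero_mul, zero_add, NNReal.coe_one, one_mul] at h
  have hi : Integrable (fun g => Real.exp (c * g)) (gaussianReal 0 1) :=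
    Integrable.of_integral_ne_zero (by rw [h]; positivity)
  rw [← ofReal_integral_eq_lintegral_ofReal hi (Eventually.of_forall fun g => (Real.exp_pos _).le), h]

lemma lintegral_exp_sq {s : ℝ} (hs : s = 1 / 4) :
    ∫⁻ g, ENNReal.ofReal (Real.exp (s * g ^ 2)) ∂gaussianReal 0 1 = ENNReal.ofReal (Real.sqrt 2) := by
  subst hs
  have hpdf : ∀ g : ℝ, gaussianPDFReal 0 1 g * Real.exp (1 / 4 * g ^ 2)
      = (Real.sqrt (2 * Real.pi))⁻¹ * Real.exp (-(1 / 4) * g ^ 2) := by
    intro g
    simp only [gaussianPDFReal, NNReal.coe_one, mul_one, sub_zero]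
    rw [mul_assoc, ← Real.exp_add]
    ring_nf
  rw [gaussianReal_of_var_ne_zero 0 one_ne_zero,
    lintegral_withDensity_eq_lintegral_mul _ (measurable_gaussianPDF 0 1) (by fun_prop)]
  · simp only [Pi.mul_apply]
    have e : ∀ g, gaussianPDF 0 1 g * ENNReal.ofReal (Real.exp (1 / 4 * g ^ 2))
        = ENNReal.ofReal ((Real.sqrt (2 * Real.pi))⁻¹ * Real.exp (-(1 / 4) * g ^ 2)) := fun g => by
      rw [gaussianPDF, ← ENNReal.ofReal_mul (gaussianPDFReal_nonneg 0 1 g), hpdf]
    simp only [e]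
    rw [← ofReal_integral_eq_lintegral_ofReal
      ((integrable_exp_neg_mul_sq (by norm_num : (0:ℝ) < 1 / 4)).const_mul _)
      (Eventually.of_forall fun g => by positivity), integral_const_mul, integral_gaussian]
    congr 1
    have h2 : Real.sqrt (Real.pi / (1 / 4)) = Real.sqrt 2 * Real.sqrt (2 * Real.pi) := by
      rw [← Real.sqrt_mul zero_le_two]; congr 1; ring
    rw [h2, mul_comm, mul_assoc, mul_inv_cancel₀ (by positivity), mul_one]

lemma lintegral_pi_prod (f : Fin n → ℝ → ℝ≥0∞) (hf : ∀ i, Measurable (f i)) :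
    ∫⁻ g, ∏ i, f i (g i) ∂Measure.pi (fun _ : Fin n => gaussianReal 0 1)
      = ∏ i, ∫⁻ t, f i t ∂gaussianReal 0 1 := by
  induction n with
  | zero => simp
  | succ m ih =>
    rw [← ((measurePreserving_piFinSuccAbove (fun _ : Fin (m+1) => gaussianReal 0 1) 0).symm _).map_eq,
      lintegral_map_equiv]
    simp only [MeasurableEquiv.piFinSuccAbove_symm_apply, Fin.insertNthEquiv_apply,
      Fin.prod_univ_succ, Fin.insertNth_zero, Fin.cons_zero, Fin.cons_succ]
    show ∫⁻ z : ℝ × (Fin m → ℝ), f 0 z.1 * ∏ i : Fin m, f i.succ (z.2 i)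
      ∂(gaussianReal 0 1).prod (Measure.pi fun _ : Fin m => gaussianReal 0 1) = _
    rw [lintegral_prod_mul (g := fun y : Fin m → ℝ => ∏ i : Fin m, f i.succ (y i)) (hf 0).aemeasurable
      (Finset.measurable_prod _ fun (i : Fin m) _ =>
        (hf i.succ).comp (measurable_pi_apply i)).aemeasurable,
      ih (fun i => f i.succ) (fun i => hf i.succ)]

namespace SubDensity

variable {ρ : (Fin n → ℝ) → ℝ} {a : ℝ}

lemma exp_sq_le (h : SubDensity ρ a) (T : Finset (Fin n)) :
    ∫⁻ x, ENNReal.ofReal (Real.exp (∑ i ∈ T, x i ^ 2 / (8 * a ^ 2)) * ρ x)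
      ≤ ENNReal.ofReal (Real.sqrt 2 ^ T.card) := by
  have ha := h.a_pos
  set c := Real.sqrt (2 * (1 / (8 * a ^ 2))) with hc
  have hc2 : c ^ 2 = 1 / (4 * a ^ 2) := by
    rw [hc, Real.sq_sqrt (by positivity)]; field_simp; ring
  set ind : Fin n → ℝ := fun i => if i ∈ T then 1 else 0
  set G := Measure.pi (fun _ : Fin n => gaussianReal 0 1)
  have lin : ∀ x : Fin n → ℝ, ENNReal.ofReal (Real.exp (∑ i ∈ T, x i ^ 2 / (8 * a ^ 2)))
      = ∫⁻ g, ENNReal.ofReal (Real.exp (∑ i, (c * ind i * g i) * x i)) ∂G := by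
    intro x
    have e : ∀ g : Fin n → ℝ, ENNReal.ofReal (Real.exp (∑ i, (c * ind i * g i) * x i))
        = ∏ i, ENNReal.ofReal (Real.exp (c * ind i * x i * g i)) := fun g => by
      rw [← ENNReal.ofReal_prod_of_nonneg (fun i _ => (Real.exp_pos _).le), ← Real.exp_sum]
      congr 2; exact Finset.sum_congr rfl fun i _ => by ring
    simp only [e]
    rw [lintegral_pi_prod (fun i t => ENNReal.ofReal (Real.exp (c * ind i * x i * t))) (fun i => by fun_prop)]
    simp only [lintegral_exp_lin]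
    rw [← ENNReal.ofReal_prod_of_nonneg (fun i _ => (Real.exp_pos _).le), ← Real.exp_sum]
    congr 2
    rw [← Finset.sum_subset (Finset.subset_univ T) (fun i _ hi => by simp [ind, hi])]
    refine Finset.sum_congr rfl fun i hi => ?_
    simp only [ind, hi, ↓reduceIte, mul_one, mul_pow, hc2]
    field_simp; ring
  have hm : Measurable (uncurry fun (x : Fin n → ℝ) (g : Fin n → ℝ) =>
      ENNReal.ofReal (Real.exp (∑ i, (c * ind i * g i) * x i)) * ENNReal.ofReal (ρ x)) := by
    show Measurable fun z : (Fin n → ℝ) × (Fin n → ℝ) =>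
      ENNReal.ofReal (Real.exp (∑ i, (c * ind i * z.2 i) * z.1 i)) * ENNReal.ofReal (ρ z.1)
    exact Measurable.mul (by fun_prop) (h.meas.comp measurable_fst).ennreal_ofReal
  have e1 : ∀ x, ENNReal.ofReal (Real.exp (∑ i ∈ T, x i ^ 2 / (8 * a ^ 2)) * ρ x)
      = ∫⁻ g, ENNReal.ofReal (Real.exp (∑ i, (c * ind i * g i) * x i)) * ENNReal.ofReal (ρ x) ∂G := by
    intro x
    rw [lintegral_mul_const' _ _ ENNReal.ofReal_ne_top, ← lin, ENNReal.ofReal_mul (Real.exp_pos _).le]
  simp only [e1]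
  rw [lintegral_lintegral_swap hm.aemeasurable]
  have e2 : ∀ g : Fin n → ℝ, ∫⁻ x, ENNReal.ofReal (Real.exp (∑ i, (c * ind i * g i) * x i))
      * ENNReal.ofReal (ρ x) ≤ ∏ i, ENNReal.ofReal (Real.exp (if i ∈ T then 1 / 4 * g i ^ 2 else 0)) := by
    intro g
    simp only [← ENNReal.ofReal_mul (Real.exp_pos _).le]
    refine (h.mgf_le _).trans (le_of_eq ?_)
    rw [← ENNReal.ofReal_prod_of_nonneg (fun i _ => (Real.exp_pos _).le), ← Real.exp_sum]
    congr 2
    rw [sumSq, Finset.mul_sum]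
    refine Finset.sum_congr rfl fun i _ => ?_
    by_cases hi : i ∈ T
    · simp only [ind, hi, ↓reduceIte, mul_one, mul_pow, hc2]; field_simp
    · simp [ind, hi]
  refine (lintegral_mono e2).trans (le_of_eq ?_)
  rw [lintegral_pi_prod (fun i t => ENNReal.ofReal (Real.exp (if i ∈ T then 1 / 4 * t ^ 2 else 0)))
    (fun i => by split <;> fun_prop)]
  rw [← Finset.prod_subset (Finset.subset_univ T) (fun i _ hi => by simp [hi])]
  rw [Finset.prod_congr rfl fun i hi => by
    simp only [hi, ↓reduceIte]; exact lintegral_exp_sq rfl, Finset.prod_const,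
    ← ENNReal.ofReal_pow (Real.sqrt_nonneg 2)]

lemma weight_le (h : SubDensity ρ a) (S : Finset (Fin n)) {R : ℝ} (hR0 : 0 ≤ R)
    (hR : R ^ 2 = 32 * a ^ 2 * Real.log ((n:ℝ) + 2)) :
    Integrable (fun x => Real.exp ((8 * a ^ 2)⁻¹ * weightF S R x) * ρ x) ∧
      ∫ x, Real.exp ((8 * a ^ 2)⁻¹ * weightF S R x) * ρ x ≤ Real.exp ((Sᶜ.card : ℝ) / 2 + 2) := by
  have ha := h.a_pos
  set lam := (8 * a ^ 2)⁻¹ with hlam
  set c := 1 / ((n:ℝ) + 2) with hc
  have hlam0 : 0 < lam := by rw [hlam]; positivity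
  set e : ℝ → ℝ := fun t => Real.exp (t ^ 2 / (8 * a ^ 2)) with he
  have hcR : Real.exp (-(lam * (R / 2) ^ 2)) = c := by
    rw [div_pow, hR, hlam, hc, one_div, Real.exp_neg]
    congr 1
    rw [show (8 * a ^ 2)⁻¹ * (32 * a ^ 2 * Real.log ((n:ℝ) + 2) / 2 ^ 2) = Real.log ((n:ℝ) + 2) by
      field_simp; ring]
    exact Real.exp_log (by positivity)
  have hex : ∀ t, Real.exp (lam * excess R t) ≤ 1 + c * e t := by
    intro t
    unfold excess
    rcases le_or_gt (|t| - R / 2) 0 with ht | ht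
    · rw [max_eq_right ht]
      have : 0 ≤ c * e t := by rw [hc, he]; positivity
      simpa using this
    · rw [max_eq_left ht.le]
      have h1 : (|t| - R / 2) ^ 2 ≤ t ^ 2 - (R / 2) ^ 2 := by nlinarith [sq_abs t]
      have h2 : Real.exp (lam * (|t| - R / 2) ^ 2) ≤ c * e t := by
        rw [← hcR, he, ← Real.exp_add]
        refine Real.exp_le_exp.2 ((mul_le_mul_of_nonneg_left h1 hlam0.le).trans (le_of_eq ?_))
        rw [hlam]; ring
      linarith
  have hprod : ∀ x : Fin n → ℝ, Real.exp (lam * weightF S R x)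
      ≤ ∑ U ∈ S.powerset, c ^ U.card * Real.exp (∑ i ∈ U ∪ Sᶜ, x i ^ 2 / (8 * a ^ 2)) := by
    intro x
    rw [weightF, mul_add, Real.exp_add, Finset.mul_sum, Real.exp_sum]
    refine (mul_le_mul_of_nonneg_right (Finset.prod_le_prod (fun i _ => (Real.exp_pos _).le)
      fun i _ => hex (x i)) (Real.exp_pos _).le).trans (le_of_eq ?_)
    rw [show (fun i => 1 + c * e (x i)) = fun i => c * e (x i) + 1 from funext fun i => add_comm _ _,
      Finset.prod_add, Finset.sum_mul]
    refine Finset.sum_congr rfl fun U hU => ?_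
    have hd : Disjoint U Sᶜ := Finset.disjoint_left.2 fun i hi hi' =>
      Finset.mem_compl.1 hi' (Finset.mem_powerset.1 hU hi)
    rw [Finset.prod_const_one, mul_one, Finset.prod_mul_distrib, Finset.prod_const, Finset.sum_union hd,
      Real.exp_add, mul_assoc, Real.exp_sum]
    congr 2
    rw [Finset.mul_sum]
    exact congrArg Real.exp (Finset.sum_congr rfl fun i _ => by rw [hlam]; ring)
  have hlint : ∫⁻ x, ENNReal.ofReal (Real.exp (lam * weightF S R x) * ρ x)
      ≤ ENNReal.ofReal (∑ U ∈ S.powerset, c ^ U.card * Real.sqrt 2 ^ (U.card + Sᶜ.card)) := by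
    have hc0 : 0 ≤ c := by rw [hc]; positivity
    calc _ ≤ ∫⁻ x, ∑ U ∈ S.powerset, ENNReal.ofReal (c ^ U.card)
          * ENNReal.ofReal (Real.exp (∑ i ∈ U ∪ Sᶜ, x i ^ 2 / (8 * a ^ 2)) * ρ x) := by
          refine lintegral_mono fun x => ?_
          refine (ENNReal.ofReal_le_ofReal (mul_le_mul_of_nonneg_right (hprod x) (h.nonneg x))).trans
            (le_of_eq ?_)
          rw [Finset.sum_mul, ENNReal.ofReal_sum_of_nonneg fun U _ =>
            mul_nonneg (mul_nonneg (pow_nonneg hc0 _) (Real.exp_pos _).le) (h.nonneg x)]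
          exact Finset.sum_congr rfl fun U _ => by rw [mul_assoc, ENNReal.ofReal_mul (pow_nonneg hc0 _)]
      _ ≤ _ := by
          rw [lintegral_finsetSum _ fun U _ => by have := h.meas; fun_prop,
            ENNReal.ofReal_sum_of_nonneg fun U _ => by positivity]
          refine Finset.sum_le_sum fun U hU => ?_
          have hd : Disjoint U Sᶜ := Finset.disjoint_left.2 fun i hi hi' =>
            Finset.mem_compl.1 hi' (Finset.mem_powerset.1 hU hi)
          rw [lintegral_const_mul' _ _ ENNReal.ofReal_ne_top, ENNReal.ofReal_mul (pow_nonneg hc0 _),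
            ← Finset.card_union_of_disjoint hd]
          exact mul_le_mul_right (h.exp_sq_le _) _
  have hval : ∑ U ∈ S.powerset, c ^ U.card * Real.sqrt 2 ^ (U.card + Sᶜ.card)
      ≤ Real.exp ((Sᶜ.card : ℝ) / 2 + 2) := by
    have e : ∀ U : Finset (Fin n), c ^ U.card * Real.sqrt 2 ^ (U.card + Sᶜ.card)
        = (c * Real.sqrt 2) ^ U.card * Real.sqrt 2 ^ Sᶜ.card := fun U => by rw [pow_add, mul_pow]; ring
    simp only [e, ← Finset.sum_mul]
    have e2 : ∑ U ∈ S.powerset, (c * Real.sqrt 2) ^ U.card = (c * Real.sqrt 2 + 1) ^ S.card := by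
      rw [← Finset.prod_const, Finset.prod_add]
      simp
    rw [e2, Real.exp_add, mul_comm (Real.exp _)]
    have hs : Real.sqrt 2 ≤ Real.exp (1 / 2) := by
      rw [Real.sqrt_le_iff]
      refine ⟨(Real.exp_pos _).le, ?_⟩
      rw [← Real.exp_nat_mul]; norm_num
      linarith [Real.add_one_le_exp (1:ℝ)]
    refine mul_le_mul ?_ ?_ (by positivity) (Real.exp_pos _).le
    · calc (c * Real.sqrt 2 + 1) ^ S.card ≤ Real.exp (c * Real.sqrt 2) ^ S.card :=
            pow_le_pow_left₀ (by positivity) (Real.add_one_le_exp _) _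
        _ = Real.exp (S.card * (c * Real.sqrt 2)) := (Real.exp_nat_mul _ _).symm
        _ ≤ Real.exp 2 := by
            apply Real.exp_le_exp.2
            have h1 : (S.card : ℝ) ≤ n := by exact_mod_cast (Finset.card_le_univ S).trans (by simp)
            have h2 : Real.sqrt 2 ≤ 2 := Real.sqrt_le_iff.2 ⟨by norm_num, by norm_num⟩
            have h3 : (S.card : ℝ) * c ≤ 1 := by
              rw [hc, mul_one_div, div_le_one (by positivity)]; linarith
            rw [← mul_assoc]
            calc (S.card : ℝ) * c * Real.sqrt 2 ≤ 1 * 2 :=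
                  mul_le_mul h3 h2 (Real.sqrt_nonneg _) zero_le_one
              _ = 2 := one_mul 2
    · calc Real.sqrt 2 ^ Sᶜ.card ≤ Real.exp (1 / 2) ^ Sᶜ.card :=
            pow_le_pow_left₀ (Real.sqrt_nonneg 2) hs _
        _ = _ := by rw [← Real.exp_nat_mul]; ring_nf
  have hm : Measurable fun x => Real.exp (lam * weightF S R x) * ρ x := by
    have := h.meas; fun_prop
  have h0 : ∀ x, 0 ≤ Real.exp (lam * weightF S R x) * ρ x := fun x =>
    mul_nonneg (Real.exp_pos _).le (h.nonneg x)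
  refine ⟨(lintegral_ofReal_ne_top_iff_integrable hm.aestronglyMeasurable (Eventually.of_forall h0)).1
    (ne_top_of_le_ne_top ENNReal.ofReal_ne_top hlint), ?_⟩
  rw [integral_eq_lintegral_of_nonneg_ae (Eventually.of_forall h0) hm.aestronglyMeasurable]
  exact ENNReal.toReal_le_of_le_ofReal (Real.exp_pos _).le
    (hlint.trans (ENNReal.ofReal_le_ofReal hval))

end SubDensity

end Vale.Agent.P245
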