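import Mathlib
import Vale.Agent.P245.Core

/-!
From the defective inequality to the logarithmic Sobolev inequality.
-/

namespace Vale.Agent.P245

open MeasureTheory Set Filter Topology Function Finset

/-- `t * log t`. -/
noncomputable def nlog (t : ℝ) : ℝ := t * Real.log t

@[fun_prop]
lemma continuous_nlog : Continuous nlog := Real.continuous_mul_log

lemma exists_bound_nlog (B : ℝ) : ∃ C, ∀ t ∈ Set.Icc 0 B, |nlog t| ≤ C :=
  (isCompact_Icc.exists_bound_of_continuousOn (f := nlog) continuous_nlog.continuousOn)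

/-- Entropy functional. -/
noncomputable def entro {α : Type*} [MeasurableSpace α] (μ : Measure α) (f : α → ℝ) : ℝ :=
  (∫ x, nlog (f x) ∂μ) - nlog (∫ x, f x ∂μ)

lemma tendsto_integral_nlog {α : Type*} [MeasurableSpace α] {μ : Measure α} [IsFiniteMeasure μ]
    {f : ℕ → α → ℝ} {g : α → ℝ} {B : ℝ} (hm : ∀ k, Measurable (f k))
    (hb : ∀ k x, f k x ∈ Set.Icc 0 B) (hlim : ∀ x, Tendsto (fun k => f k x) atTop (𝓝 (g x))) :
    Tendsto (fun k => entro μ (f k)) atTop (𝓝 (entro μ g)) := by
  obtain ⟨C, hC⟩ := exists_bound_nlog B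
  have h1 : Tendsto (fun k => ∫ x, nlog (f k x) ∂μ) atTop (𝓝 (∫ x, nlog (g x) ∂μ)) :=
    tendsto_integral_of_dominated_convergence (fun _ => C)
      (fun k => (continuous_nlog.measurable.comp (hm k)).aestronglyMeasurable) (integrable_const C)
      (fun k => Eventually.of_forall fun x => hC _ (hb k x))
      (Eventually.of_forall fun x => (continuous_nlog.tendsto _).comp (hlim x))
  have h2 : Tendsto (fun k => ∫ x, f k x ∂μ) atTop (𝓝 (∫ x, g x ∂μ)) :=
    tendsto_integral_of_dominated_convergence (fun _ => B)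
      (fun k => (hm k).aestronglyMeasurable) (integrable_const B)
      (fun k => Eventually.of_forall fun x => by
        rw [Real.norm_eq_abs, abs_of_nonneg (hb k x).1]; exact (hb k x).2)
      (Eventually.of_forall hlim)
  exact h1.sub ((continuous_nlog.tendsto _).comp h2)

/-- Bregman divergence of `t * log t`. -/
noncomputable def breg (t c : ℝ) : ℝ := nlog t - t * Real.log c - t + c

lemma breg_nonneg {t c : ℝ} (ht : 0 ≤ t) (hc : 0 < c) : 0 ≤ breg t c := by
  rcases ht.eq_or_lt with rfl | ht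
  · simp [breg, nlog, hc.le]
  have := mul_le_mul_of_nonneg_left (Real.log_le_sub_one_of_pos (div_pos hc ht)) ht.le
  rw [Real.log_div hc.ne' ht.ne', mul_sub, mul_sub, mul_div_cancel₀ _ ht.ne'] at this
  unfold breg nlog; linarith

lemma breg_le_sq {t c : ℝ} (ht : 0 ≤ t) (hc : 0 < c) : breg t c ≤ (t - c) ^ 2 / c := by
  rcases ht.eq_or_lt with rfl | ht
  · simp [breg, nlog]; rw [sq, mul_div_assoc, div_self hc.ne', mul_one]
  have := mul_le_mul_of_nonneg_left (Real.log_le_sub_one_of_pos (div_pos ht hc)) ht.le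
  rw [Real.log_div ht.ne' hc.ne'] at this
  have e : (t - c) ^ 2 / c = t * (t / c - 1) - t + c := by field_simp; ring
  rw [e]
  unfold breg nlog
  linarith

lemma breg_shift (m u s : ℝ) (hs : 0 < s) :
    breg ((m + u) ^ 2) (m ^ 2 + s) ≤ 4 * breg (u ^ 2) s + 18 * u ^ 2 + 2 * s := by
  have hc : 0 < m ^ 2 + s := by positivity
  have hD := breg_nonneg (sq_nonneg u) hs
  set t := (m + u) ^ 2
  have ht : 0 ≤ t := sq_nonneg _
  rcases le_or_gt (u ^ 2) (m ^ 2) with hum | hum
  · refine (breg_le_sq ht hc).trans ?_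
    rw [div_le_iff₀ hc]
    have h1 : (t - (m ^ 2 + s)) ^ 2 ≤ 2 * (2 * m * u + u ^ 2) ^ 2 + 2 * s ^ 2 := by
      have : t - (m ^ 2 + s) = (2 * m * u + u ^ 2) - s := by ring
      rw [this]; nlinarith [sq_nonneg (2 * m * u + u ^ 2 + s)]
    have h2 : (2 * m * u + u ^ 2) ^ 2 ≤ 9 * m ^ 2 * u ^ 2 := by
      have : |u| ≤ |m| := sq_le_sq.1 hum
      have h3 : |2 * m + u| ≤ 3 * |m| := (abs_add_le _ _).trans (by rw [abs_mul, abs_two]; linarith)
      calc (2 * m * u + u ^ 2) ^ 2 = |2 * m + u| ^ 2 * u ^ 2 := by rw [sq_abs]; ring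
        _ ≤ (3 * |m|) ^ 2 * u ^ 2 := by gcongr
        _ = _ := by rw [mul_pow, sq_abs]; ring
    nlinarith [mul_nonneg hD hc.le, mul_nonneg (sq_nonneg u) hs.le, mul_nonneg hs.le (sq_nonneg m)]
  · rcases le_or_gt t (m ^ 2 + s) with htc | htc
    · have : breg t (m ^ 2 + s) ≤ m ^ 2 + s := by
        rcases ht.eq_or_lt with he | he
        · rw [← he]; simp [breg, nlog]
        · have := mul_le_mul_of_nonneg_left (Real.log_le_log he htc) he.le
          unfold breg nlog; linarith
      nlinarith
    · have htpos : 0 < t := hc.trans htc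
      have h4 : t ≤ 4 * u ^ 2 := by nlinarith [sq_nonneg (m - u)]
      have hu : 0 < u ^ 2 := by nlinarith [sq_nonneg m]
      have hl1 : Real.log t ≤ Real.log 4 + Real.log (u ^ 2) := by
        rw [← Real.log_mul (by norm_num) hu.ne']; exact Real.log_le_log htpos h4
      have hl2 : Real.log s ≤ Real.log (m ^ 2 + s) := Real.log_le_log hs (by nlinarith)
      have hl3 : 0 ≤ Real.log t - Real.log (m ^ 2 + s) := by
        linarith [Real.log_le_log hc htc.le]
      have hl4 : Real.log 4 ≤ 2 := by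
        rw [show (4:ℝ) = 2 ^ 2 by norm_num, Real.log_pow]
        have := Real.log_two_lt_d9; push_cast; linarith
      have key : t * (Real.log t - Real.log (m ^ 2 + s))
          ≤ 4 * u ^ 2 * (2 + (Real.log (u ^ 2) - Real.log s)) :=
        mul_le_mul h4 (by linarith) hl3 (by positivity)
      unfold breg nlog at hD ⊢
      nlinarith

section

variable {α : Type*} [MeasurableSpace α] {μ : Measure α} [IsProbabilityMeasure μ]

lemma integrable_bdd' {f : α → ℝ} (hf : Measurable f) {B : ℝ} (hB : ∀ x, |f x| ≤ B) :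
    Integrable f μ :=
  (integrable_const B).mono' hf.aestronglyMeasurable (Eventually.of_forall hB)

lemma integrable_nlog {f : α → ℝ} (hf : Measurable f) {B : ℝ} (hB : ∀ x, f x ∈ Set.Icc 0 B) :
    Integrable (fun x => nlog (f x)) μ := by
  obtain ⟨C, hC⟩ := exists_bound_nlog B
  exact integrable_bdd' (continuous_nlog.measurable.comp hf) fun x => hC _ (hB x)

lemma integral_breg {f : α → ℝ} (hf : Measurable f) {B : ℝ} (hB : ∀ x, f x ∈ Set.Icc 0 B) (c : ℝ) :
    ∫ x, breg (f x) c ∂μ
      = (∫ x, nlog (f x) ∂μ) - (∫ x, f x ∂μ) * Real.log c - (∫ x, f x ∂μ) + c := by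
  have i0 : Integrable f μ := integrable_bdd' hf fun x => by
    rw [abs_of_nonneg (hB x).1]; exact (hB x).2
  have i1 := integrable_nlog (μ := μ) hf hB
  have i2 : Integrable (fun x => nlog (f x) - f x * Real.log c) μ := i1.sub (i0.mul_const _)
  have i3 : Integrable (fun x => nlog (f x) - f x * Real.log c - f x) μ := i2.sub i0
  simp only [breg]
  rw [integral_add i3 (integrable_const c), integral_sub i2 i0, integral_sub i1 (i0.mul_const _),
    integral_mul_const]
  simp

lemma entro_le_breg {f : α → ℝ} (hf : Measurable f) {B : ℝ} (hB : ∀ x, f x ∈ Set.Icc 0 B) {c : ℝ}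
    (hc : 0 < c) : entro μ f ≤ ∫ x, breg (f x) c ∂μ := by
  rw [integral_breg hf hB]
  have := breg_nonneg (t := ∫ x, f x ∂μ) (integral_nonneg fun x => (hB x).1) hc
  unfold breg at this
  unfold entro
  linarith

lemma log_two_mul_le_entro {f : α → ℝ} (hf : Measurable f) {B : ℝ} (hB : ∀ x, f x ∈ Set.Icc 0 B)
    (hsupp : μ {x | f x ≠ 0} ≤ ENNReal.ofReal (1 / 2)) :
    Real.log 2 * (∫ x, f x ∂μ) ≤ entro μ f := by
  set Z := ∫ x, f x ∂μ with hZdef
  rcases (integral_nonneg fun x => (hB x).1 : 0 ≤ Z).eq_or_lt with hZ | hZ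
  · have hi : Integrable f μ := integrable_bdd' hf fun x => by
      rw [abs_of_nonneg (hB x).1]; exact (hB x).2
    have h0 : f =ᵐ[μ] 0 := (integral_eq_zero_iff_of_nonneg (fun x => (hB x).1) hi).1 hZ.symm
    have : ∫ x, nlog (f x) ∂μ = 0 := integral_eq_zero_of_ae (h0.mono fun x hx => by simp [nlog, hx])
    unfold entro
    rw [this, ← hZdef, show Z = 0 from hZ.symm]
    simp [nlog]
  set A := {x | f x ≠ 0}
  have hA : MeasurableSet A := hf (measurableSet_singleton 0).compl
  have hi : Integrable f μ := integrable_bdd' hf fun x => by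
    rw [abs_of_nonneg (hB x).1]; exact (hB x).2
  have hpt : ∀ x, f x * (Real.log (2 * Z) + 1) - A.indicator (fun _ => 2 * Z) x ≤ nlog (f x) := by
    intro x
    by_cases hx : f x = 0
    · simp [A, hx, nlog]
    · rw [Set.indicator_of_mem (show x ∈ A from hx)]
      have := breg_nonneg (hB x).1 (show 0 < 2 * Z by linarith)
      unfold breg at this
      linarith
  have h := integral_mono (μ := μ) ((hi.mul_const _).sub ((integrable_const _).indicator hA))
    (integrable_nlog hf hB) hpt
  simp only [Pi.sub_apply] at h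
  rw [integral_sub (hi.mul_const _) ((integrable_const _).indicator hA), integral_mul_const,
    integral_indicator hA, setIntegral_const, smul_eq_mul] at h
  have hμ : μ.real A ≤ 1 / 2 := ENNReal.toReal_le_of_le_ofReal (by norm_num) hsupp
  have := mul_le_mul_of_nonneg_right hμ (by linarith : 0 ≤ 2 * Z)
  rw [Real.log_mul two_ne_zero hZ.ne'] at h
  unfold entro
  rw [← hZdef] at h ⊢
  unfold nlog at h ⊢
  linarith

/-- Shifting the function by a constant costs little entropy. -/
lemma entro_shift {f : α → ℝ} (hf : Measurable f) {B : ℝ} (hB : ∀ x, |f x| ≤ B) (m : ℝ) :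
    entro μ (fun x => f x ^ 2) ≤ 4 * entro μ (fun x => (f x - m) ^ 2)
      + 20 * ∫ x, (f x - m) ^ 2 ∂μ := by
  set s := ∫ x, (f x - m) ^ 2 ∂μ with hs
  have hum : Measurable fun x => (f x - m) ^ 2 := (hf.sub_const m).pow_const 2
  have hub : ∀ x, (f x - m) ^ 2 ∈ Set.Icc 0 ((B + |m|) ^ 2) := fun x => by
    refine ⟨sq_nonneg _, ?_⟩
    rw [← sq_abs]
    exact pow_le_pow_left₀ (abs_nonneg _) ((abs_sub _ _).trans (by linarith [hB x])) 2
  have hfb : ∀ x, f x ^ 2 ∈ Set.Icc 0 (B ^ 2) := fun x => ⟨sq_nonneg _, by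
    rw [← sq_abs]; exact pow_le_pow_left₀ (abs_nonneg _) (hB x) 2⟩
  have hui : Integrable (fun x => (f x - m) ^ 2) μ := integrable_bdd' hum fun x => by
    rw [abs_of_nonneg (hub x).1]; exact (hub x).2
  rcases (integral_nonneg fun x => sq_nonneg (f x - m) : 0 ≤ s).eq_or_lt with h0 | h0
  · have hz := (integral_eq_zero_iff_of_nonneg (fun x => sq_nonneg (f x - m)) hui).1 h0.symm
    have hm : (fun x => f x ^ 2) =ᵐ[μ] fun _ => m ^ 2 := hz.mono fun x hx => by
      have : f x = m := by
        have : (f x - m) ^ 2 = 0 := hx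
        rw [sq_eq_zero_iff] at this; linarith
      show f x ^ 2 = m ^ 2
      rw [this]
    have e1 : entro μ (fun x => f x ^ 2) = 0 := by
      unfold entro
      rw [integral_congr_ae hm, integral_congr_ae (hm.mono fun x hx => congrArg nlog hx)]
      simp
    have e2 : entro μ (fun x => (f x - m) ^ 2) = 0 := by
      unfold entro
      rw [integral_congr_ae hz, integral_congr_ae (hz.mono fun x hx => congrArg nlog hx)]
      simp [nlog]
    rw [e1, e2]; linarith
  refine (entro_le_breg (hf.pow_const 2) hfb (c := m ^ 2 + s) (by positivity)).trans ?_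
  have hi1 : Integrable (fun x => breg ((f x - m) ^ 2) s) μ := by
    simp only [breg]
    exact (((integrable_nlog hum hub).sub (hui.mul_const _)).sub hui).add (integrable_const s)
  have hf2 : Integrable (fun x => f x ^ 2) μ := integrable_bdd' (hf.pow_const 2) fun x => by
    rw [abs_of_nonneg (hfb x).1]; exact (hfb x).2
  have hi2 : Integrable (fun x => breg (f x ^ 2) (m ^ 2 + s)) μ := by
    simp only [breg]
    exact (((integrable_nlog (hf.pow_const 2) hfb).sub (hf2.mul_const _)).sub hf2).add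
      (integrable_const _)
  have i4 : Integrable (fun x => 4 * breg ((f x - m) ^ 2) s + 18 * (f x - m) ^ 2) μ :=
    (hi1.const_mul 4).add (hui.const_mul 18)
  have h := integral_mono (μ := μ) hi2 (i4.add (integrable_const (2 * s))) fun x => by
    have := breg_shift m (f x - m) s h0
    rw [add_sub_cancel] at this
    exact this
  refine h.trans (le_of_eq ?_)
  simp only [Pi.add_apply]
  rw [integral_add i4 (integrable_const _), integral_add (hi1.const_mul 4) (hui.const_mul 18),
    integral_const_mul, integral_const_mul, integral_breg hum hub, integral_const, probReal_univ,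
    one_smul, ← hs]
  simp only [entro, nlog, ← hs]
  ring

lemma entro_add_le {f g : α → ℝ} (hf : Measurable f) (hg : Measurable g) {B : ℝ}
    (hB : ∀ x, f x ∈ Set.Icc 0 B) (hB' : ∀ x, g x ∈ Set.Icc 0 B) (hdisj : ∀ x, f x = 0 ∨ g x = 0) :
    entro μ (fun x => f x + g x) ≤ entro μ f + entro μ g := by
  have e : ∀ x, nlog (f x + g x) = nlog (f x) + nlog (g x) := fun x => by
    rcases hdisj x with h | h <;> simp [h, nlog]
  have hi : Integrable f μ := integrable_bdd' hf fun x => by
    rw [abs_of_nonneg (hB x).1]; exact (hB x).2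
  have hj : Integrable g μ := integrable_bdd' hg fun x => by
    rw [abs_of_nonneg (hB' x).1]; exact (hB' x).2
  unfold entro
  rw [funext e, integral_add (integrable_nlog hf hB) (integrable_nlog hg hB'), integral_add hi hj]
  set a := ∫ x, f x ∂μ
  set b := ∫ x, g x ∂μ
  have ha : 0 ≤ a := integral_nonneg fun x => (hB x).1
  have hb : 0 ≤ b := integral_nonneg fun x => (hB' x).1
  have hmono : ∀ u v : ℝ, 0 ≤ u → 0 ≤ v → u * Real.log u ≤ u * Real.log (u + v) := by
    intro u v hu hv
    rcases hu.eq_or_lt with rfl | hu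
    · simp
    · exact mul_le_mul_of_nonneg_left (Real.log_le_log hu (by linarith)) hu.le
  have h1 := hmono a b ha hb
  have h2 := hmono b a hb ha
  rw [add_comm b a] at h2
  simp only [nlog]
  nlinarith

lemma exists_median {f : α → ℝ} (hf : Measurable f) {B : ℝ} (hB : ∀ x, |f x| ≤ B) :
    ∃ m, |m| ≤ B ∧ μ {x | m < f x} ≤ ENNReal.ofReal (1 / 2)
      ∧ μ {x | f x < m} ≤ ENNReal.ofReal (1 / 2) := by
  set h : ENNReal := ENNReal.ofReal (1 / 2)
  set S := {t : ℝ | μ {x | t < f x} ≤ h}
  have hBS : B ∈ S := by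
    have : {x | B < f x} = ∅ := by
      ext x
      simp only [Set.mem_ofPred_eq, Set.mem_empty_iff_false, iff_false, not_lt]
      linarith [(abs_le.1 (hB x)).2]
    show μ {x | B < f x} ≤ h
    simp [this]
  have hlow : ∀ t ∈ S, -B ≤ t := by
    intro t ht
    by_contra hlt
    push Not at hlt
    have : {x | t < f x} = Set.univ := by
      ext x
      simp only [Set.mem_ofPred_eq, Set.mem_univ, iff_true]
      linarith [(abs_le.1 (hB x)).1]
    change μ {x | t < f x} ≤ h at ht
    rw [this, measure_univ, ENNReal.one_le_ofReal] at ht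
    norm_num at ht
  set m := sInf S
  have hbdd : BddBelow S := ⟨-B, hlow⟩
  have hmB : |m| ≤ B := abs_le.2 ⟨le_csInf ⟨B, hBS⟩ hlow, csInf_le hbdd hBS⟩
  refine ⟨m, hmB, ?_, ?_⟩
  · have hU : {x | m < f x} = ⋃ k : ℕ, {x | m + 1 / ((k:ℝ) + 1) < f x} := by
      ext x
      simp only [Set.mem_ofPred_eq, Set.mem_iUnion]
      constructor
      · intro hx
        obtain ⟨k, hk⟩ := exists_nat_one_div_lt (sub_pos.2 hx)
        exact ⟨k, by linarith⟩
      · rintro ⟨k, hk⟩
        have : (0:ℝ) < 1 / ((k:ℝ) + 1) := by positivity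
        linarith
    have hmono : Monotone fun k : ℕ => {x | m + 1 / ((k:ℝ) + 1) < f x} := by
      intro k l hkl x hx
      have : 1 / ((l:ℝ) + 1) ≤ 1 / ((k:ℝ) + 1) := Nat.one_div_le_one_div hkl
      simp only [Set.mem_ofPred_eq] at hx ⊢
      linarith
    rw [hU, hmono.measure_iUnion]
    refine iSup_le fun k => ?_
    obtain ⟨t, htS, ht⟩ := exists_lt_of_csInf_lt ⟨B, hBS⟩
      (show m < m + 1 / ((k:ℝ) + 1) by linarith [show (0:ℝ) < 1 / ((k:ℝ) + 1) by positivity])
    refine le_trans (measure_mono fun x hx => ?_) htS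
    simp only [Set.mem_ofPred_eq] at hx ⊢
    linarith
  · have hU : {x | f x < m} = ⋃ k : ℕ, {x | f x ≤ m - 1 / ((k:ℝ) + 1)} := by
      ext x
      simp only [Set.mem_ofPred_eq, Set.mem_iUnion]
      constructor
      · intro hx
        obtain ⟨k, hk⟩ := exists_nat_one_div_lt (sub_pos.2 hx)
        exact ⟨k, by linarith⟩
      · rintro ⟨k, hk⟩
        have : (0:ℝ) < 1 / ((k:ℝ) + 1) := by positivity
        linarith
    have hmono : Monotone fun k : ℕ => {x | f x ≤ m - 1 / ((k:ℝ) + 1)} := by
      intro k l hkl x hx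
      have : 1 / ((l:ℝ) + 1) ≤ 1 / ((k:ℝ) + 1) := Nat.one_div_le_one_div hkl
      simp only [Set.mem_ofPred_eq] at hx ⊢
      linarith
    rw [hU, hmono.measure_iUnion]
    refine iSup_le fun k => ?_
    set t := m - 1 / ((k:ℝ) + 1)
    have htS : t ∉ S := fun ht => by
      have := csInf_le hbdd ht
      linarith [show (0:ℝ) < 1 / ((k:ℝ) + 1) by positivity]
    have hlt : h < μ {x | t < f x} := not_le.1 htS
    have hc : {x | f x ≤ t} = {x | t < f x}ᶜ := by ext x; simp
    rw [hc, prob_compl_eq_one_sub (measurableSet_lt measurable_const hf)]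
    have h2 : (1:ENNReal) = h + h := by
      rw [← ENNReal.ofReal_add (by norm_num) (by norm_num)]; norm_num
    calc 1 - μ {x | t < f x} ≤ 1 - h := tsub_le_tsub_left hlt.le 1
      _ = h := by rw [h2, ENNReal.add_sub_cancel_right (by simp [h])]

end

/-- Smooth positive part. -/
noncomputable def softPos (ε t : ℝ) : ℝ := Real.sqrt (max t 0 ^ 2 + ε ^ 2) - ε

lemma hasDerivAt_maxSq (t : ℝ) : HasDerivAt (fun s : ℝ => max s 0 ^ 2) (2 * max t 0) t := by
  rcases lt_trichotomy t 0 with h | h | h
  · rw [max_eq_right h.le, mul_zero]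
    refine (hasDerivAt_const t (0:ℝ)).congr_of_eventuallyEq ?_
    filter_upwards [eventually_lt_nhds h] with s hs
    simp [max_eq_right hs.le]
  · subst h
    simp only [max_self, mul_zero]
    rw [hasDerivAt_iff_tendsto_slope]
    refine squeeze_zero_norm (a := fun s => |s|) (fun s => ?_) ?_
    · rw [slope_def_field, Real.norm_eq_abs]
      simp only [max_self, ne_eq, OfNat.ofNat_ne_zero, not_false_eq_true, zero_pow, sub_zero]
      rcases le_or_gt s 0 with hs | hs
      · simp [max_eq_right hs]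
      · rw [max_eq_left hs.le, sq, mul_div_assoc, div_self hs.ne', mul_one]
    · exact (continuous_abs.tendsto' 0 0 abs_zero).mono_left nhdsWithin_le_nhds
  · rw [max_eq_left h.le]
    refine ((hasDerivAt_pow 2 t).congr_of_eventuallyEq ?_).congr_deriv (by simp)
    filter_upwards [eventually_gt_nhds h] with s hs
    simp [max_eq_left hs.le]

lemma hasDerivAt_softPos {ε : ℝ} (hε : 0 < ε) (t : ℝ) :
    HasDerivAt (softPos ε) (max t 0 / Real.sqrt (max t 0 ^ 2 + ε ^ 2)) t := by
  have := (((hasDerivAt_maxSq t).add_const (ε ^ 2)).sqrt (by positivity)).sub_const ε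
  refine this.congr_deriv ?_
  field_simp

lemma softPos_nonneg {ε : ℝ} (_hε : 0 ≤ ε) (t : ℝ) : 0 ≤ softPos ε t := by
  unfold softPos
  have := Real.le_sqrt_of_sq_le (show ε ^ 2 ≤ max t 0 ^ 2 + ε ^ 2 by nlinarith [sq_nonneg (max t 0)])
  linarith

lemma softPos_le {ε : ℝ} (hε : 0 ≤ ε) (t : ℝ) : softPos ε t ≤ max t 0 := by
  unfold softPos
  have h := le_max_right t 0
  have : Real.sqrt (max t 0 ^ 2 + ε ^ 2) ≤ max t 0 + ε :=
    Real.sqrt_le_iff.2 ⟨by linarith, by nlinarith⟩
  linarith

namespace Test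

variable {n : ℕ} (U : Pot n) (T : Test n)

lemma exists_sq_bound : ∃ B, ∀ x, T.g x ^ 2 ∈ Set.Icc 0 B := by
  obtain ⟨B, hB⟩ := T.bdd
  exact ⟨B ^ 2, fun x => ⟨sq_nonneg _, by
    rw [← sq_abs]; exact pow_le_pow_left₀ (abs_nonneg _) (hB x).1 2⟩⟩

/-- The smooth positive part of `± (g - m)`. -/
noncomputable def clip {ε : ℝ} (hε : 0 < ε) (σ m : ℝ) : Test n where
  g x := softPos ε (σ * (T.g x - m))
  Dg i x := max (σ * (T.g x - m)) 0 / Real.sqrt (max (σ * (T.g x - m)) 0 ^ 2 + ε ^ 2) * (σ * T.Dg i x)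
  cont := by have := T.cont; unfold softPos; fun_prop
  meas i := by have := T.meas i; have := T.cont.measurable; fun_prop
  deriv i x := by
    have h1 := ((T.deriv i x).sub_const m).const_mul σ
    have h2 := (hasDerivAt_softPos hε (σ * (T.g (update x i (x i)) - m))).comp (x i) h1
    simp only [update_eq_self] at h2
    exact h2
  bdd := by
    obtain ⟨B, hB⟩ := T.bdd
    refine ⟨|σ| * (B + |m|), fun x => ?_⟩
    have h0 : |σ * (T.g x - m)| ≤ |σ| * (B + |m|) := by
      rw [abs_mul]
      exact mul_le_mul_of_nonneg_left ((abs_sub _ _).trans (by linarith [(hB x).1])) (abs_nonneg σ)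
    refine ⟨?_, fun i => ?_⟩
    · rw [abs_of_nonneg (softPos_nonneg hε.le _)]
      exact (softPos_le hε.le _).trans ((max_le (le_abs_self _) (abs_nonneg _)).trans h0)
    · set a := max (σ * (T.g x - m)) 0
      have ha : 0 ≤ a := le_max_right _ _
      have hs : 0 < Real.sqrt (a ^ 2 + ε ^ 2) := Real.sqrt_pos.2 (by positivity)
      have h1 : |a / Real.sqrt (a ^ 2 + ε ^ 2)| ≤ 1 := by
        rw [abs_of_nonneg (by positivity), div_le_one hs]
        exact Real.le_sqrt_of_sq_le (by nlinarith)
      rw [abs_mul, abs_mul σ]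
      refine (mul_le_mul_of_nonneg_right h1 (by positivity)).trans ?_
      rw [one_mul]
      exact mul_le_mul_of_nonneg_left (((hB x).2 i).trans (le_add_of_nonneg_right (abs_nonneg m)))
        (abs_nonneg σ)

lemma clip_energy_le {ε : ℝ} (hε : 0 < ε) {σ : ℝ} (hσ : |σ| = 1) (m : ℝ) :
    (T.clip hε σ m).energy U ≤ T.energy U := by
  have hi : ∀ T' : Test n, Integrable (fun x => ∑ i, T'.Dg i x ^ 2) U.dens.meas := fun T' => by
    obtain ⟨B, hB⟩ := T'.bdd
    refine integrable_finsetSum _ fun i _ => U.integrable_bdd ((T'.meas i).pow_const 2) (B := B ^ 2)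
      fun x => ?_
    rw [abs_pow]; exact pow_le_pow_left₀ (abs_nonneg _) ((hB x).2 i) 2
  refine integral_mono (hi _) (hi _) fun x => Finset.sum_le_sum fun i _ => ?_
  set a := max (σ * (T.g x - m)) 0
  show (a / Real.sqrt (a ^ 2 + ε ^ 2) * (σ * T.Dg i x)) ^ 2 ≤ _
  have hs : σ ^ 2 = 1 := by rw [← sq_abs, hσ, one_pow]
  rw [mul_pow, mul_pow, hs, one_mul, div_pow, Real.sq_sqrt (by positivity)]
  refine mul_le_of_le_one_left (sq_nonneg _) ?_
  rw [div_le_one (by positivity)]
  nlinarith

/-- The inequality for functions supported on at most half of the space, and its consequences. -/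
structure Good (U : Pot n) (tau : ℝ) : Prop where
  base : ∀ (T : Test n) (δ : ℝ), 0 < δ →
    ∫ x, (T.g x ^ 2 + δ) * Real.log (T.ratio U δ x) ∂U.dens.meas ≤
      4 * tau * T.energy U + (T.mass U + δ) / 100
  nonneg : 0 ≤ tau

variable {U}

lemma defective {tau : ℝ} (hU : Good U tau) :
    entro U.dens.meas (fun x => T.g x ^ 2) ≤ 4 * tau * T.energy U + T.mass U / 100 := by
  obtain ⟨B, hB⟩ := T.exists_sq_bound
  set d : ℕ → ℝ := fun k => 1 / ((k:ℝ) + 1)
  have hd : ∀ k, 0 < d k := fun k => by positivity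
  have hd1 : ∀ k, d k ≤ 1 := fun k => by
    rw [div_le_one (by positivity)]; linarith [(Nat.cast_nonneg k : (0:ℝ) ≤ k)]
  have hdt : Tendsto d atTop (𝓝 0) := tendsto_one_div_add_atTop_nhds_zero_nat
  have hlim := tendsto_integral_nlog (μ := U.dens.meas) (f := fun k x => T.g x ^ 2 + d k)
    (g := fun x => T.g x ^ 2) (B := B + 1) (fun k => (T.cont.measurable.pow_const 2).add_const _)
    (fun k x => ⟨add_nonneg (hB x).1 (hd k).le, add_le_add (hB x).2 (hd1 k)⟩)
    (fun x => by simpa using hdt.const_add (T.g x ^ 2))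
  have hle : ∀ k, entro U.dens.meas (fun x => T.g x ^ 2 + d k)
      ≤ 4 * tau * T.energy U + (T.mass U + d k) / 100 := by
    intro k
    refine le_trans (le_of_eq ?_) (hU.base T (d k) (hd k))
    have hm : 0 < T.mass U + d k := by linarith [T.mass_nonneg U, hd k]
    have hi : Integrable (fun x => T.g x ^ 2 + d k) U.dens.meas :=
      (T.integrable_sq U).add (integrable_const _)
    have e : (fun x => (T.g x ^ 2 + d k) * Real.log (T.ratio U (d k) x)) = fun x =>
        nlog (T.g x ^ 2 + d k) - (T.g x ^ 2 + d k) * Real.log (T.mass U + d k) := by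
      funext x
      have : 0 < T.g x ^ 2 + d k := by have := hd k; positivity
      rw [Test.ratio, Real.log_div this.ne' hm.ne', nlog]; ring
    rw [e, integral_sub (integrable_nlog ((T.cont.measurable.pow_const 2).add_const _)
      (B := B + 1) fun x => ⟨add_nonneg (hB x).1 (hd k).le, add_le_add (hB x).2 (hd1 k)⟩)
      (hi.mul_const _), integral_mul_const, integral_add (T.integrable_sq U) (integrable_const _)]
    simp only [entro, integral_const, probReal_univ, one_smul, nlog, Test.mass]
    rw [integral_add (T.integrable_sq U) (integrable_const _)]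
    simp
  refine le_of_tendsto_of_tendsto' hlim ?_ hle
  simpa using ((hdt.const_add (T.mass U)).div_const 100).const_add (4 * tau * T.energy U)

lemma half_support {tau : ℝ} (hU : Good U tau)
    (hsupp : U.dens.meas {x | T.g x ≠ 0} ≤ ENNReal.ofReal (1 / 2)) :
    entro U.dens.meas (fun x => T.g x ^ 2) ≤ 5 * (tau * T.energy U)
      ∧ T.mass U ≤ 7 * (tau * T.energy U) := by
  obtain ⟨B, hB⟩ := T.exists_sq_bound
  have h1 := log_two_mul_le_entro (μ := U.dens.meas) (T.cont.measurable.pow_const 2) hB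
    (le_trans (measure_mono fun x hx => by simpa using hx) hsupp)
  have h2 := T.defective hU
  have h3 := Real.log_two_gt_d9
  have h4 := T.mass_nonneg U
  have h5 : 0 ≤ tau * T.energy U := mul_nonneg hU.nonneg (T.energy_nonneg U)
  change Real.log 2 * T.mass U ≤ _ at h1
  constructor <;> nlinarith

lemma side {tau : ℝ} (hU : Good U tau) {σ : ℝ} (hσ : |σ| = 1) (m : ℝ)
    (hhalf : U.dens.meas {x | 0 < σ * (T.g x - m)} ≤ ENNReal.ofReal (1 / 2)) :
    entro U.dens.meas (fun x => max (σ * (T.g x - m)) 0 ^ 2) ≤ 5 * (tau * T.energy U)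
      ∧ ∫ x, max (σ * (T.g x - m)) 0 ^ 2 ∂U.dens.meas ≤ 7 * (tau * T.energy U) := by
  obtain ⟨B, hB⟩ := T.bdd
  set u := fun x => max (σ * (T.g x - m)) 0
  set eps : ℕ → ℝ := fun k => 1 / ((k:ℝ) + 1)
  have he : ∀ k, 0 < eps k := fun k => by positivity
  have hub : ∀ x, u x ≤ B + |m| := fun x => max_le (by
    calc σ * (T.g x - m) ≤ |σ * (T.g x - m)| := le_abs_self _
      _ ≤ _ := by rw [abs_mul, hσ, one_mul]; exact (abs_sub _ _).trans (by linarith [(hB x).1]))
    (by linarith [abs_nonneg (T.g x), (hB x).1, abs_nonneg m])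
  set f := fun (k : ℕ) x => softPos (eps k) (σ * (T.g x - m)) ^ 2
  have hfb : ∀ k x, f k x ∈ Set.Icc 0 ((B + |m|) ^ 2) := fun k x =>
    ⟨sq_nonneg _, pow_le_pow_left₀ (softPos_nonneg (he k).le _)
      ((softPos_le (he k).le _).trans (hub x)) 2⟩
  have hfm : ∀ k, Measurable (f k) := fun k => ((T.clip (he k) σ m).cont.measurable.pow_const 2)
  have hlimx : ∀ x, Tendsto (fun k => f k x) atTop (𝓝 (u x ^ 2)) := fun x => by
    have h := ((by unfold softPos; fun_prop : Continuous fun e : ℝ =>
      softPos e (σ * (T.g x - m)) ^ 2).tendsto 0).comp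
      (tendsto_one_div_add_atTop_nhds_zero_nat (𝕜 := ℝ))
    simpa [softPos, Real.sqrt_sq (le_max_right _ _), u, f, eps, comp_def] using h
  have hk : ∀ k, entro U.dens.meas (f k) ≤ 5 * (tau * T.energy U)
      ∧ ∫ x, f k x ∂U.dens.meas ≤ 7 * (tau * T.energy U) := by
    intro k
    have h := (T.clip (he k) σ m).half_support hU (le_trans (measure_mono fun x hx => ?_) hhalf)
    · have hE := mul_le_mul_of_nonneg_left (T.clip_energy_le U (he k) hσ m) hU.nonneg
      exact ⟨h.1.trans (by linarith), le_trans h.2 (by linarith)⟩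
    · simp only [Set.mem_ofPred_eq] at hx ⊢
      by_contra hle
      push Not at hle
      apply hx
      show softPos (eps k) (σ * (T.g x - m)) = 0
      simp [softPos, max_eq_right hle, Real.sqrt_sq (he k).le]
  constructor
  · exact le_of_tendsto' (tendsto_integral_nlog hfm hfb hlimx) fun k => (hk k).1
  · refine le_of_tendsto' (tendsto_integral_of_dominated_convergence (fun _ => (B + |m|) ^ 2)
      (fun k => (hfm k).aestronglyMeasurable) (integrable_const _)
      (fun k => Eventually.of_forall fun x => by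
        rw [Real.norm_eq_abs, abs_of_nonneg (hfb k x).1]; exact (hfb k x).2)
      (Eventually.of_forall hlimx)) fun k => (hk k).2

/-- The logarithmic Sobolev inequality for a good potential. -/
theorem logSobolev {tau : ℝ} (hU : Good U tau) :
    entro U.dens.meas (fun x => T.g x ^ 2) ≤ 320 * tau * T.energy U := by
  obtain ⟨B, hB⟩ := T.bdd
  have hgm := T.cont.measurable
  obtain ⟨m, -, hup, hdown⟩ := exists_median (μ := U.dens.meas) hgm (fun x => (hB x).1)
  have hp := T.side hU (σ := 1) (by norm_num) m (by simpa using hup)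
  have hn := T.side hU (σ := -1) (by norm_num) m (by simpa using hdown)
  set p := fun x => max (1 * (T.g x - m)) 0 ^ 2
  set q := fun x => max (-1 * (T.g x - m)) 0 ^ 2
  have hsum : ∀ x, (T.g x - m) ^ 2 = p x + q x := fun x => by
    simp only [p, q]
    rcases le_total 0 (T.g x - m) with h | h
    · rw [one_mul, max_eq_left h, max_eq_right (by linarith)]; ring
    · rw [one_mul, max_eq_right h, max_eq_left (by linarith)]; ring
  have hbd : ∀ (σ : ℝ), |σ| = 1 → ∀ x, max (σ * (T.g x - m)) 0 ^ 2 ∈ Set.Icc 0 ((B + |m|) ^ 2) :=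
    fun σ hσ x => ⟨sq_nonneg _, pow_le_pow_left₀ (le_max_right _ _) (max_le (by
      calc σ * (T.g x - m) ≤ |σ * (T.g x - m)| := le_abs_self _
        _ ≤ _ := by rw [abs_mul, hσ, one_mul]; exact (abs_sub _ _).trans (by linarith [(hB x).1]))
      (by linarith [abs_nonneg (T.g x), (hB x).1, abs_nonneg m])) 2⟩
  have hpm : Measurable p := by fun_prop
  have hqm : Measurable q := by fun_prop
  have hadd := entro_add_le (μ := U.dens.meas) hpm hqm (hbd 1 (by norm_num)) (hbd (-1) (by norm_num))
    (fun x => by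
      simp only [p, q]
      rcases le_total 0 (T.g x - m) with h | h
      · right; rw [max_eq_right (by linarith)]; norm_num
      · left; rw [max_eq_right (by linarith)]; norm_num)
  have hsh := entro_shift (μ := U.dens.meas) hgm (fun x => (hB x).1) m
  simp only [hsum] at hsh
  rw [integral_add (integrable_bdd' hpm fun x => by
      rw [abs_of_nonneg (sq_nonneg _)]; exact (hbd 1 (by norm_num) x).2)
    (integrable_bdd' hqm fun x => by
      rw [abs_of_nonneg (sq_nonneg _)]; exact (hbd (-1) (by norm_num) x).2)] at hsh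
  linarith [hp.1, hp.2, hn.1, hn.2]

end Test

end Vale.Agent.P245
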