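import Mathlib
import Vale.Agent.P245.Moments

/-!
Quadratic envelopes of the potential of a log-concave density.
-/

namespace Vale.Agent.P245

open MeasureTheory Set Filter Topology Function Finset

variable {n : ℕ}

/-- A log-concave function. -/
def LogConcaveFun (ρ : (Fin n → ℝ) → ℝ) : Prop :=
  ∀ x y : Fin n → ℝ, ∀ s : ℝ, 0 < s → s < 1 →
    ρ x ^ (1 - s) * ρ y ^ s ≤ ρ ((1 - s) • x + s • y)

/-- The potential of a density. -/
noncomputable def negLog (ρ : (Fin n → ℝ) → ℝ) (x : Fin n → ℝ) : ℝ := -Real.log (ρ x)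

/-- The closed box of half-width `r`. -/
def box (n : ℕ) (r : ℝ) : Set (Fin n → ℝ) := {x | ∀ i, |x i| ≤ r}

lemma convex_box (r : ℝ) : Convex ℝ (box n r) := by
  intro x hx y hy a b ha hb hab i
  show |a * x i + b * y i| ≤ r
  calc |a * x i + b * y i| ≤ a * |x i| + b * |y i| := (abs_add_le _ _).trans (by
        rw [abs_mul, abs_mul, abs_of_nonneg ha, abs_of_nonneg hb])
    _ ≤ a * r + b * r := add_le_add (mul_le_mul_of_nonneg_left (hx i) ha) (mul_le_mul_of_nonneg_left (hy i) hb)
    _ = r := by rw [← add_mul, hab, one_mul]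

lemma isClosed_box (r : ℝ) : IsClosed (box n r) := by
  simp only [box, Set.ofPred_forall]
  exact isClosed_iInter fun i => isClosed_le (by fun_prop) continuous_const

/-- The support of the density inside the box. -/
def suppBox (ρ : (Fin n → ℝ) → ℝ) (r : ℝ) : Set (Fin n → ℝ) := {x | 0 < ρ x} ∩ box n r

/-- The density is invariant under the sign change of each coordinate in `S`. -/
def FlipInv (ρ : (Fin n → ℝ) → ℝ) (S : Finset (Fin n)) : Prop :=
  ∀ i ∈ S, ∀ x, ρ (update x i (-x i)) = ρ x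

/-- The quadratic envelope of the potential on the box. -/
noncomputable def env (ρ : (Fin n → ℝ) → ℝ) (r N : ℝ) (x : Fin n → ℝ) : ℝ :=
  sInf ((fun y => negLog ρ y + N / 2 * sumSq (x - y)) '' suppBox ρ r)

namespace LogConcaveFun

variable {ρ : (Fin n → ℝ) → ℝ}

lemma convex_pos (h : LogConcaveFun ρ) : Convex ℝ {x | 0 < ρ x} := by
  intro x hx y hy a b ha hb hab
  rcases hb.eq_or_lt with rfl | hb
  · simp only [zero_smul, add_zero] at hab ⊢
    rw [hab, one_smul]; exact hx
  rcases ha.eq_or_lt with rfl | ha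
  · simp only [zero_smul, zero_add] at hab ⊢
    rw [hab, one_smul]; exact hy
  obtain rfl : a = 1 - b := by linarith
  exact lt_of_lt_of_le (mul_pos (Real.rpow_pos_of_pos hx _) (Real.rpow_pos_of_pos hy _))
    (h x y b hb (by linarith))

lemma convexOn_negLog (h : LogConcaveFun ρ) : ConvexOn ℝ {x | 0 < ρ x} (negLog ρ) := by
  refine ⟨h.convex_pos, fun x hx y hy a b ha hb hab => ?_⟩
  rcases hb.eq_or_lt with rfl | hb
  · simp only [zero_smul, add_zero] at hab ⊢
    rw [hab]; simp
  rcases ha.eq_or_lt with rfl | ha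
  · simp only [zero_smul, zero_add] at hab ⊢
    rw [hab]; simp
  obtain rfl : a = 1 - b := by linarith
  have hx' : 0 < ρ x := hx
  have hy' : 0 < ρ y := hy
  have := Real.log_le_log (by positivity) (h x y b hb (by linarith))
  rw [Real.log_mul (Real.rpow_pos_of_pos hx' _).ne' (Real.rpow_pos_of_pos hy' _).ne',
    Real.log_rpow hx', Real.log_rpow hy'] at this
  simp only [negLog, smul_eq_mul]
  linarith

lemma convex_suppBox (h : LogConcaveFun ρ) (r : ℝ) : Convex ℝ (suppBox ρ r) :=
  h.convex_pos.inter (convex_box r)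

lemma interior_nonempty (h : LogConcaveFun ρ) (h0 : ∀ x, 0 ≤ ρ x) (h1 : ∫ x, ρ x = 1) :
    (interior {x | 0 < ρ x}).Nonempty := by
  rw [Set.nonempty_iff_ne_empty]
  intro he
  have hnull : volume {x | 0 < ρ x} = 0 := by
    refine le_antisymm (le_trans (measure_mono subset_closure) ?_) zero_le
    rw [closure_eq_interior_union_frontier, he, Set.empty_union, h.convex_pos.addHaar_frontier volume]
  have hae : ∀ᵐ x, ρ x = 0 := by
    rw [ae_iff]
    refine measure_mono_null (fun x hx => ?_) hnull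
    exact lt_of_le_of_ne (h0 x) (Ne.symm hx)
  rw [integral_eq_zero_of_ae hae] at h1
  norm_num at h1

/-- Lower bound for the potential near an interior point. -/
lemma negLog_local (h : LogConcaveFun ρ) {x : Fin n → ℝ} (hx : x ∈ interior {z | 0 < ρ z}) :
    ∃ d : ℝ, 0 < d ∧ ∀ y ∈ {z | 0 < ρ z}, negLog ρ x - ‖y - x‖ / d ≤ negLog ρ y := by
  have hc := h.convexOn_negLog
  have hcont : ContinuousOn (negLog ρ) (interior {z | 0 < ρ z}) := hc.continuousOn_interior
  have hev := (hcont.continuousAt (isOpen_interior.mem_nhds hx)).eventually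
    (eventually_le_nhds (show negLog ρ x < negLog ρ x + 1 by linarith))
  obtain ⟨d, hd, hball⟩ := Metric.nhds_basis_closedBall.mem_iff.1
    (Filter.inter_mem hev (isOpen_interior.mem_nhds hx))
  refine ⟨d, hd, fun y hy => ?_⟩
  rcases (norm_nonneg (y - x)).eq_or_lt with h0 | h0
  · have : y = x := sub_eq_zero.1 (norm_eq_zero.1 h0.symm)
    subst this; simp
  set L := ‖y - x‖
  set z := x - (d / L) • (y - x) with hz
  have hzb : z ∈ Metric.closedBall x d := by
    rw [Metric.mem_closedBall, dist_eq_norm, hz, sub_sub_cancel_left, norm_neg, norm_smul,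
      Real.norm_eq_abs, abs_of_pos (by positivity), div_mul_cancel₀ _ h0.ne']
  obtain ⟨hz1, hz2⟩ := hball hzb
  change negLog ρ z ≤ negLog ρ x + 1 at hz1
  have hconv := hc.2 (interior_subset hz2) hy (show 0 ≤ L / (d + L) by positivity)
    (show 0 ≤ d / (d + L) by positivity) (by field_simp; ring)
  have hx_eq : (L / (d + L)) • z + (d / (d + L)) • y = x := by
    funext i
    simp only [hz, Pi.add_apply, Pi.smul_apply, Pi.sub_apply, smul_eq_mul]
    field_simp
    ring
  rw [hx_eq, smul_eq_mul, smul_eq_mul, div_mul_eq_mul_div, div_mul_eq_mul_div, ← add_div,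
    le_div_iff₀ (by linarith)] at hconv
  have : L * negLog ρ z ≤ L * (negLog ρ x + 1) := mul_le_mul_of_nonneg_left hz1 h0.le
  rw [sub_le_iff_le_add, ← sub_le_iff_le_add', le_div_iff₀ hd]
  linarith

lemma negLog_bddBelow (h : LogConcaveFun ρ) (h0 : ∀ x, 0 ≤ ρ x) (h1 : ∫ x, ρ x = 1) (r : ℝ) :
    ∃ m, ∀ y ∈ suppBox ρ r, m ≤ negLog ρ y := by
  obtain ⟨x0, hx0⟩ := h.interior_nonempty h0 h1
  obtain ⟨d, hd, hlo⟩ := h.negLog_local hx0
  refine ⟨negLog ρ x0 - (|r| + ‖x0‖) / d, fun y hy => le_trans ?_ (hlo y hy.1)⟩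
  have hy2 : ‖y‖ ≤ |r| := (pi_norm_le_iff_of_nonneg (abs_nonneg r)).2 fun i =>
    (hy.2 i).trans (le_abs_self r)
  have : ‖y - x0‖ ≤ |r| + ‖x0‖ := (norm_sub_le _ _).trans (by linarith)
  have := div_le_div_of_nonneg_right this hd.le
  linarith

lemma exists_suppBox (h : LogConcaveFun ρ) (h0 : ∀ x, 0 ≤ ρ x) (h1 : ∫ x, ρ x = 1) :
    ∃ r0 : ℝ, ∀ r, r0 ≤ r → (suppBox ρ r).Nonempty ∧ (interior (suppBox ρ r)).Nonempty := by
  obtain ⟨x0, hx0⟩ := h.interior_nonempty h0 h1
  refine ⟨‖x0‖ + 1, fun r hr => ?_⟩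
  have hx : x0 ∈ interior (suppBox ρ r) := by
    rw [suppBox, interior_inter]
    refine ⟨hx0, mem_interior_iff_mem_nhds.2 (Filter.mem_of_superset (Metric.closedBall_mem_nhds x0 one_pos)
      fun y hy i => ?_)⟩
    rw [Metric.mem_closedBall, dist_eq_norm] at hy
    have h2 : ‖y‖ ≤ r := by
      have := norm_le_norm_add_norm_sub x0 y
      rw [norm_sub_rev] at this
      linarith
    exact (norm_le_pi_norm y i).trans h2
  exact ⟨⟨x0, interior_subset hx⟩, ⟨x0, hx⟩⟩

end LogConcaveFun

/-- Standing hypotheses for the envelope. -/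
structure EnvData (ρ : (Fin n → ℝ) → ℝ) (r N : ℝ) : Prop where
  lc : LogConcaveFun ρ
  nonempty : (suppBox ρ r).Nonempty
  bdd : ∃ m, ∀ y ∈ suppBox ρ r, m ≤ negLog ρ y
  N_pos : 0 < N
  r_nonneg : 0 ≤ r

namespace EnvData

variable {ρ : (Fin n → ℝ) → ℝ} {r N : ℝ}

lemma env_le (h : EnvData ρ r N) (x : Fin n → ℝ) {y : Fin n → ℝ} (hy : y ∈ suppBox ρ r) :
    env ρ r N x ≤ negLog ρ y + N / 2 * sumSq (x - y) := by
  obtain ⟨m, hm⟩ := h.bdd
  refine csInf_le ⟨m, ?_⟩ ⟨y, hy, rfl⟩
  rintro _ ⟨z, hz, rfl⟩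
  have := mul_nonneg (show 0 ≤ N / 2 by linarith [h.N_pos]) (sumSq_nonneg (x - z))
  linarith [hm z hz]

lemma le_env (h : EnvData ρ r N) {x : Fin n → ℝ} {c : ℝ}
    (hc : ∀ y ∈ suppBox ρ r, c ≤ negLog ρ y + N / 2 * sumSq (x - y)) : c ≤ env ρ r N x := by
  refine le_csInf (h.nonempty.image _) ?_
  rintro _ ⟨z, hz, rfl⟩
  exact hc z hz

lemma near (h : EnvData ρ r N) (x : Fin n → ℝ) {ε : ℝ} (hε : 0 < ε) :
    ∃ y ∈ suppBox ρ r, negLog ρ y + N / 2 * sumSq (x - y) < env ρ r N x + ε := by
  by_contra hcon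
  push Not at hcon
  have := h.le_env hcon
  linarith

lemma convexOn_env (h : EnvData ρ r N) : ConvexOn ℝ univ (env ρ r N) := by
  refine ⟨convex_univ, fun x _ x' _ a b ha hb hab => le_of_forall_pos_le_add fun ε hε => ?_⟩
  obtain ⟨y, hy, hy'⟩ := h.near x hε
  obtain ⟨z, hz, hz'⟩ := h.near x' hε
  have hw := h.lc.convex_suppBox r hy hz ha hb hab
  refine (h.env_le (a • x + b • x') hw).trans ?_
  have h1 := h.lc.convexOn_negLog.2 hy.1 hz.1 ha hb hab
  have h2 : sumSq (a • x + b • x' - (a • y + b • z)) ≤ a * sumSq (x - y) + b * sumSq (x' - z) := by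
    simp only [sumSq, Finset.mul_sum, ← Finset.sum_add_distrib]
    refine Finset.sum_le_sum fun i _ => ?_
    have hc := (Even.convexOn_pow (show Even 2 by decide) (𝕜 := ℝ)).2 (Set.mem_univ ((x - y) i))
      (Set.mem_univ ((x' - z) i)) ha hb hab
    simp only [Pi.sub_apply, Pi.add_apply, Pi.smul_apply, smul_eq_mul] at hc ⊢
    refine le_trans (le_of_eq ?_) hc
    ring
  have hN := mul_le_mul_of_nonneg_left h2 (show 0 ≤ N / 2 by linarith [h.N_pos])
  simp only [smul_eq_mul] at h1 ⊢
  have h3 := mul_le_mul_of_nonneg_left hy'.le ha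
  have h4 := mul_le_mul_of_nonneg_left hz'.le hb
  have h5 : a * ε + b * ε = ε := by rw [← add_mul, hab, one_mul]
  linarith

lemma continuous_env (h : EnvData ρ r N) : Continuous (env ρ r N) :=
  continuousOn_univ.1 (h.convexOn_env.continuousOn isOpen_univ)

lemma sumSq_shift (x y : Fin n → ℝ) (i : Fin n) (t : ℝ) :
    sumSq (update x i (x i + t) - y) = sumSq (x - y) + 2 * t * (x i - y i) + t ^ 2 := by
  simp only [sumSq, Pi.sub_apply]
  rw [← Finset.add_sum_erase _ _ (Finset.mem_univ i), ← Finset.add_sum_erase Finset.univ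
    (fun j => (x j - y j) ^ 2) (Finset.mem_univ i), update_self]
  have : ∑ j ∈ Finset.univ.erase i, (update x i (x i + t) j - y j) ^ 2
      = ∑ j ∈ Finset.univ.erase i, (x j - y j) ^ 2 :=
    Finset.sum_congr rfl fun j hj => by rw [update_of_ne (Finset.ne_of_mem_erase hj)]
  rw [this]; ring

/-- One dimensional restriction of the envelope. -/
noncomputable def lineEnv (ρ : (Fin n → ℝ) → ℝ) (r N : ℝ) (x : Fin n → ℝ) (i : Fin n) (t : ℝ) : ℝ :=
  env ρ r N (update x i (x i + t)) - env ρ r N x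

lemma second_diff (h : EnvData ρ r N) (x : Fin n → ℝ) (i : Fin n) (t : ℝ) :
    lineEnv ρ r N x i t + lineEnv ρ r N x i (-t) ≤ N * t ^ 2 := by
  refine le_of_forall_pos_le_add fun ε hε => ?_
  obtain ⟨y, hy, hy'⟩ := h.near x (half_pos hε)
  have h1 := h.env_le (update x i (x i + t)) hy
  have h2 := h.env_le (update x i (x i + -t)) hy
  rw [sumSq_shift] at h1 h2
  unfold lineEnv
  linarith

lemma line_bound (h : EnvData ρ r N) (x : Fin n → ℝ) (i : Fin n) (t : ℝ) :
    lineEnv ρ r N x i t ≤ N * |t| * (|x i| + r) + N / 2 * t ^ 2 := by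
  refine le_of_forall_pos_le_add fun ε hε => ?_
  obtain ⟨y, hy, hy'⟩ := h.near x hε
  have h1 := h.env_le (update x i (x i + t)) hy
  rw [sumSq_shift] at h1
  have h2 : t * (x i - y i) ≤ |t| * (|x i| + r) := by
    refine (le_abs_self _).trans ?_
    rw [abs_mul]
    exact mul_le_mul_of_nonneg_left ((abs_sub _ _).trans (add_le_add le_rfl (hy.2 i))) (abs_nonneg t)
  have h3 := mul_le_mul_of_nonneg_left h2 h.N_pos.le
  unfold lineEnv
  linarith

lemma line_convex (h : EnvData ρ r N) (x : Fin n → ℝ) (i : Fin n) {s t : ℝ} (hs : 0 < s) (ht : 0 < t) :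
    0 ≤ t * lineEnv ρ r N x i (-s) + s * lineEnv ρ r N x i t := by
  have hst : 0 < s + t := by linarith
  have hc := h.convexOn_env.2 (Set.mem_univ (update x i (x i + -s))) (Set.mem_univ (update x i (x i + t)))
    (show 0 ≤ t / (s + t) by positivity) (show 0 ≤ s / (s + t) by positivity) (by field_simp; ring)
  have e : (t / (s + t)) • update x i (x i + -s) + (s / (s + t)) • update x i (x i + t) = x := by
    funext j
    rcases eq_or_ne j i with rfl | hj
    · simp only [Pi.add_apply, Pi.smul_apply, smul_eq_mul, update_self]; field_simp; ring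
    · simp only [Pi.add_apply, Pi.smul_apply, smul_eq_mul, update_of_ne hj]; field_simp; ring
  rw [e, smul_eq_mul, smul_eq_mul, div_mul_eq_mul_div, div_mul_eq_mul_div, ← add_div,
    le_div_iff₀ hst] at hc
  unfold lineEnv
  linarith

/-- Partial derivative of the envelope. -/
noncomputable def envGrad (ρ : (Fin n → ℝ) → ℝ) (r N : ℝ) (i : Fin n) (x : Fin n → ℝ) : ℝ :=
  sSup ((fun t => -lineEnv ρ r N x i (-t) / t) '' Set.Ioi 0)

lemma grad_between (h : EnvData ρ r N) (x : Fin n → ℝ) (i : Fin n) {t : ℝ} (ht : 0 < t) :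
    -lineEnv ρ r N x i (-t) / t ≤ envGrad ρ r N i x ∧
      envGrad ρ r N i x ≤ lineEnv ρ r N x i t / t := by
  have hub : ∀ {u : ℝ}, 0 < u → ∀ z ∈ (fun t => -lineEnv ρ r N x i (-t) / t) '' Set.Ioi 0,
      z ≤ lineEnv ρ r N x i u / u := by
    rintro u hu _ ⟨s, hs, rfl⟩
    have hs' : 0 < s := hs
    show -lineEnv ρ r N x i (-s) / s ≤ _
    rw [div_le_div_iff₀ hs' hu]
    linarith [h.line_convex x i hs' hu]
  refine ⟨le_csSup ⟨_, hub ht⟩ ⟨t, ht, rfl⟩, csSup_le ?_ (hub ht)⟩
  exact ⟨_, 1, show (0:ℝ) < 1 from one_pos, rfl⟩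

lemma grad_quad (h : EnvData ρ r N) (x : Fin n → ℝ) (i : Fin n) (t : ℝ) :
    |lineEnv ρ r N x i t - envGrad ρ r N i x * t| ≤ N * t ^ 2 := by
  rcases lt_trichotomy t 0 with ht | rfl | ht
  · obtain ⟨h1, h2⟩ := h.grad_between x i (neg_pos.2 ht)
    have h3 := h.second_diff x i t
    rw [neg_neg, div_le_iff₀ (neg_pos.2 ht)] at h1
    rw [le_div_iff₀ (neg_pos.2 ht)] at h2
    rw [abs_le]
    constructor <;> nlinarith [h.N_pos, sq_nonneg t]
  · simp [lineEnv]
  · obtain ⟨h1, h2⟩ := h.grad_between x i ht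
    have h3 := h.second_diff x i t
    rw [div_le_iff₀ ht] at h1
    rw [le_div_iff₀ ht] at h2
    rw [abs_le]
    constructor <;> nlinarith [h.N_pos, sq_nonneg t]

lemma env_hasDerivAt (h : EnvData ρ r N) (x : Fin n → ℝ) (i : Fin n) :
    HasDerivAt (fun u => env ρ r N (update x i u)) (envGrad ρ r N i x) (x i) := by
  rw [hasDerivAt_iff_tendsto_slope]
  rw [tendsto_iff_norm_sub_tendsto_zero]
  refine squeeze_zero' (Eventually.of_forall fun _ => norm_nonneg _) (g := fun u => N * |u - x i|)
    ?_ ?_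
  · filter_upwards [self_mem_nhdsWithin] with u hu
    replace hu : u ≠ x i := hu
    have hq := h.grad_quad x i (u - x i)
    rw [lineEnv, add_sub_cancel] at hq
    have hne : u - x i ≠ 0 := sub_ne_zero.2 hu
    rw [slope_def_field, update_eq_self, Real.norm_eq_abs,
      show (env ρ r N (update x i u) - env ρ r N x) / (u - x i) - envGrad ρ r N i x
        = (env ρ r N (update x i u) - env ρ r N x - envGrad ρ r N i x * (u - x i)) / (u - x i) by
        field_simp, abs_div, div_le_iff₀ (abs_pos.2 hne)]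
    calc _ ≤ N * (u - x i) ^ 2 := hq
      _ = _ := by rw [← sq_abs]; ring
  · refine tendsto_nhdsWithin_of_tendsto_nhds ?_
    exact Continuous.tendsto' (by fun_prop) _ _ (by simp)

lemma measurable_envGrad (h : EnvData ρ r N) (i : Fin n) : Measurable (envGrad ρ r N i) := by
  have hc := h.continuous_env
  refine measurable_of_tendsto_metrizable (f := fun (k : ℕ) x =>
    lineEnv ρ r N x i (1 / ((k:ℝ) + 1)) / (1 / ((k:ℝ) + 1))) (fun k => ?_) ?_
  · refine Continuous.measurable ?_
    unfold lineEnv; fun_prop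
  · rw [tendsto_pi_nhds]
    intro x
    rw [tendsto_iff_norm_sub_tendsto_zero]
    refine squeeze_zero (fun _ => norm_nonneg _) (g := fun k : ℕ => N * (1 / ((k:ℝ) + 1)))
      (fun k => ?_) ?_
    · set t := 1 / ((k:ℝ) + 1)
      have ht : 0 < t := by positivity
      have hq := h.grad_quad x i t
      rw [Real.norm_eq_abs, show lineEnv ρ r N x i t / t - envGrad ρ r N i x
        = (lineEnv ρ r N x i t - envGrad ρ r N i x * t) / t by field_simp, abs_div, abs_of_pos ht,
        div_le_iff₀ ht]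
      exact hq.trans (le_of_eq (by ring))
    · simpa using (tendsto_one_div_add_atTop_nhds_zero_nat (𝕜 := ℝ)).const_mul N

lemma envGrad_bound (h : EnvData ρ r N) (x : Fin n → ℝ) (i : Fin n) :
    |envGrad ρ r N i x| ≤ N * (2 + r) * (1 + sumSq x) := by
  obtain ⟨h1, h2⟩ := h.grad_between x i one_pos
  have h3 := h.line_bound x i 1
  have h4 := h.line_bound x i (-1)
  simp only [div_one] at h1 h2
  simp only [abs_neg, abs_one, mul_one, one_pow, neg_one_sq] at h3 h4
  have h5 : |x i| ≤ 1 + sumSq x := by nlinarith [sq_le_sumSq x i, sq_abs (x i), sq_nonneg (|x i| - 1)]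
  have hr := h.r_nonneg
  have hN := h.N_pos
  have h6 : N * (|x i| + r) + N / 2 ≤ N * (2 + r) * (1 + sumSq x) := by
    nlinarith [sumSq_nonneg x, mul_nonneg hN.le (sumSq_nonneg x),
      mul_nonneg (mul_nonneg hN.le hr) (sumSq_nonneg x)]
  rw [abs_le]; constructor <;> linarith

lemma env_tangent (h : EnvData ρ r N) (x y : Fin n → ℝ) :
    env ρ r N x - env ρ r N y ≤ ∑ i, envGrad ρ r N i x * (x i - y i) := by
  rcases Nat.eq_zero_or_pos n with hn | hn
  · subst hn
    have : x = y := Subsingleton.elim _ _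
    simp [this]
  set u := y - x with hu
  set g := fun i => envGrad ρ r N i x
  set H := fun s : ℝ => env ρ r N (x + s • u) - env ρ r N x - s * ∑ i, g i * u i
  set C := n * N * sumSq u
  have hn0 : (0:ℝ) < n := by exact_mod_cast hn
  have hup : ∀ s : ℝ, H s ≤ C * s ^ 2 := by
    intro s
    set p := fun i : Fin n => update x i (x i + n * (s * u i))
    have hsum : ∑ i, ((1:ℝ) / n) • p i = x + s • u := by
      funext j
      simp only [Finset.sum_apply, Pi.smul_apply, smul_eq_mul, Pi.add_apply, p]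
      rw [← Finset.mul_sum, ← Finset.add_sum_erase _ _ (Finset.mem_univ j), update_self,
        show ∑ i ∈ Finset.univ.erase j, update x i (x i + n * (s * u i)) j
          = ∑ i ∈ Finset.univ.erase j, x j from
          Finset.sum_congr rfl fun i hi => update_of_ne (Finset.ne_of_mem_erase hi).symm _ _,
        Finset.sum_const, Finset.card_erase_of_mem (Finset.mem_univ j), Finset.card_univ,
        Fintype.card_fin, nsmul_eq_mul, Nat.cast_sub hn]
      field_simp
      push_cast; ring
    have hj := h.convexOn_env.map_sum_le (t := Finset.univ) (w := fun _ : Fin n => (1:ℝ) / n) (p := p)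
      (fun _ _ => by positivity) (by simp; field_simp) (fun _ _ => Set.mem_univ _)
    rw [hsum] at hj
    have hbd : ∀ i, env ρ r N (p i) ≤ env ρ r N x + g i * (n * (s * u i)) + N * (n * (s * u i)) ^ 2 := by
      intro i
      have := (abs_le.1 (h.grad_quad x i (n * (s * u i)))).2
      unfold lineEnv at this
      linarith
    have h2 : ∑ i, ((1:ℝ) / n) • env ρ r N (p i)
        ≤ ∑ i, ((1:ℝ) / n) * (env ρ r N x + g i * (n * (s * u i)) + N * (n * (s * u i)) ^ 2) :=
      Finset.sum_le_sum fun i _ => mul_le_mul_of_nonneg_left (hbd i) (by positivity)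
    have h3 : ∑ i, ((1:ℝ) / n) * (env ρ r N x + g i * (n * (s * u i)) + N * (n * (s * u i)) ^ 2)
        = env ρ r N x + s * ∑ i, g i * u i + C * s ^ 2 := by
      have e : ∀ i, ((1:ℝ) / n) * (env ρ r N x + g i * (n * (s * u i)) + N * (n * (s * u i)) ^ 2)
          = env ρ r N x / n + s * (g i * u i) + (n * N * s ^ 2) * u i ^ 2 := fun i => by field_simp
      simp only [e, Finset.sum_add_distrib, Finset.sum_const, Finset.card_univ, Fintype.card_fin,
        nsmul_eq_mul, ← Finset.mul_sum, C, sumSq]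
      field_simp
    show env ρ r N (x + s • u) - _ - _ ≤ _
    linarith
  have hlow : ∀ s : ℝ, -(C * s ^ 2) ≤ H s := by
    intro s
    have hc := h.convexOn_env.2 (Set.mem_univ (x + s • u)) (Set.mem_univ (x + (-s) • u))
      (show (0:ℝ) ≤ 1 / 2 by norm_num) (show (0:ℝ) ≤ 1 / 2 by norm_num) (by norm_num)
    have e : (1 / 2 : ℝ) • (x + s • u) + (1 / 2 : ℝ) • (x + (-s) • u) = x := by
      funext j; simp only [Pi.add_apply, Pi.smul_apply, smul_eq_mul]; ring
    rw [e, smul_eq_mul, smul_eq_mul] at hc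
    have := hup (-s)
    simp only [H] at this ⊢
    rw [neg_sq] at this
    linarith
  have hone : 0 ≤ H 1 := by
    refine le_of_tendsto (f := fun s : ℝ => -(C * s)) (x := 𝓝[>] (0:ℝ)) ?_ ?_
    · exact tendsto_nhdsWithin_of_tendsto_nhds (Continuous.tendsto' (by fun_prop) _ _ (by simp))
    · filter_upwards [Ioo_mem_nhdsGT (zero_lt_one' ℝ)] with s hs
      have hc := h.convexOn_env.2 (Set.mem_univ x) (Set.mem_univ (x + (1:ℝ) • u))
        (show 0 ≤ 1 - s by linarith [hs.2]) hs.1.le (by ring)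
      have e : (1 - s) • x + s • (x + (1:ℝ) • u) = x + s • u := by
        funext j; simp only [Pi.add_apply, Pi.smul_apply, smul_eq_mul]; ring
      rw [e, smul_eq_mul, smul_eq_mul] at hc
      have := hlow s
      refine le_of_mul_le_mul_left ?_ hs.1
      simp only [H] at this ⊢
      linarith
  simp only [H, one_smul, one_mul, hu, add_sub_cancel] at hone
  have : ∑ i, g i * (y - x) i = -∑ i, envGrad ρ r N i x * (x i - y i) := by
    rw [← Finset.sum_neg_distrib]
    exact Finset.sum_congr rfl fun i _ => by simp only [g, Pi.sub_apply]; ring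
  linarith

lemma env_lower (h : EnvData ρ r N) :
    ∃ c, ∀ x, N / 4 * sumSq x - c ≤ env ρ r N x := by
  obtain ⟨m, hm⟩ := h.bdd
  refine ⟨-m + N / 2 * (n * r ^ 2), fun x => h.le_env fun y hy => ?_⟩
  have hs : ∀ i, x i ^ 2 / 2 - r ^ 2 ≤ (x i - y i) ^ 2 := fun i => by
    have : y i ^ 2 ≤ r ^ 2 := sq_le_sq.2 (by rw [abs_of_nonneg h.r_nonneg]; exact hy.2 i)
    nlinarith [sq_nonneg (x i - 2 * y i)]
  have h1 : sumSq x / 2 - n * r ^ 2 ≤ sumSq (x - y) := by
    have := Finset.sum_le_sum fun i (_ : i ∈ Finset.univ) => hs i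
    simpa [sumSq, Finset.sum_sub_distrib, ← Finset.sum_div] using this
  have := mul_le_mul_of_nonneg_left h1 (show 0 ≤ N / 2 by linarith [h.N_pos])
  linarith [hm y hy]

lemma env_upper (h : EnvData ρ r N) : ∃ c, ∀ x, env ρ r N x ≤ c * (1 + sumSq x) := by
  obtain ⟨y, hy⟩ := h.nonempty
  refine ⟨|negLog ρ y| + N * (1 + sumSq y), fun x => (h.env_le x hy).trans ?_⟩
  have h1 : sumSq (x - y) ≤ 2 * sumSq x + 2 * sumSq y := by
    simp only [sumSq, Finset.mul_sum, ← Finset.sum_add_distrib, Pi.sub_apply]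
    exact Finset.sum_le_sum fun i _ => by nlinarith [sq_nonneg (x i + y i)]
  have := mul_le_mul_of_nonneg_left h1 (show 0 ≤ N / 2 by linarith [h.N_pos])
  have h0 := sumSq_nonneg x
  nlinarith [le_abs_self (negLog ρ y), mul_nonneg (abs_nonneg (negLog ρ y)) h0,
    mul_nonneg (mul_nonneg h.N_pos.le (sumSq_nonneg y)) h0, h.N_pos]

lemma env_flip (h : EnvData ρ r N) {S : Finset (Fin n)} (hf : FlipInv ρ S) {i : Fin n} (hi : i ∈ S)
    (x : Fin n → ℝ) : env ρ r N (update x i (-x i)) = env ρ r N x := by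
  have key : ∀ z, env ρ r N z ≤ env ρ r N (update z i (-z i)) := by
    intro z
    refine h.le_env fun y hy => ?_
    have hy' : update y i (-y i) ∈ suppBox ρ r := by
      refine ⟨?_, fun j => ?_⟩
      · show 0 < ρ _; rw [hf i hi]; exact hy.1
      · rcases eq_or_ne j i with rfl | hj
        · rw [update_self, abs_neg]; exact hy.2 j
        · rw [update_of_ne hj]; exact hy.2 j
    refine (h.env_le z hy').trans (le_of_eq ?_)
    rw [show negLog ρ (update y i (-y i)) = negLog ρ y by rw [negLog, negLog, hf i hi]]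
    congr 2
    refine Finset.sum_congr rfl fun j _ => ?_
    rcases eq_or_ne j i with rfl | hj
    · simp only [Pi.sub_apply, update_self]; ring
    · simp only [Pi.sub_apply, update_of_ne hj]
  refine le_antisymm ?_ (key x)
  have := key (update x i (-x i))
  simpa using this

lemma env_even_mono (h : EnvData ρ r N) {S : Finset (Fin n)} (hf : FlipInv ρ S) {i : Fin n} (hi : i ∈ S)
    (x : Fin n → ℝ) (s t : ℝ) (hst : |s| ≤ |t|) :
    env ρ r N (update x i s) ≤ env ρ r N (update x i t) := by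
  rcases eq_or_ne t 0 with rfl | ht
  · simp at hst; simp [hst]
  set a := (1 + s / t) / 2
  have hq : |s / t| ≤ 1 := by rw [abs_div, div_le_one (abs_pos.2 ht)]; exact hst
  rw [abs_le] at hq
  have hc := h.convexOn_env.2 (Set.mem_univ (update x i t)) (Set.mem_univ (update x i (-t)))
    (show 0 ≤ a by simp only [a]; linarith) (show 0 ≤ 1 - a by simp only [a]; linarith) (by ring)
  have e : a • update x i t + (1 - a) • update x i (-t) = update x i s := by
    funext j
    rcases eq_or_ne j i with rfl | hj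
    · simp only [Pi.add_apply, Pi.smul_apply, smul_eq_mul, update_self, a]; field_simp; ring
    · simp only [Pi.add_apply, Pi.smul_apply, smul_eq_mul, update_of_ne hj]; ring
  have hfl : env ρ r N (update x i (-t)) = env ρ r N (update x i t) := by
    have := h.env_flip hf hi (update x i t)
    simpa using this
  rw [e, hfl, smul_eq_mul, smul_eq_mul] at hc
  linarith

lemma integrable_exp_env (h : EnvData ρ r N) : Integrable fun x => Real.exp (-env ρ r N x) := by
  obtain ⟨c, hc⟩ := h.env_lower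
  refine ((integrable_gauss (show 0 < N / 4 by linarith [h.N_pos])).const_mul (Real.exp c)).mono'
    (h.continuous_env.neg.rexp).aestronglyMeasurable (Eventually.of_forall fun x => ?_)
  rw [Real.norm_eq_abs, abs_of_pos (Real.exp_pos _), ← Real.exp_add]
  exact Real.exp_le_exp.2 (by linarith [hc x])

/-- Normalising constant of the envelope. -/
noncomputable def partition' (ρ : (Fin n → ℝ) → ℝ) (r N : ℝ) : ℝ := ∫ x, Real.exp (-env ρ r N x)

lemma partition_pos (h : EnvData ρ r N) : 0 < partition' ρ r N := integral_exp_pos h.integrable_exp_env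

/-- The normalised envelope as a potential. -/
noncomputable def pot (h : EnvData ρ r N) : Pot n where
  V x := env ρ r N x + Real.log (partition' ρ r N)
  G i x := envGrad ρ r N i x
  contV := h.continuous_env.add continuous_const
  lower := by
    obtain ⟨c, hc⟩ := h.env_lower
    exact ⟨c - Real.log (partition' ρ r N), N / 4, by linarith [h.N_pos],
      fun x => by linarith [hc x]⟩
  upper := by
    obtain ⟨c, hc⟩ := h.env_upper
    refine ⟨c + |Real.log (partition' ρ r N)|, fun x => ?_⟩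
    nlinarith [hc x, le_abs_self (Real.log (partition' ρ r N)),
      mul_nonneg (abs_nonneg (Real.log (partition' ρ r N))) (sumSq_nonneg x)]
  Gmeas := h.measurable_envGrad
  Gbound := ⟨N * (2 + r), fun i x => h.envGrad_bound x i⟩
  deriv i x := (h.env_hasDerivAt x i).add_const _
  tangent a b := by linarith [h.env_tangent a b]
  one := by
    simp only [neg_add, Real.exp_add, Real.exp_neg (Real.log _), Real.exp_log h.partition_pos]
    rw [integral_mul_const]
    exact mul_inv_cancel₀ h.partition_pos.ne'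

end EnvData

end Vale.Agent.P245
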