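import Mathlib
import Vale.Agent.P245.Entropy
import Vale.Agent.P245.Envelope

/-!
Passing to the limit: from smooth potentials to log-concave densities.
-/

namespace Vale.Agent.P245

open MeasureTheory Set Filter Topology Function Finset

variable {n : ℕ}

lemma norm_sq_le_sumSq (v : Fin n → ℝ) : ‖v‖ ^ 2 ≤ sumSq v := by
  have h : ‖v‖ ≤ Real.sqrt (sumSq v) := by
    refine (pi_norm_le_iff_of_nonneg (Real.sqrt_nonneg _)).2 fun i => ?_
    rw [Real.norm_eq_abs]
    exact Real.le_sqrt_of_sq_le (by rw [sq_abs]; exact sq_le_sumSq v i)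
  calc ‖v‖ ^ 2 ≤ Real.sqrt (sumSq v) ^ 2 := pow_le_pow_left₀ (norm_nonneg v) h 2
    _ = _ := Real.sq_sqrt (sumSq_nonneg v)

lemma measurableSet_suppBox {ρ : (Fin n → ℝ) → ℝ} (hρ : Measurable ρ) (r : ℝ) :
    MeasurableSet (suppBox ρ r) :=
  (measurableSet_lt measurable_const hρ).inter (isClosed_box r).measurableSet

/-- Pointwise convergence of the envelopes, away from a null set. -/
lemma tendsto_env {ρ : (Fin n → ℝ) → ℝ} {r N0 : ℝ} (h : EnvData ρ r N0) :
    ∀ᵐ x, Tendsto (fun k : ℕ => Real.exp (-env ρ r (N0 + k) x)) atTop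
      (𝓝 ((suppBox ρ r).indicator ρ x)) := by
  have hfr : volume (frontier (suppBox ρ r)) = 0 := (h.lc.convex_suppBox r).addHaar_frontier volume
  have hd : ∀ k : ℕ, EnvData ρ r (N0 + k) := fun k =>
    { h with N_pos := by have := h.N_pos; positivity }
  filter_upwards [measure_eq_zero_iff_ae_notMem.1 hfr] with x hx
  have hlin : Tendsto (fun k : ℕ => N0 + (k:ℝ)) atTop atTop :=
    tendsto_atTop_add_const_left _ _ tendsto_natCast_atTop_atTop
  by_cases hxc : x ∈ closure (suppBox ρ r)
  · have hxi : x ∈ interior (suppBox ρ r) := by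
      by_contra hni
      exact hx ⟨hxc, hni⟩
    have hxs : x ∈ suppBox ρ r := interior_subset hxi
    obtain ⟨d, hd0, hlo⟩ := h.lc.negLog_local (interior_mono Set.inter_subset_left hxi)
    rw [Set.indicator_of_mem hxs]
    have hev : ∀ k : ℕ, negLog ρ x - 1 / (2 * (N0 + k) * d ^ 2) ≤ env ρ r (N0 + k) x ∧
        env ρ r (N0 + k) x ≤ negLog ρ x := by
      intro k
      have hN := (hd k).N_pos
      refine ⟨(hd k).le_env fun y hy => ?_, ?_⟩
      · have h1 := hlo y hy.1
        have h2 : ‖y - x‖ ^ 2 ≤ sumSq (x - y) := by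
          rw [norm_sub_rev]; exact norm_sq_le_sumSq _
        have h3 := mul_le_mul_of_nonneg_left h2 (show 0 ≤ (N0 + k) / 2 by linarith)
        have key : 0 ≤ (N0 + k) / 2 * ‖y - x‖ ^ 2 - ‖y - x‖ / d + 1 / (2 * (N0 + k) * d ^ 2) := by
          have e : (N0 + k) / 2 * ‖y - x‖ ^ 2 - ‖y - x‖ / d + 1 / (2 * (N0 + k) * d ^ 2)
              = ((N0 + k) * d * ‖y - x‖ - 1) ^ 2 / (2 * (N0 + k) * d ^ 2) := by field_simp; ring
          rw [e]; positivity
        linarith
      · have := (hd k).env_le x hxs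
        simpa [sumSq] using this
    have hlim : Tendsto (fun k : ℕ => env ρ r (N0 + k) x) atTop (𝓝 (negLog ρ x)) := by
      refine tendsto_of_tendsto_of_tendsto_of_le_of_le ?_ tendsto_const_nhds (fun k => (hev k).1)
        (fun k => (hev k).2)
      have : Tendsto (fun k : ℕ => 1 / (2 * (N0 + k) * d ^ 2)) atTop (𝓝 0) := by
        refine Tendsto.div_atTop tendsto_const_nhds ?_
        exact (hlin.const_mul_atTop two_pos).atTop_mul_const (by positivity)
      simpa using tendsto_const_nhds.sub this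
    have h4 := (Real.continuous_exp.tendsto _).comp hlim.neg
    simpa [negLog, Real.exp_log (show 0 < ρ x from hxs.1), comp_def] using h4
  · rw [Set.indicator_of_notMem (fun hh => hxc (subset_closure hh))]
    obtain ⟨η, hη, hball⟩ := Metric.isOpen_iff.1 isClosed_closure.isOpen_compl x hxc
    obtain ⟨m, hm⟩ := h.bdd
    have hev : ∀ k : ℕ, m + (N0 + k) / 2 * η ^ 2 ≤ env ρ r (N0 + k) x := fun k =>
      (hd k).le_env fun y hy => by
        have h1 : η ≤ ‖x - y‖ := by
          by_contra hlt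
          push Not at hlt
          exact hball (by rwa [Metric.mem_ball, dist_eq_norm, norm_sub_rev]) (subset_closure hy)
        have h2 : η ^ 2 ≤ sumSq (x - y) :=
          (pow_le_pow_left₀ hη.le h1 2).trans (norm_sq_le_sumSq _)
        have := mul_le_mul_of_nonneg_left h2 (show 0 ≤ (N0 + k) / 2 by linarith [(hd k).N_pos])
        linarith [hm y hy]
    refine Real.tendsto_exp_atBot.comp (tendsto_neg_atTop_atBot.comp ?_)
    refine tendsto_atTop_mono hev (tendsto_atTop_add_const_left _ _ ?_)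
    exact (hlin.atTop_div_const two_pos).atTop_mul_const (by positivity)

lemma env_mono {ρ : (Fin n → ℝ) → ℝ} {r N0 : ℝ} (h : EnvData ρ r N0) (k : ℕ) (x : Fin n → ℝ) :
    env ρ r N0 x ≤ env ρ r (N0 + k) x := by
  have hk : EnvData ρ r (N0 + k) := { h with N_pos := by have := h.N_pos; positivity }
  refine hk.le_env fun y hy => (h.env_le x hy).trans ?_
  have : (0:ℝ) ≤ k / 2 * sumSq (x - y) := mul_nonneg (by positivity) (sumSq_nonneg _)
  linarith

/-- Convergence of integrals against the envelopes. -/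
lemma tendsto_env_integral {ρ : (Fin n → ℝ) → ℝ} {r N0 : ℝ} (h : EnvData ρ r N0)
    (hρ : Measurable ρ) {f : (Fin n → ℝ) → ℝ} (hf : Continuous f) {C c : ℝ} (hc : c < N0 / 4)
    (hb : ∀ x, |f x| ≤ C * Real.exp (c * sumSq x)) :
    Tendsto (fun k : ℕ => ∫ x, f x * Real.exp (-env ρ r (N0 + k) x)) atTop
      (𝓝 (∫ x in suppBox ρ r, f x * ρ x)) := by
  obtain ⟨b, hb'⟩ := h.env_lower
  rw [← integral_indicator (measurableSet_suppBox hρ r)]
  refine tendsto_integral_of_dominated_convergence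
    (fun x => C * Real.exp b * Real.exp (-(N0 / 4 - c) * sumSq x)) (fun k => ?_)
    ((integrable_gauss (by linarith)).const_mul _) (fun k => Eventually.of_forall fun x => ?_) ?_
  · have hk : EnvData ρ r (N0 + k) := { h with N_pos := by have := h.N_pos; positivity }
    exact (hf.mul hk.continuous_env.neg.rexp).aestronglyMeasurable
  · rw [Real.norm_eq_abs, abs_mul, abs_of_pos (Real.exp_pos _), mul_assoc, ← Real.exp_add]
    have h1 : -env ρ r (N0 + k) x ≤ b - N0 / 4 * sumSq x := by
      linarith [env_mono h k x, hb' x]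
    have hC : 0 ≤ C * Real.exp (c * sumSq x) := (abs_nonneg _).trans (hb x)
    calc |f x| * Real.exp (-env ρ r (N0 + k) x)
        ≤ C * Real.exp (c * sumSq x) * Real.exp (b - N0 / 4 * sumSq x) :=
          mul_le_mul (hb x) (Real.exp_le_exp.2 h1) (Real.exp_pos _).le hC
      _ = _ := by rw [mul_assoc, ← Real.exp_add]; ring_nf
  · filter_upwards [tendsto_env h] with x hx
    have := hx.const_mul (f x)
    by_cases hs : x ∈ suppBox ρ r
    · rw [Set.indicator_of_mem hs] at this ⊢; exact this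
    · rw [Set.indicator_of_notMem hs] at this ⊢; simpa using this

namespace EnvData

variable {ρ : (Fin n → ℝ) → ℝ} {r N : ℝ}

lemma integral_pot (h : EnvData ρ r N) (f : (Fin n → ℝ) → ℝ) :
    ∫ x, f x ∂h.pot.dens.meas = (∫ x, f x * Real.exp (-env ρ r N x)) / partition' ρ r N := by
  rw [Dens.integral_meas, ← integral_div]
  congr 1; funext x
  show Real.exp (-(env ρ r N x + Real.log (partition' ρ r N))) * f x = _
  rw [neg_add, Real.exp_add, Real.exp_neg (Real.log _), Real.exp_log h.partition_pos]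
  ring

lemma unimodal_pot (h : EnvData ρ r N) {S : Finset (Fin n)} (hf : FlipInv ρ S) {i : Fin n}
    (hi : i ∈ S) : h.pot.dens.EvenUnimodal i := fun x s t hst =>
  Real.exp_le_exp.2 (neg_le_neg (add_le_add_left (h.env_even_mono hf hi x s t hst) _))

end EnvData

/-- The constant in the logarithmic Sobolev inequality. -/
noncomputable def lsiBound (n : ℕ) (k : ℕ) (a : ℝ) : ℝ :=
  100 * (10000 * (32 * a ^ 2 * Real.log ((n:ℝ) + 2)) + 10000 / (8 * a ^ 2)⁻¹ * (1 + ((k:ℝ) / 2 + 3)))

lemma lsiBound_le (n k : ℕ) (a : ℝ) :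
    320 * lsiBound n k a ≤ 30000000000 * a ^ 2 * ((k:ℝ) + Real.log ((n:ℝ) + 2)) := by
  have h2 : Real.log 2 ≤ Real.log ((n:ℝ) + 2) := Real.log_le_log two_pos (by simp)
  have h3 := Real.log_two_gt_d9
  have hk : (0:ℝ) ≤ k := Nat.cast_nonneg k
  have key : 320 * (1000000 * (32 * Real.log ((n:ℝ) + 2) + 4 * (k:ℝ) + 32))
      ≤ 30000000000 * ((k:ℝ) + Real.log ((n:ℝ) + 2)) := by linarith
  have := mul_le_mul_of_nonneg_right key (sq_nonneg a)
  unfold lsiBound
  rw [div_inv_eq_mul]
  linarith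

variable {ρ : (Fin n → ℝ) → ℝ} {a : ℝ}

/-- The inequality on a box, with normalising constant close to one. -/
lemma lsi_box (hsub : SubDensity ρ a) (hlc : LogConcaveFun ρ) {S : Finset (Fin n)}
    (hf : FlipInv ρ S) (T : Test n) (hDc : Continuous (fun x => ∑ i, T.Dg i x ^ 2))
    {r : ℝ} (hr : 0 ≤ r) (hne : (suppBox ρ r).Nonempty)
    (hZ : Real.exp (-(1 / 2)) < ∫ x in suppBox ρ r, ρ x) :
    (∫ x in suppBox ρ r, nlog (T.g x ^ 2) * ρ x) / (∫ x in suppBox ρ r, ρ x)
      - nlog ((∫ x in suppBox ρ r, T.g x ^ 2 * ρ x) / ∫ x in suppBox ρ r, ρ x)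
      ≤ 320 * lsiBound n Sᶜ.card a *
        ((∫ x in suppBox ρ r, (∑ i, T.Dg i x ^ 2) * ρ x) / ∫ x in suppBox ρ r, ρ x) := by
  have ha := hsub.a_pos
  set R := Real.sqrt (32 * a ^ 2 * Real.log ((n:ℝ) + 2))
  have hlog : 0 < Real.log ((n:ℝ) + 2) := Real.log_pos (by linarith [(Nat.cast_nonneg n : (0:ℝ) ≤ n)])
  have hR : 0 < R := Real.sqrt_pos.2 (by positivity)
  have hR2 : R ^ 2 = 32 * a ^ 2 * Real.log ((n:ℝ) + 2) := Real.sq_sqrt (by positivity)
  set lam := (8 * a ^ 2)⁻¹
  have hlam : 0 < lam := by positivity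
  set M := (Sᶜ.card : ℝ) / 2 + 2
  obtain ⟨hwi, hwle⟩ := hsub.weight_le S hR.le hR2
  set N0 := 4 * lam + 4
  have hd0 : EnvData ρ r N0 :=
    { lc := hlc, nonempty := hne, bdd := hlc.negLog_bddBelow hsub.nonneg hsub.one r,
      N_pos := by positivity, r_nonneg := hr }
  have hd : ∀ k : ℕ, EnvData ρ r (N0 + k) := fun k =>
    { hd0 with N_pos := by positivity }
  set Z := ∫ x in suppBox ρ r, ρ x
  have hZ0 : 0 < Z := (Real.exp_pos _).trans hZ
  have hlim : ∀ {f : (Fin n → ℝ) → ℝ}, Continuous f → ∀ {C : ℝ},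
      (∀ x, |f x| ≤ C * Real.exp (lam * sumSq x)) →
      Tendsto (fun k : ℕ => ∫ x, f x ∂(hd k).pot.dens.meas) atTop
        (𝓝 ((∫ x in suppBox ρ r, f x * ρ x) / Z)) := by
    intro f hfc C hC
    simp only [EnvData.integral_pot]
    refine (tendsto_env_integral hd0 hsub.meas hfc (by simp only [N0]; linarith) hC).div ?_ hZ0.ne'
    have := tendsto_env_integral hd0 hsub.meas (continuous_const (y := (1:ℝ))) (C := 1)
      (c := lam) (by simp only [N0]; linarith)
      (fun x => by rw [abs_one, one_mul]; exact Real.one_le_exp (mul_nonneg hlam.le (sumSq_nonneg x)))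
    simpa [EnvData.partition'] using this
  have hbd : ∀ {f : (Fin n → ℝ) → ℝ} {B : ℝ}, (∀ x, |f x| ≤ B) →
      ∀ x, |f x| ≤ B * Real.exp (lam * sumSq x) := fun {f B} hB x => by
    refine (hB x).trans (le_mul_of_one_le_right ((abs_nonneg _).trans (hB x)) ?_)
    exact Real.one_le_exp (mul_nonneg hlam.le (sumSq_nonneg x))
  have hwb : ∀ x, |Real.exp (lam * weightF S R x)| ≤ 1 * Real.exp (lam * sumSq x) := fun x => by
    rw [one_mul, abs_of_pos (Real.exp_pos _)]
    exact Real.exp_le_exp.2 (mul_le_mul_of_nonneg_left (weightF_le S hR.le x) hlam.le)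
  have hwlim := hlim ((by fun_prop : Continuous fun x => Real.exp (lam * weightF S R x))) hwb
  have hlt : (∫ x in suppBox ρ r, Real.exp (lam * weightF S R x) * ρ x) / Z < Real.exp (M + 1) := by
    rw [div_lt_iff₀ hZ0]
    refine lt_of_le_of_lt ((setIntegral_le_integral hwi (Eventually.of_forall fun x =>
      mul_nonneg (Real.exp_pos _).le (hsub.nonneg x))).trans hwle) ?_
    calc Real.exp M < Real.exp (M + 1) * Real.exp (-(1 / 2)) := by
          rw [← Real.exp_add]; exact Real.exp_lt_exp.2 (by linarith)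
      _ ≤ _ := mul_le_mul_of_nonneg_left hZ.le (Real.exp_pos _).le
  set tau := lsiBound n Sᶜ.card a with htau
  have htau0 : 0 ≤ tau := by rw [htau, lsiBound]; positivity
  obtain ⟨B, hB⟩ := T.bdd
  obtain ⟨B2, hB2⟩ := T.exists_sq_bound
  obtain ⟨C2, hC2⟩ := exists_bound_nlog B2
  have hev : ∀ᶠ k : ℕ in atTop, entro (hd k).pot.dens.meas (fun x => T.g x ^ 2)
      ≤ 320 * tau * T.energy (hd k).pot := by
    filter_upwards [hwlim.eventually (eventually_lt_nhds hlt)] with k hk
    refine T.logSobolev ⟨fun T' δ hδ => ?_, htau0⟩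
    have hexp : Integrable (fun x => Real.exp (lam * weightF S R x)) (hd k).pot.dens.meas :=
      (Dens.integrable_meas_iff _ _).2 (by
        obtain ⟨c, hc⟩ := (hd k).env_lower
        refine ((integrable_gauss (show 0 < (N0 + k) / 4 - lam by
          simp only [N0]; linarith [(Nat.cast_nonneg k : (0:ℝ) ≤ k)])).const_mul
          (Real.exp c / EnvData.partition' ρ r (N0 + k))).mono'
          (((hd k).pot.dens.cont).mul (by fun_prop)).aestronglyMeasurable
          (Eventually.of_forall fun x => ?_)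
        show |Real.exp (-(env ρ r (N0 + k) x + Real.log (EnvData.partition' ρ r (N0 + k))))
          * Real.exp (lam * weightF S R x)| ≤ _
        rw [abs_of_pos (by positivity), neg_add, Real.exp_add, Real.exp_neg (Real.log _),
          Real.exp_log (hd k).partition_pos, div_eq_mul_inv, mul_right_comm,
          mul_right_comm (Real.exp c)]
        refine mul_le_mul_of_nonneg_right ?_ (inv_nonneg.2 (hd k).partition_pos.le)
        rw [← Real.exp_add, ← Real.exp_add]
        refine Real.exp_le_exp.2 ?_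
        linarith [hc x, mul_le_mul_of_nonneg_left (weightF_le S hR.le x) hlam.le])
    exact entropy_reg (hd k).pot T' S hR hlam (by positivity : 0 ≤ M + 1) hδ
      (fun i hi => (hd k).unimodal_pot hf hi) hexp hk.le
      (le_of_eq (by rw [htau, lsiBound, hR2]; simp only [M, lam]; ring))
  have l1 := hlim (f := fun x => nlog (T.g x ^ 2)) (continuous_nlog.comp (T.cont.pow 2))
    (hbd (f := fun x => nlog (T.g x ^ 2)) fun x => hC2 _ (hB2 x))
  have l2 := hlim (f := fun x => T.g x ^ 2) (T.cont.pow 2) (hbd (f := fun x => T.g x ^ 2) fun x => by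
    rw [abs_of_nonneg (hB2 x).1]; exact (hB2 x).2)
  have l3 := hlim hDc (hbd (f := fun x => ∑ i, T.Dg i x ^ 2) (B := n * B ^ 2) fun x => by
    rw [abs_of_nonneg (Finset.sum_nonneg fun i _ => sq_nonneg _)]
    refine (Finset.sum_le_sum fun i _ => show T.Dg i x ^ 2 ≤ B ^ 2 by
      rw [← sq_abs]; exact pow_le_pow_left₀ (abs_nonneg _) ((hB x).2 i) 2).trans ?_
    simp)
  exact le_of_tendsto_of_tendsto (l1.sub ((continuous_nlog.tendsto _).comp l2))
    (l3.const_mul _) hev

/-- The logarithmic Sobolev inequality in coordinates. -/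
theorem lsi_pi (hsub : SubDensity ρ a) (hlc : LogConcaveFun ρ) {S : Finset (Fin n)}
    (hf : FlipInv ρ S) (T : Test n) (hDc : Continuous (fun x => ∑ i, T.Dg i x ^ 2)) :
    (∫ x, nlog (T.g x ^ 2) * ρ x) - nlog (∫ x, T.g x ^ 2 * ρ x)
      ≤ 30000000000 * a ^ 2 * ((Sᶜ.card : ℝ) + Real.log ((n:ℝ) + 2))
        * ∫ x, (∑ i, T.Dg i x ^ 2) * ρ x := by
  obtain ⟨r0, hr0⟩ := hlc.exists_suppBox hsub.nonneg hsub.one
  set r : ℕ → ℝ := fun j => max r0 0 + j
  have hlim : ∀ {f : (Fin n → ℝ) → ℝ}, Measurable f → ∀ {B : ℝ}, (∀ x, |f x| ≤ B) →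
      Tendsto (fun j => ∫ x in suppBox ρ (r j), f x * ρ x) atTop (𝓝 (∫ x, f x * ρ x)) := by
    intro f hfm B hB
    have hi : Integrable fun x => f x * ρ x :=
      hsub.int.bdd_mul (c := B) hfm.aestronglyMeasurable (Eventually.of_forall fun x => by simpa using hB x)
    simp only [← integral_indicator (measurableSet_suppBox hsub.meas _)]
    refine tendsto_integral_of_dominated_convergence (fun x => |f x * ρ x|)
      (fun j => ((hfm.mul hsub.meas).indicator
        (measurableSet_suppBox hsub.meas _)).aestronglyMeasurable) hi.abs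
      (fun j => Eventually.of_forall fun x => ?_) (Eventually.of_forall fun x => ?_)
    · exact norm_indicator_le_norm_self _ _
    · rcases (hsub.nonneg x).eq_or_lt with hx | hx
      · refine tendsto_const_nhds.congr fun j => ?_
        by_cases hs : x ∈ suppBox ρ (r j)
        · rw [Set.indicator_of_mem hs]
        · rw [Set.indicator_of_notMem hs, ← hx, mul_zero]
      · refine tendsto_const_nhds.congr' ?_
        filter_upwards [eventually_ge_atTop ⌈‖x‖⌉₊] with j hj
        rw [Set.indicator_of_mem]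
        refine ⟨hx, fun i => ?_⟩
        calc |x i| = ‖x i‖ := (Real.norm_eq_abs _).symm
          _ ≤ ‖x‖ := norm_le_pi_norm x i
          _ ≤ (j : ℝ) := (Nat.le_ceil _).trans (by exact_mod_cast hj)
          _ ≤ r j := le_add_of_nonneg_left (le_max_right _ _)
  obtain ⟨B, hB⟩ := T.bdd
  obtain ⟨B2, hB2⟩ := T.exists_sq_bound
  obtain ⟨C2, hC2⟩ := exists_bound_nlog B2
  have l0 : Tendsto (fun j => ∫ x in suppBox ρ (r j), ρ x) atTop (𝓝 1) := by
    have := hlim (f := fun _ => (1:ℝ)) measurable_const (B := 1) (fun _ => by simp)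
    simpa [hsub.one] using this
  have l1 := hlim (f := fun x => nlog (T.g x ^ 2))
    ((by have := T.cont; fun_prop : Continuous fun x => nlog (T.g x ^ 2)).measurable)
    fun x => hC2 _ (hB2 x)
  have l2 := hlim (f := fun x => T.g x ^ 2) (T.cont.pow 2).measurable (B := B2) fun x => by
    rw [abs_of_nonneg (hB2 x).1]; exact (hB2 x).2
  have l3 := hlim (f := fun x => ∑ i, T.Dg i x ^ 2) hDc.measurable (B := n * B ^ 2) fun x => by
    rw [abs_of_nonneg (Finset.sum_nonneg fun i _ => sq_nonneg _)]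
    refine (Finset.sum_le_sum fun i _ => show T.Dg i x ^ 2 ≤ B ^ 2 by
      rw [← sq_abs]; exact pow_le_pow_left₀ (abs_nonneg _) ((hB x).2 i) 2).trans ?_
    simp
  have hev : ∀ᶠ j in atTop,
      (∫ x in suppBox ρ (r j), nlog (T.g x ^ 2) * ρ x) / (∫ x in suppBox ρ (r j), ρ x)
        - nlog ((∫ x in suppBox ρ (r j), T.g x ^ 2 * ρ x) / ∫ x in suppBox ρ (r j), ρ x)
      ≤ 320 * lsiBound n Sᶜ.card a *
        ((∫ x in suppBox ρ (r j), (∑ i, T.Dg i x ^ 2) * ρ x) / ∫ x in suppBox ρ (r j), ρ x) := by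
    filter_upwards [l0.eventually (eventually_gt_nhds
      (show Real.exp (-(1 / 2)) < 1 by rw [Real.exp_lt_one_iff]; norm_num))] with j hj
    have hrj : r0 ≤ r j :=
      (le_max_left r0 0).trans (le_add_of_nonneg_right (Nat.cast_nonneg j))
    exact lsi_box hsub hlc hf T hDc (r := r j) (add_nonneg (le_max_right _ _) (Nat.cast_nonneg j))
      (hr0 _ hrj).1 hj
  have h := le_of_tendsto_of_tendsto ((l1.div l0 one_ne_zero).sub ((continuous_nlog.tendsto _).comp
    (l2.div l0 one_ne_zero))) ((l3.div l0 one_ne_zero).const_mul (320 * lsiBound n Sᶜ.card a)) hev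
  simp only [div_one] at h
  refine h.trans (mul_le_mul_of_nonneg_right (lsiBound_le n Sᶜ.card a) ?_)
  exact integral_nonneg fun x => mul_nonneg (Finset.sum_nonneg fun i _ => sq_nonneg _) (hsub.nonneg x)

end Vale.Agent.P245
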